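import Vale.Agent.P265.MathlibUsed
import Vale.Agent.P265.Flat.LDefs
attribute [-instance] ProperSMul.toContinuousSMul IsTopologicalTorsor.toContinuousSMul IdemSemiring.toCanonicallyOrderedAdd IdemSemiring.toMulLeftMono IdemSemiring.toMulRightMono AddQuantale.instAddLeftMono AddQuantale.instAddRightMono Quantale.instMulLeftMono Quantale.instMulRightMono FiniteDimensional.rclike_to_real IsScalarTower.complexToReal FiniteDimensional.complexToReal

set_option linter.all false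

section

open Set Manifold
open scoped ContDiff Topology

namespace Vale.Agent.P265

section Calculus

variable {E : Type*} [NormedAddCommGroup E] [NormedSpace ℝ E] {B : Type*} [TopologicalSpace B]
  (I : ModelWithCorners ℝ E B) {X : Type*} [TopologicalSpace X] [ChartedSpace B X]
  {E' : Type*} [NormedAddCommGroup E'] [NormedSpace ℝ E'] {B' : Type*} [TopologicalSpace B']
  (I' : ModelWithCorners ℝ E' B') {X' : Type*} [TopologicalSpace X'] [ChartedSpace B' X']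

/-- The derivative `d_x f(v)` of a map `f` between manifolds. -/
noncomputable def dmap (f : X → X') (x : X) (v : TangentSpace I x) : TangentSpace I' (f x) :=
  mfderiv I I' f x v

/-- The derivative `d_x f(v)` of a real function on a manifold. -/
noncomputable def dfun (f : X → ℝ) (x : X) (v : TangentSpace I x) : ℝ := mfderiv I 𝓘(ℝ, ℝ) f x v

/-- The set of critical points of a function on a manifold. -/
def Crit (f : X → ℝ) : Set X := {x | ∀ v, dfun I f x v = 0}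

/-- The Hessian of `f` at `x`, computed in the preferred chart at `x`, is nondegenerate. -/
def HessNondeg (f : X → ℝ) (x : X) : Prop :=
  ∀ v : E, (∀ w : E, fderiv ℝ (fderiv ℝ (f ∘ (extChartAt I x).symm)) (extChartAt I x x) v w = 0) →
    v = 0

/-- Morse functions: smooth, with nondegenerate critical points. -/
def IsMorse (f : X → ℝ) : Prop :=
  ContMDiff I 𝓘(ℝ, ℝ) ∞ f ∧ ∀ x ∈ Crit I f, HessNondeg I f x

end Calculus

section StableMorse

variable (V : Type*) [NormedAddCommGroup V] [NormedSpace ℝ V]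
  (W : Type*) [TopologicalSpace W] [ChartedSpace V W]
  (Z : Type*) [NormedAddCommGroup Z] [NormedSpace ℝ Z]

variable {W Z} in
/-- `F : W × Z → ℝ` equals, if `Z ≠ 0`, a nondegenerate quadratic form `Q(z)` for `|z| ≥ R`. -/
def QuadAtInfty (F : W × Z → ℝ) : Prop :=
  Nontrivial Z → ∃ (Q : QuadraticForm ℝ Z) (R : ℝ),
    (∀ v, (∀ w, QuadraticMap.polar Q v w = 0) → v = 0) ∧ 0 < R ∧ ∀ x z, R ≤ ‖z‖ → F (x, z) = Q z

/-- The minimal number of critical points of a Morse function on `W × Z` which, if `Z ≠ 0`, equals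
a nondegenerate quadratic form outside a compact set. -/
noncomputable def MorseNumberAt : ℕ∞ :=
  ⨅ (F : W × Z → ℝ) (_ : IsMorse (𝓘(ℝ, V).prod 𝓘(ℝ, Z)) F) (_ : QuadAtInfty F),
    (Crit (𝓘(ℝ, V).prod 𝓘(ℝ, Z)) F).encard

/-- The stable Morse number of `W`. -/
noncomputable def StableMorseNumber : ℕ∞ := ⨅ k : ℕ, MorseNumberAt V W (EuclideanSpace ℝ (Fin k))

end StableMorse

section Symplectic

/-- A field of real functions of two tangent vectors on `M`. -/
abbrev FormField (V : Type*) [NormedAddCommGroup V] [NormedSpace ℝ V] (M : Type*)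
    [TopologicalSpace M] [ChartedSpace V M] : Type _ :=
  ∀ x : M, TangentSpace 𝓘(ℝ, V) x → TangentSpace 𝓘(ℝ, V) x → ℝ

variable {V : Type*} [NormedAddCommGroup V] [NormedSpace ℝ V] {M : Type*} [TopologicalSpace M]
  [ChartedSpace V M]

/-- The pullback of `om` by `P : V → M`, evaluated at the point `y` on the vectors `v`, `w`. -/
noncomputable def pullback (om : FormField V M) (P : V → M) (v w y : V) : ℝ :=
  om (P y) (dmap 𝓘(ℝ, V) 𝓘(ℝ, V) P y v) (dmap 𝓘(ℝ, V) 𝓘(ℝ, V) P y w)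

/-- `om` is a symplectic form: bilinear, alternating, nondegenerate, smooth and closed. -/
structure IsSymplectic (om : FormField V M) : Prop where
  bilin : ∀ x, IsBilinearMap ℝ (om x)
  alt : ∀ x v, om x v v = 0
  nondeg : ∀ x v, (∀ w, om x v w = 0) → v = 0
  smooth : ∀ x₀ v w, ContDiffOn ℝ ∞ (pullback om (extChartAt 𝓘(ℝ, V) x₀).symm v w)
    (extChartAt 𝓘(ℝ, V) x₀).target
  closed : ∀ x₀, ∀ y ∈ (extChartAt 𝓘(ℝ, V) x₀).target, ∀ u v w,
    fderiv ℝ (pullback om (extChartAt 𝓘(ℝ, V) x₀).symm v w) y u +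
      fderiv ℝ (pullback om (extChartAt 𝓘(ℝ, V) x₀).symm w u) y v +
      fderiv ℝ (pullback om (extChartAt 𝓘(ℝ, V) x₀).symm u v) y w = 0

variable (V) in
/-- A smooth Hamiltonian `H : ℝ × M → ℝ`, `1`-periodic in time. -/
structure IsPeriodicHamiltonian (H : ℝ → M → ℝ) : Prop where
  smooth : ContMDiff (𝓘(ℝ, ℝ).prod 𝓘(ℝ, V)) 𝓘(ℝ, ℝ) ∞ (fun z : ℝ × M => H z.1 z.2)
  periodic : ∀ t x, H (t + 1) x = H t x

/-- `φ` is the Hamiltonian flow of `H`: smooth, `φ⁰ = id` and `om(∂ₜφᵗ(x), ·) = dH_t` at `φᵗ(x)`. -/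
structure IsHamiltonianFlow (om : FormField V M) (H : ℝ → M → ℝ) (φ : ℝ → M → M) : Prop where
  smooth : ContMDiff (𝓘(ℝ, ℝ).prod 𝓘(ℝ, V)) 𝓘(ℝ, V) ∞ (fun z : ℝ × M => φ z.1 z.2)
  zero : ∀ x, φ 0 x = x
  hamilton : ∀ t x w, om (φ t x) (dmap 𝓘(ℝ, ℝ) 𝓘(ℝ, V) (fun s => φ s x) t (1 : ℝ)) w =
    dfun 𝓘(ℝ, V) (H t) (φ t x) w

variable (V) in
/-- All fixed points of `g : M → M` are nondegenerate: `1` is not an eigenvalue of `d_x g`. -/
def NondegFixedPoints (g : M → M) : Prop :=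
  ∀ x, g x = x → ∀ v : V, dmap 𝓘(ℝ, V) 𝓘(ℝ, V) g x v = v → v = 0

/-- `Fix₀`: the fixed points `x` of `φ¹` whose loop `t ↦ φᵗ(x)`, `0 ≤ t ≤ 1`, is contractible. -/
def Fix0 {M : Type*} [TopologicalSpace M] (φ : ℝ → M → M) : Set M :=
  {x | φ 1 x = x ∧ ∃ γ : Path x x, (∀ t, γ t = φ t x) ∧ γ.Homotopic (Path.refl x)}

/-- The Poisson bracket of `K` and `h` vanishes at `x`: the Hamiltonian vector `X` of `h` at `x`
satisfies `dK(X) = 0`. -/
def PoissonZero (om : FormField V M) (K h : M → ℝ) (x : M) : Prop :=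
  ∀ X, (∀ w, om x X w = dfun 𝓘(ℝ, V) h x w) → dfun 𝓘(ℝ, V) K x X = 0

end Symplectic

end Vale.Agent.P265
end

section

section

open Set Filter
open scoped Topology

namespace Vale.Agent.P265

section Gronwall

/-- A discrete Gronwall inequality on a finite range. -/
theorem discrete_gronwall_fin {u b : ℕ → ℝ} {c : ℝ} {m : ℕ} (hc : 0 ≤ c) (hu0 : 0 ≤ u 0)
    (hb : ∀ j < m, 0 ≤ b j) (hu : ∀ j < m, u (j + 1) ≤ (1 + c) * u j + b j) :
    ∀ j ≤ m, u j ≤ (u 0 + ∑ i ∈ Finset.range m, b i) * Real.exp (c * m) := by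
  have h1 : ∀ j ≤ m, u j ≤ (1 + c) ^ j * (u 0 + ∑ i ∈ Finset.range j, b i) := by
    intro j
    induction j with
    | zero => intro _; simp
    | succ j ih =>
      intro hj
      have hj' : j < m := hj
      have h2 := ih hj'.le
      have h3 : (1 : ℝ) ≤ (1 + c) ^ (j + 1) := one_le_pow₀ (by linarith only [hc])
      calc u (j + 1) ≤ (1 + c) * u j + b j := hu j hj'
        _ ≤ (1 + c) * ((1 + c) ^ j * (u 0 + ∑ i ∈ Finset.range j, b i)) +
            (1 + c) ^ (j + 1) * b j := by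
            have h4 := mul_le_mul_of_nonneg_left h2 (by linarith only [hc] : (0 : ℝ) ≤ 1 + c)
            have h5 : b j ≤ (1 + c) ^ (j + 1) * b j := le_mul_of_one_le_left (hb j hj') h3
            linarith only [h4, h5]
        _ = (1 + c) ^ (j + 1) * (u 0 + ∑ i ∈ Finset.range (j + 1), b i) := by
            rw [Finset.sum_range_succ]; ring
  intro j hj
  have h2 : 0 ≤ ∑ i ∈ Finset.range j, b i :=
    Finset.sum_nonneg fun i hi => hb i (lt_of_lt_of_le (Finset.mem_range.1 hi) hj)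
  have h3 : ∑ i ∈ Finset.range j, b i ≤ ∑ i ∈ Finset.range m, b i :=
    Finset.sum_le_sum_of_subset_of_nonneg (Finset.range_mono hj)
      fun i hi _ => hb i (Finset.mem_range.1 hi)
  have h4 : (1 + c) ^ j ≤ Real.exp (c * m) := by
    calc (1 + c) ^ j ≤ (Real.exp c) ^ j :=
          pow_le_pow_left₀ (by linarith only [hc]) (by linarith [Real.add_one_le_exp c]) j
      _ = Real.exp (j * c) := (Real.exp_nat_mul c j).symm
      _ ≤ Real.exp (c * m) := by
          refine Real.exp_le_exp.2 ?_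
          have : (j : ℝ) ≤ m := by exact_mod_cast hj
          nlinarith only [hc, this]
  calc u j ≤ (1 + c) ^ j * (u 0 + ∑ i ∈ Finset.range j, b i) := h1 j hj
    _ ≤ Real.exp (c * m) * (u 0 + ∑ i ∈ Finset.range m, b i) := by
        refine mul_le_mul h4 (by linarith) (by linarith) (Real.exp_pos _).le
    _ = _ := by ring

end Gronwall

section Field

variable {V : Type*} [NormedAddCommGroup V] [NormedSpace ℝ V]

/-- A bounded, Lipschitz, time-dependent vector field satisfying the quadrilateral inequality. -/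
structure NiceField (X : ℝ × V → V) (L : ℝ) : Prop where
  one_le : 1 ≤ L
  bound : ∀ q, ‖X q‖ ≤ L
  lip : ∀ q q', ‖X q - X q'‖ ≤ L * ‖q - q'‖
  quad : ∀ a a' b b', ‖(X a - X a') - (X b - X b')‖ ≤
    L * ‖(a - a') - (b - b')‖ + L * max ‖a - b‖ ‖a' - b'‖ * ‖b - b'‖

variable {X : ℝ × V → V} {L : ℝ}

theorem NiceField.lip_space (h : NiceField X L) (t : ℝ) (v w : V) :
    ‖X (t, v) - X (t, w)‖ ≤ L * ‖v - w‖ := by
  have h1 := h.lip (t, v) (t, w)
  have h2 : ‖((t, v) : ℝ × V) - (t, w)‖ = ‖v - w‖ := by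
    rw [Prod.mk_sub_mk, Prod.norm_mk, sub_self, norm_zero]
    exact max_eq_right (norm_nonneg _)
  rwa [h2] at h1

theorem NiceField.lipschitzWith (h : NiceField X L) (t : ℝ) :
    LipschitzWith L.toNNReal (fun v => X (t, v)) := by
  have hL : 0 ≤ L := zero_le_one.trans h.one_le
  refine LipschitzWith.of_dist_le_mul fun v w => ?_
  rw [dist_eq_norm, dist_eq_norm, Real.coe_toNNReal _ hL]
  exact h.lip_space t v w

theorem NiceField.continuous (h : NiceField X L) : Continuous X := by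
  have hL : 0 ≤ L := zero_le_one.trans h.one_le
  refine (LipschitzWith.of_dist_le_mul (K := L.toNNReal) fun v w => ?_).continuous
  rw [dist_eq_norm, dist_eq_norm, Real.coe_toNNReal _ hL]
  exact h.lip v w

/-- `y` is a solution on `[0, 1]`. -/
def IsSol (X : ℝ × V → V) (y : ℝ → V) : Prop := ∀ t ∈ Icc (0 : ℝ) 1, HasDerivAt y (X (t, y t)) t

theorem IsSol.continuousOn {y : ℝ → V} (hy : IsSol X y) : ContinuousOn y (Icc 0 1) :=
  fun t ht => (hy t ht).continuousAt.continuousWithinAt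

/-- Existence of solutions. -/
theorem NiceField.exists_sol [CompleteSpace V] (h : NiceField X L) :
    ∃ y : V → ℝ → V, ∀ z, y z 0 = z ∧ IsSol X (y z) := by
  have hL : 0 ≤ L := zero_le_one.trans h.one_le
  have key : ∀ z : V, ∃ y : ℝ → V, y 0 = z ∧ IsSol X y := by
    intro z
    have hPL : IsPicardLindelof (fun t v => X (t, v)) (tmin := -1) (tmax := 2)
        ⟨0, by norm_num, by norm_num⟩ z (2 * L.toNNReal) 0 L.toNNReal L.toNNReal := by
      constructor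
      · intro t _
        exact (h.lipschitzWith t).lipschitzOnWith
      · intro v _
        exact (h.continuous.comp (by fun_prop)).continuousOn
      · intro t _ v _
        rw [Real.coe_toNNReal _ hL]
        exact h.bound _
      · simp only [sub_zero, NNReal.coe_mul, NNReal.coe_ofNat, Real.coe_toNNReal _ hL,
          NNReal.coe_zero]
        have : max (2 : ℝ) (0 - -1) = 2 := by norm_num
        rw [this, mul_comm]
    obtain ⟨α, hα0, hα⟩ := hPL.exists_eq_forall_mem_Icc_hasDerivWithinAt₀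
    refine ⟨α, hα0, fun t ht => ?_⟩
    have hmem : t ∈ Icc (-1 : ℝ) 2 := ⟨by linarith [ht.1], by linarith [ht.2]⟩
    exact (hα t hmem).hasDerivAt (Icc_mem_nhds (by linarith [ht.1]) (by linarith [ht.2]))
  choose y hy using key
  exact ⟨y, hy⟩

theorem NiceField.dist_sol (h : NiceField X L) {y y' : ℝ → V} (hy : IsSol X y) (hy' : IsSol X y')
    {t : ℝ} (ht : t ∈ Icc (0 : ℝ) 1) : ‖y t - y' t‖ ≤ Real.exp L * ‖y 0 - y' 0‖ := by
  have hL : 0 ≤ L := zero_le_one.trans h.one_le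
  have h1 := dist_le_of_trajectories_ODE (v := fun t v => X (t, v)) (K := L.toNNReal) (a := 0)
    (b := 1) (f := y) (g := y') h.lipschitzWith hy.continuousOn
    (fun t ht => (hy t (Ico_subset_Icc_self ht)).hasDerivWithinAt) hy'.continuousOn
    (fun t ht => (hy' t (Ico_subset_Icc_self ht)).hasDerivWithinAt) le_rfl t ht
  rw [dist_eq_norm, dist_eq_norm, Real.coe_toNNReal _ hL, sub_zero] at h1
  refine h1.trans ?_
  rw [mul_comm]
  refine mul_le_mul_of_nonneg_right (Real.exp_le_exp.2 ?_) (norm_nonneg _)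
  nlinarith only [hL, ht.2]

theorem NiceField.sol_unique (h : NiceField X L) {y y' : ℝ → V} (hy : IsSol X y)
    (hy' : IsSol X y') (h0 : y 0 = y' 0) {t : ℝ} (ht : t ∈ Icc (0 : ℝ) 1) : y t = y' t := by
  have h1 := h.dist_sol hy hy' ht
  rw [h0, sub_self, norm_zero, mul_zero] at h1
  exact sub_eq_zero.1 (norm_le_zero_iff.1 h1)

theorem NiceField.sol_lip (h : NiceField X L) {y : ℝ → V} (hy : IsSol X y) {s t : ℝ}
    (hs : s ∈ Icc (0 : ℝ) 1) (ht : t ∈ Icc (0 : ℝ) 1) : ‖y t - y s‖ ≤ L * |t - s| := by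
  have := Convex.norm_image_sub_le_of_norm_hasDerivWithin_le (f := y) (f' := fun t => X (t, y t))
    (s := Icc (0 : ℝ) 1) (x := s) (y := t) (C := L)
    (fun x hx => (hy x hx).hasDerivWithinAt) (fun x _ => h.bound _) (convex_Icc 0 1) hs ht
  simpa only [ge_iff_le, Real.norm_eq_abs] using this

end Field

end Vale.Agent.P265
end
end

section

section

open Set Filter
open scoped Topology

set_option linter.unusedSectionVars false

namespace Vale.Agent.P265.Flat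

variable {V : Type*} [NormedAddCommGroup V] [NormedSpace ℝ V]

/-- The midpoints of the edges of a polygon. -/
noncomputable def mid (u : ℕ → V) (j : ℕ) : V := (1 / 2 : ℝ) • (u j + u (j + 1))

theorem norm_mid_sub (u : ℕ → V) (j : ℕ) : ‖mid u j - u j‖ ≤ ‖u (j + 1) - u j‖ := by
  have h1 : mid u j - u j = (1 / 2 : ℝ) • (u (j + 1) - u j) := by
    rw [mid]
    module
  rw [h1, norm_smul, Real.norm_of_nonneg (by norm_num)]
  have := norm_nonneg (u (j + 1) - u j)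
  linarith only [this]

theorem norm_mid_sub_mid (u u' : ℕ → V) (j : ℕ) :
    ‖mid u j - mid u' j‖ ≤ max ‖u j - u' j‖ ‖u (j + 1) - u' (j + 1)‖ := by
  have h1 : mid u j - mid u' j =
      (1 / 2 : ℝ) • ((u j - u' j) + (u (j + 1) - u' (j + 1))) := by
    rw [mid, mid]
    module
  rw [h1, norm_smul, Real.norm_of_nonneg (by norm_num)]
  have h2 := norm_add_le (u j - u' j) (u (j + 1) - u' (j + 1))
  have h3 := le_max_left ‖u j - u' j‖ ‖u (j + 1) - u' (j + 1)‖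
  have h4 := le_max_right ‖u j - u' j‖ ‖u (j + 1) - u' (j + 1)‖
  linarith

theorem norm_mid_diff (u u' : ℕ → V) (j : ℕ) :
    ‖(mid u j - mid u' j) - (u j - u' j)‖ ≤ ‖(u (j + 1) - u' (j + 1)) - (u j - u' j)‖ := by
  have h1 : (mid u j - mid u' j) - (u j - u' j) =
      (1 / 2 : ℝ) • ((u (j + 1) - u' (j + 1)) - (u j - u' j)) := by
    rw [mid, mid]
    module
  rw [h1, norm_smul, Real.norm_of_nonneg (by norm_num)]
  have := norm_nonneg ((u (j + 1) - u' (j + 1)) - (u j - u' j))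
  linarith only [this]

/-- A chain of the implicit midpoint scheme with `m` steps and residual `ρ`. -/
def IsChain (X : ℝ × V → V) (m : ℕ) (u ρ : ℕ → V) : Prop :=
  ∀ j < m, u (j + 1) = u j + ((m : ℝ)⁻¹ • X ((j : ℝ) * (m : ℝ)⁻¹, mid u j) + ρ j)

variable {X : ℝ × V → V} {L : ℝ} {m : ℕ}

theorem mem_unit {j : ℕ} (hm : 0 < m) (hj : j ≤ m) : (j : ℝ) * (m : ℝ)⁻¹ ∈ Icc (0 : ℝ) 1 := by
  have hm' : (0 : ℝ) < m := by exact_mod_cast hm
  refine ⟨by positivity, ?_⟩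
  rw [← div_eq_mul_inv, div_le_one hm']
  exact_mod_cast hj

theorem IsChain.step_le (h : NiceField X L) {u ρ : ℕ → V}
    (hc : IsChain X m u ρ) {j : ℕ} (hj : j < m) :
    ‖u (j + 1) - u j‖ ≤ (m : ℝ)⁻¹ * L + ‖ρ j‖ := by
  rw [hc j hj, add_sub_cancel_left]
  refine (norm_add_le _ _).trans ?_
  rw [norm_smul, Real.norm_of_nonneg (by positivity)]
  have := h.bound ((j : ℝ) * (m : ℝ)⁻¹, mid u j)
  have h1 : (m : ℝ)⁻¹ * ‖X ((j : ℝ) * (m : ℝ)⁻¹, mid u j)‖ ≤ (m : ℝ)⁻¹ * L :=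
    mul_le_mul_of_nonneg_left this (by positivity)
  linarith only [h1]

/-- Local mean value estimate on a time step. -/
theorem step_mvt {g : ℝ → V} {g' : ℝ → V}
    {s h C : ℝ} (hh : 0 ≤ h) {c : V}
    (hg : ∀ τ ∈ Icc s (s + h), HasDerivAt g (g' τ) τ)
    (hb : ∀ τ ∈ Icc s (s + h), ‖g' τ - c‖ ≤ C) :
    ‖(g (s + h) - g s) - h • c‖ ≤ C * h := by
  have h1 : ∀ τ ∈ Icc s (s + h), HasDerivAt (fun τ => g τ - τ • c) (g' τ - c) τ := by
    intro τ hτ
    have h2 : HasDerivAt (fun τ : ℝ => τ • c) c τ := by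
      simpa using (hasDerivAt_id τ).smul_const c
    exact (hg τ hτ).sub h2
  have := Convex.norm_image_sub_le_of_norm_hasDerivWithin_le (f := fun τ => g τ - τ • c)
    (f' := fun τ => g' τ - c) (s := Icc s (s + h)) (x := s) (y := s + h) (C := C)
    (fun x hx => (h1 x hx).hasDerivWithinAt) hb (convex_Icc _ _)
    ⟨le_rfl, by linarith⟩ ⟨by linarith, le_rfl⟩
  rw [add_sub_cancel_left, Real.norm_of_nonneg hh] at this
  convert this using 2
  rw [add_smul]
  abel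

/-- The constant in `chain_sol`. -/
noncomputable def C₁ (L : ℝ) : ℝ := 2 * (1 + L) ^ 2 * Real.exp L

theorem C₁_pos (hL : 1 ≤ L) : 0 < C₁ L := by
  unfold C₁
  have : 0 < 1 + L := by linarith
  positivity

/-- A chain stays close to the solution with the same starting point. -/
theorem chain_sol (h : NiceField X L) (hm : 0 < m) {u ρ : ℕ → V} (hc : IsChain X m u ρ)
    {y : ℝ → V} (hy : IsSol X y) (h0 : y 0 = u 0) :
    ∀ j ≤ m, ‖u j - y ((j : ℝ) * (m : ℝ)⁻¹)‖ ≤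
      C₁ L * (∑ i ∈ Finset.range m, ‖ρ i‖ + (m : ℝ)⁻¹) := by
  have hL := h.one_le
  have hm' : (0 : ℝ) < m := by exact_mod_cast hm
  set η : ℝ := (m : ℝ)⁻¹ with hη
  have hηpos : 0 < η := inv_pos.2 hm'
  have hη1 : η ≤ 1 := by
    rw [hη]
    exact inv_le_one_of_one_le₀ (by exact_mod_cast hm)
  have hmη : (m : ℝ) * η = 1 := mul_inv_cancel₀ hm'.ne'
  set e : ℕ → ℝ := fun j => ‖u j - y ((j : ℝ) * η)‖ with he
  have hstep : ∀ j < m, e (j + 1) ≤ (1 + η * L) * e j +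
      ((1 + L) * ‖ρ j‖ + 2 * L ^ 2 * η * η) := by
    intro j hj
    have hs := mem_unit hm hj.le
    have ht := mem_unit (j := j + 1) hm hj
    rw [← hη] at hs ht
    have hts : ((j + 1 : ℕ) : ℝ) * η = (j : ℝ) * η + η := by push_cast; ring
    rw [hts] at ht
    set s := (j : ℝ) * η with hsdef
    have hsub : Icc s (s + η) ⊆ Icc 0 1 := Icc_subset_Icc hs.1 ht.2
    have h1 : ‖(y (s + η) - y s) - η • X (s, y s)‖ ≤ (L * (L * η)) * η := by
      refine step_mvt (g' := fun τ => X (τ, y τ)) hηpos.le (fun τ hτ => hy τ (hsub hτ)) ?_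
      intro τ hτ
      have h2 := h.sol_lip hy hs (hsub hτ)
      have h3 : |τ - s| ≤ η := by
        rw [abs_of_nonneg (by linarith only [hτ.1])]; linarith only [hτ.2]
      refine (h.lip _ _).trans (mul_le_mul_of_nonneg_left ?_ (by linarith only [hL]))
      rw [Prod.mk_sub_mk, Prod.norm_mk, Real.norm_eq_abs]
      refine max_le ?_ ?_
      · nlinarith only [h3, hL, hηpos]
      · exact h2.trans (mul_le_mul_of_nonneg_left h3 (by linarith only [hL]))
    have h2 : ‖X (s, mid u j) - X (s, y s)‖ ≤ L * (η * L + ‖ρ j‖ + e j) := by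
      refine (h.lip_space _ _ _).trans (mul_le_mul_of_nonneg_left ?_ (by linarith only [hL]))
      have h3 : mid u j - y s = (mid u j - u j) + (u j - y s) := by abel
      rw [h3]
      refine (norm_add_le _ _).trans ?_
      have h4 := (norm_mid_sub u j).trans (hc.step_le h hj)
      rw [← hη] at h4
      have h5 : ‖u j - y s‖ = e j := rfl
      linarith only [h4]
    have h3 : u (j + 1) - y (s + η) = (u j - y s) + η • (X (s, mid u j) - X (s, y s)) + ρ j -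
        ((y (s + η) - y s) - η • X (s, y s)) := by
      rw [hc j hj, smul_sub]
      rw [← hη, ← hsdef]
      abel
    have h4 : e (j + 1) = ‖u (j + 1) - y (s + η)‖ := by
      simp only [he, hts]
    rw [h4, h3]
    have h5 := norm_sub_le ((u j - y s) + η • (X (s, mid u j) - X (s, y s)) + ρ j)
      ((y (s + η) - y s) - η • X (s, y s))
    have h6 := norm_add_le ((u j - y s) + η • (X (s, mid u j) - X (s, y s))) (ρ j)
    have h7 := norm_add_le (u j - y s) (η • (X (s, mid u j) - X (s, y s)))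
    rw [norm_smul, Real.norm_of_nonneg hηpos.le] at h7
    have h8 := mul_le_mul_of_nonneg_left h2 hηpos.le
    have h9 : ‖u j - y s‖ = e j := rfl
    have h10 : 0 ≤ ‖ρ j‖ := norm_nonneg _
    have h11 : η * L * ‖ρ j‖ ≤ L * ‖ρ j‖ := by
      refine mul_le_mul_of_nonneg_right ?_ h10
      nlinarith only [hη1, hL]
    linarith
  have hG := discrete_gronwall_fin (u := e) (b := fun j => (1 + L) * ‖ρ j‖ + 2 * L ^ 2 * η * η)
    (c := η * L) (m := m) (by positivity) (norm_nonneg _) (fun j _ => by (clear * - hL hm; positivity)) hstep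
  intro j hj
  refine (hG j hj).trans ?_
  have h1 : e 0 = 0 := by simp [he, h0]
  have h2 : η * L * m = L := by rw [mul_assoc, mul_comm L, ← mul_assoc, mul_comm η, hmη, one_mul]
  have h3 : ∑ i ∈ Finset.range m, ((1 + L) * ‖ρ i‖ + 2 * L ^ 2 * η * η) =
      (1 + L) * ∑ i ∈ Finset.range m, ‖ρ i‖ + 2 * L ^ 2 * η := by
    rw [Finset.sum_add_distrib, ← Finset.mul_sum, Finset.sum_const, Finset.card_range, nsmul_eq_mul]
    have : (m : ℝ) * (2 * L ^ 2 * η * η) = 2 * L ^ 2 * η * (m * η) := by ring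
    rw [this, hmη, mul_one]
  rw [h1, h2, h3, zero_add]
  have h4 : 0 ≤ ∑ i ∈ Finset.range m, ‖ρ i‖ := Finset.sum_nonneg fun _ _ => norm_nonneg _
  have h5 : (1 + L) * ∑ i ∈ Finset.range m, ‖ρ i‖ + 2 * L ^ 2 * η ≤
      2 * (1 + L) ^ 2 * (∑ i ∈ Finset.range m, ‖ρ i‖ + η) := by
    have h6 : (1 + L) * ∑ i ∈ Finset.range m, ‖ρ i‖ ≤
        2 * (1 + L) ^ 2 * ∑ i ∈ Finset.range m, ‖ρ i‖ :=
      mul_le_mul_of_nonneg_right (by nlinarith only [hL]) h4
    have h7 : 2 * L ^ 2 * η ≤ 2 * (1 + L) ^ 2 * η :=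
      mul_le_mul_of_nonneg_right (by nlinarith only [hL]) hηpos.le
    linarith only [h6, h7]
  have h6 := mul_le_mul_of_nonneg_right h5 (Real.exp_pos L).le
  unfold C₁
  calc _ ≤ _ := h6
    _ = _ := by ring

/-- Two chains. -/
theorem chain_chain (h : NiceField X L) (hm : 0 < m) (hmL : 2 * L ≤ m) {u ρ u' ρ' : ℕ → V}
    (hc : IsChain X m u ρ) (hc' : IsChain X m u' ρ') :
    (∀ j ≤ m, ‖u j - u' j‖ ≤
      Real.exp (4 * L) * (‖u 0 - u' 0‖ + 2 * ∑ i ∈ Finset.range m, ‖ρ i - ρ' i‖)) ∧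
    ∀ j < m, ‖(u (j + 1) - u' (j + 1)) - (u j - u' j)‖ ≤ (m : ℝ)⁻¹ * L *
      (Real.exp (4 * L) * (‖u 0 - u' 0‖ + 2 * ∑ i ∈ Finset.range m, ‖ρ i - ρ' i‖)) +
      ‖ρ j - ρ' j‖ := by
  have hL := h.one_le
  have hm' : (0 : ℝ) < m := by exact_mod_cast hm
  set η : ℝ := (m : ℝ)⁻¹ with hη
  have hηpos : 0 < η := inv_pos.2 hm'
  have hmη : (m : ℝ) * η = 1 := mul_inv_cancel₀ hm'.ne'
  have hx : η * L ≤ 1 / 2 := by
    have : η * (2 * L) ≤ η * m := mul_le_mul_of_nonneg_left hmL hηpos.le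
    rw [mul_comm η m, hmη] at this
    linarith only [this]
  set g : ℕ → ℝ := fun j => ‖u j - u' j‖ with hg
  have hdiff : ∀ j < m, ‖(u (j + 1) - u' (j + 1)) - (u j - u' j)‖ ≤
      η * L * max (g j) (g (j + 1)) + ‖ρ j - ρ' j‖ := by
    intro j hj
    have h1 : (u (j + 1) - u' (j + 1)) - (u j - u' j) =
        η • (X ((j : ℝ) * η, mid u j) - X ((j : ℝ) * η, mid u' j)) + (ρ j - ρ' j) := by
      rw [hc j hj, hc' j hj, smul_sub, ← hη]
      abel
    rw [h1]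
    refine (norm_add_le _ _).trans ?_
    rw [norm_smul, Real.norm_of_nonneg hηpos.le]
    have h2 := (h.lip_space ((j : ℝ) * η) (mid u j) (mid u' j)).trans
      (mul_le_mul_of_nonneg_left (norm_mid_sub_mid u u' j) (by linarith only [hL]))
    have h3 := mul_le_mul_of_nonneg_left h2 hηpos.le
    have h4 : max (g j) (g (j + 1)) = max ‖u j - u' j‖ ‖u (j + 1) - u' (j + 1)‖ := rfl
    rw [h4]
    linarith only [h3]
  have hstep : ∀ j < m, g (j + 1) ≤ (1 + 4 * (η * L)) * g j + 2 * ‖ρ j - ρ' j‖ := by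
    intro j hj
    have h1 := hdiff j hj
    have h2 : g (j + 1) ≤ g j + ‖(u (j + 1) - u' (j + 1)) - (u j - u' j)‖ := by
      have := norm_add_le (u j - u' j) ((u (j + 1) - u' (j + 1)) - (u j - u' j))
      rwa [add_sub_cancel] at this
    have hg0 : 0 ≤ g j := norm_nonneg _
    have hg1 : 0 ≤ g (j + 1) := norm_nonneg _
    have hr : 0 ≤ ‖ρ j - ρ' j‖ := norm_nonneg _
    have h3 : max (g j) (g (j + 1)) ≤ g j + g (j + 1) :=
      max_le (by linarith only [hg1]) (by linarith only [hg0])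
    have h4 : η * L * max (g j) (g (j + 1)) ≤ η * L * (g j + g (j + 1)) :=
      mul_le_mul_of_nonneg_left h3 (by positivity)
    set x := η * L with hxdef
    have hx0 : 0 ≤ x := by positivity
    have h5 : (1 - x) * g (j + 1) ≤ (1 + x) * g j + ‖ρ j - ρ' j‖ := by linarith only [h2, h1, h4]
    have h6 : (1 + x) * g j + ‖ρ j - ρ' j‖ ≤
        (1 - x) * ((1 + 4 * x) * g j + 2 * ‖ρ j - ρ' j‖) := by
      have h7 : 0 ≤ (2 * x * (1 - 2 * x)) * g j := by
        apply mul_nonneg _ hg0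
        apply mul_nonneg <;> linarith only [hx0, hx]
      have h8 : 0 ≤ (1 - 2 * x) * ‖ρ j - ρ' j‖ := mul_nonneg (by linarith only [hx]) hr
      nlinarith only [h7, h8]
    exact le_of_mul_le_mul_left (h5.trans h6) (by linarith only [hx])
  have hG := discrete_gronwall_fin (u := g) (b := fun j => 2 * ‖ρ j - ρ' j‖)
    (c := 4 * (η * L)) (m := m) (by positivity) (norm_nonneg _) (fun j _ => by positivity) hstep
  have h2 : 4 * (η * L) * m = 4 * L := by
    have : 4 * (η * L) * m = 4 * L * (m * η) := by ring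
    rw [this, hmη, mul_one]
  have hG' : ∀ j ≤ m, g j ≤ Real.exp (4 * L) *
      (g 0 + 2 * ∑ i ∈ Finset.range m, ‖ρ i - ρ' i‖) := by
    intro j hj
    have h3 := hG j hj
    rw [h2, ← Finset.mul_sum] at h3
    linarith only [h3]
  refine ⟨hG', fun j hj => (hdiff j hj).trans ?_⟩
  have h3 : max (g j) (g (j + 1)) ≤ Real.exp (4 * L) *
      (g 0 + 2 * ∑ i ∈ Finset.range m, ‖ρ i - ρ' i‖) := max_le (hG' j hj.le) (hG' (j + 1) hj)
  have h4 := mul_le_mul_of_nonneg_left h3 (by positivity : (0 : ℝ) ≤ η * L)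
  have h5 : g 0 = ‖u 0 - u' 0‖ := rfl
  rw [← h5]
  linarith only [h4]

/-- A chain with small residual is close to the solution, uniformly on time steps. -/
theorem near_sol (h : NiceField X L) (hm : 0 < m) {u ρ : ℕ → V} (hc : IsChain X m u ρ)
    {y : ℝ → V} (hy : IsSol X y) (h0 : y 0 = u 0) {j : ℕ} (hj : j < m) {τ : ℝ}
    (hτ : τ ∈ Icc ((j : ℝ) * (m : ℝ)⁻¹) ((j : ℝ) * (m : ℝ)⁻¹ + (m : ℝ)⁻¹)) :
    ‖(((j : ℝ) * (m : ℝ)⁻¹, mid u j) : ℝ × V) - (τ, y τ)‖ ≤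
      (2 + 2 * L + C₁ L) * (∑ i ∈ Finset.range m, ‖ρ i‖ + (m : ℝ)⁻¹) := by
  have hL := h.one_le
  have hm' : (0 : ℝ) < m := by exact_mod_cast hm
  have hvx := chain_sol h hm hc hy h0 j hj.le
  have hv := hc.step_le h hj
  have hs := mem_unit hm hj.le
  have ht := mem_unit (j := j + 1) hm hj
  have hρ1 : ‖ρ j‖ ≤ ∑ i ∈ Finset.range m, ‖ρ i‖ :=
    Finset.single_le_sum (f := fun i => ‖ρ i‖) (fun i _ => norm_nonneg _)
      (Finset.mem_range.2 hj)
  have hC₁ := C₁_pos hL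
  set η : ℝ := (m : ℝ)⁻¹ with hη
  have hηpos : 0 < η := inv_pos.2 hm'
  have hts : ((j + 1 : ℕ) : ℝ) * η = (j : ℝ) * η + η := by push_cast; ring
  rw [hts] at ht
  set s := (j : ℝ) * η with hsdef
  set S := ∑ i ∈ Finset.range m, ‖ρ i‖ with hS
  have hS0 : 0 ≤ S := (norm_nonneg _).trans hρ1
  have hsub : Icc s (s + η) ⊆ Icc 0 1 := Icc_subset_Icc hs.1 ht.2
  have h3 : |τ - s| ≤ η := by
    rw [abs_of_nonneg (by linarith only [hτ.1])]; linarith only [hτ.2]
  have k8 : 0 ≤ C₁ L * (S + η) := by (clear * - hC₁ hm; positivity)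
  have k9 : 0 ≤ L * S := by (clear * - hL; positivity)
  have k10 : 0 ≤ L * η := by positivity
  rw [Prod.mk_sub_mk, Prod.norm_mk]
  refine max_le ?_ ?_
  · have k1 : ‖s - τ‖ ≤ η := by rw [Real.norm_eq_abs, abs_sub_comm]; exact h3
    linarith only [hηpos, hS0, k8, k9, k10, k1]
  · have k3 : mid u j - y τ = (mid u j - u j) + (u j - y s) - (y τ - y s) := by abel
    rw [k3]
    have k4 := norm_sub_le ((mid u j - u j) + (u j - y s)) (y τ - y s)
    have k5 := norm_add_le (mid u j - u j) (u j - y s)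
    have k6 := (norm_mid_sub u j).trans hv
    have k7 := (h.sol_lip hy hs (hsub hτ)).trans
      (mul_le_mul_of_nonneg_left h3 (by linarith only [hL] : (0 : ℝ) ≤ L))
    linarith only [hηpos, hρ1, hvx, hS0, k9, k4, k5, k6, k7]

/-- Comparison of the differences of the vector field along two chains and two solutions. -/
theorem step_field (h : NiceField X L) (hm : 0 < m) (hmL : 2 * L ≤ m) {u ρ u' ρ' : ℕ → V}
    (hc : IsChain X m u ρ) (hc' : IsChain X m u' ρ')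
    {y y' : ℝ → V} (hy : IsSol X y) (hy' : IsSol X y') (h0 : y 0 = u 0) (h0' : y' 0 = u' 0)
    {j : ℕ} (hj : j < m) {τ : ℝ}
    (hτ : τ ∈ Icc ((j : ℝ) * (m : ℝ)⁻¹) ((j : ℝ) * (m : ℝ)⁻¹ + (m : ℝ)⁻¹))
    {G Y S d : ℝ} (hG : G = Real.exp (4 * L) * (‖u 0 - u' 0‖ +
      2 * ∑ i ∈ Finset.range m, ‖ρ i - ρ' i‖)) (hY : Y = Real.exp L * ‖u 0 - u' 0‖)
    (hS1 : ∑ i ∈ Finset.range m, ‖ρ i‖ ≤ S) (hS2 : ∑ i ∈ Finset.range m, ‖ρ' i‖ ≤ S)
    (hd : d = ‖(u j - u' j) - (y ((j : ℝ) * (m : ℝ)⁻¹) - y' ((j : ℝ) * (m : ℝ)⁻¹))‖) :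
    ‖(X (τ, y τ) - X (τ, y' τ)) - (X ((j : ℝ) * (m : ℝ)⁻¹, mid u j) -
      X ((j : ℝ) * (m : ℝ)⁻¹, mid u' j))‖ ≤
      L * (d + ((m : ℝ)⁻¹ * L * G + ‖ρ j - ρ' j‖) + (m : ℝ)⁻¹ * L * Y) +
        L * (2 + 2 * L + C₁ L) * (S + (m : ℝ)⁻¹) * Y := by
  have hL := h.one_le
  have hm' : (0 : ℝ) < m := by exact_mod_cast hm
  have hn1 := near_sol h hm hc hy h0 hj hτ
  have hn2 := near_sol h hm hc' hy' h0' hj hτ
  obtain ⟨-, hcc⟩ := chain_chain h hm hmL hc hc'
  have hs := mem_unit hm hj.le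
  have ht := mem_unit (j := j + 1) hm hj
  have hC₁ := C₁_pos hL
  have hccj := hcc j hj
  rw [← hG] at hccj
  set η : ℝ := (m : ℝ)⁻¹ with hη
  have hηpos : 0 < η := inv_pos.2 hm'
  have hts : ((j + 1 : ℕ) : ℝ) * η = (j : ℝ) * η + η := by push_cast; ring
  rw [hts] at ht
  set s := (j : ℝ) * η with hsdef
  have hsub : Icc s (s + η) ⊆ Icc 0 1 := Icc_subset_Icc hs.1 ht.2
  have hY0 : 0 ≤ Y := by rw [hY]; (clear * -; positivity)
  have hS0 : 0 ≤ S := le_trans (Finset.sum_nonneg fun _ _ => norm_nonneg _) hS1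
  have hdist : ∀ τ ∈ Icc (0 : ℝ) 1, ‖y τ - y' τ‖ ≤ Y := by
    intro τ hτ
    have := h.dist_sol hy hy' hτ
    rw [h0, h0'] at this
    rw [hY]
    exact this
  have h3 : |τ - s| ≤ η := by
    rw [abs_of_nonneg (by linarith only [hτ.1])]; linarith only [hτ.2]
  have hq := h.quad (s, mid u j) (s, mid u' j) (τ, y τ) (τ, y' τ)
  rw [norm_sub_rev] at hq
  refine hq.trans ?_
  have e1 : ‖((s, mid u j) - (s, mid u' j)) - ((τ, y τ) - (τ, y' τ))‖ =
      ‖(mid u j - mid u' j) - (y τ - y' τ)‖ := by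
    rw [Prod.mk_sub_mk, Prod.mk_sub_mk, Prod.mk_sub_mk, Prod.norm_mk]
    simp only [sub_self, norm_zero, norm_nonneg, sup_of_le_right]
  have e2 : ‖((τ, y τ) : ℝ × V) - (τ, y' τ)‖ = ‖y τ - y' τ‖ := by
    rw [Prod.mk_sub_mk, Prod.norm_mk]
    simp only [sub_self, norm_zero, norm_nonneg, sup_of_le_right]
  rw [e1, e2]
  -- first term
  have f1 : ‖(mid u j - mid u' j) - (y τ - y' τ)‖ ≤
      d + (η * L * G + ‖ρ j - ρ' j‖) + η * L * Y := by
    have g1 : (mid u j - mid u' j) - (y τ - y' τ) =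
        ((mid u j - mid u' j) - (u j - u' j)) + ((u j - u' j) - (y s - y' s)) -
          ((y τ - y' τ) - (y s - y' s)) := by abel
    have g2 := (norm_mid_diff u u' j).trans hccj
    have g4 : ‖(y τ - y' τ) - (y s - y' s)‖ ≤ η * L * Y := by
      have := Convex.norm_image_sub_le_of_norm_hasDerivWithin_le
        (f := fun τ => y τ - y' τ) (f' := fun τ => X (τ, y τ) - X (τ, y' τ))
        (s := Icc (0 : ℝ) 1) (x := s) (y := τ) (C := L * Y)
        (fun x hx => ((hy x hx).sub (hy' x hx)).hasDerivWithinAt)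
        (fun x hx => (h.lip_space _ _ _).trans
          (mul_le_mul_of_nonneg_left (hdist x hx) (by linarith only [hL])))
        (convex_Icc 0 1) hs (hsub hτ)
      rw [Real.norm_eq_abs] at this
      have g5 : L * Y * |τ - s| ≤ L * Y * η := mul_le_mul_of_nonneg_left h3 (by (clear * - hL hY0; positivity))
      linarith only [this, g5]
    rw [g1]
    have g5 := norm_sub_le (((mid u j - mid u' j) - (u j - u' j)) +
      ((u j - u' j) - (y s - y' s))) ((y τ - y' τ) - (y s - y' s))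
    have g6 := norm_add_le ((mid u j - mid u' j) - (u j - u' j))
      ((u j - u' j) - (y s - y' s))
    linarith only [hd, g2, g4, g5, g6]
  -- second term
  have f2 : max ‖((s, mid u j) : ℝ × V) - (τ, y τ)‖
      ‖((s, mid u' j) : ℝ × V) - (τ, y' τ)‖ ≤ (2 + 2 * L + C₁ L) * (S + η) := by
    refine max_le (hn1.trans ?_) (hn2.trans ?_)
    · exact mul_le_mul_of_nonneg_left (by linarith only [hS1]) (by (clear * - hL hC₁; positivity))
    · exact mul_le_mul_of_nonneg_left (by linarith only [hS2]) (by (clear * - hL hC₁; positivity))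
  have f3 := hdist τ (hsub hτ)
  have f4 : L * max ‖((s, mid u j) : ℝ × V) - (τ, y τ)‖
      ‖((s, mid u' j) : ℝ × V) - (τ, y' τ)‖ * ‖y τ - y' τ‖ ≤
      L * (2 + 2 * L + C₁ L) * (S + η) * Y := by
    refine mul_le_mul ?_ f3 (norm_nonneg _) (by (clear * - hL hC₁ hS0 hm; positivity))
    rw [mul_assoc]
    exact mul_le_mul_of_nonneg_left f2 (by linarith only [hL])
  have f5 := mul_le_mul_of_nonneg_left f1 (by linarith only [hL] : (0 : ℝ) ≤ L)
  linarith only [f4, f5]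

/-- One step of the two-point estimate. -/
theorem two_point_step (h : NiceField X L) (hm : 0 < m) (hmL : 2 * L ≤ m)
    {u ρ u' ρ' : ℕ → V}
    (hc : IsChain X m u ρ) (hc' : IsChain X m u' ρ')
    {y y' : ℝ → V} (hy : IsSol X y) (hy' : IsSol X y') (h0 : y 0 = u 0) (h0' : y' 0 = u' 0)
    {j : ℕ} (hj : j < m)
    {G Y S : ℝ} (hG : G = Real.exp (4 * L) * (‖u 0 - u' 0‖ +
      2 * ∑ i ∈ Finset.range m, ‖ρ i - ρ' i‖)) (hY : Y = Real.exp L * ‖u 0 - u' 0‖)
    (hS1 : ∑ i ∈ Finset.range m, ‖ρ i‖ ≤ S) (hS2 : ∑ i ∈ Finset.range m, ‖ρ' i‖ ≤ S) :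
    ‖(u (j + 1) - u' (j + 1)) - (y (((j + 1 : ℕ) : ℝ) * (m : ℝ)⁻¹) -
      y' (((j + 1 : ℕ) : ℝ) * (m : ℝ)⁻¹))‖ ≤
      (1 + (m : ℝ)⁻¹ * L) * ‖(u j - u' j) - (y ((j : ℝ) * (m : ℝ)⁻¹) -
        y' ((j : ℝ) * (m : ℝ)⁻¹))‖ + ((1 + L) * ‖ρ j - ρ' j‖ + (m : ℝ)⁻¹ *
        ((m : ℝ)⁻¹ * L ^ 2 * (G + Y) + L * (2 + 2 * L + C₁ L) * (S + (m : ℝ)⁻¹) * Y)) := by
  have hL := h.one_le
  have hm' : (0 : ℝ) < m := by exact_mod_cast hm
  have hs := mem_unit hm hj.le
  have ht := mem_unit (j := j + 1) hm hj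
  have hsf := fun τ hτ => step_field h hm hmL hc hc' hy hy' h0 h0' hj (τ := τ) hτ hG hY hS1 hS2 rfl
  have hcj := hc j hj
  have hcj' := hc' j hj
  set η : ℝ := (m : ℝ)⁻¹ with hη
  have hηpos : 0 < η := inv_pos.2 hm'
  have hη1 : η ≤ 1 := by
    rw [hη]
    exact inv_le_one_of_one_le₀ (by exact_mod_cast hm)
  have hts : ((j + 1 : ℕ) : ℝ) * η = (j : ℝ) * η + η := by push_cast; ring
  rw [hts] at ht ⊢
  set s := (j : ℝ) * η with hsdef
  have hsub : Icc s (s + η) ⊆ Icc 0 1 := Icc_subset_Icc hs.1 ht.2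
  set K := L * (2 + 2 * L + C₁ L) * (S + η) * Y with hK
  set d := ‖(u j - u' j) - (y s - y' s)‖ with hd
  have h1 := step_mvt (g := fun τ => y τ - y' τ) (g' := fun τ => X (τ, y τ) - X (τ, y' τ))
    (c := X (s, mid u j) - X (s, mid u' j))
    hηpos.le (fun τ hτ => (hy τ (hsub hτ)).sub (hy' τ (hsub hτ))) hsf
  have h2 : (u (j + 1) - u' (j + 1)) - (y (s + η) - y' (s + η)) =
      ((u j - u' j) - (y s - y' s)) + (ρ j - ρ' j) -
      (((y (s + η) - y' (s + η)) - (y s - y' s)) -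
      η • (X (s, mid u j) - X (s, mid u' j))) := by
    rw [hcj, hcj', smul_sub]
    abel
  rw [h2]
  have h4 := norm_sub_le (((u j - u' j) - (y s - y' s)) + (ρ j - ρ' j))
    (((y (s + η) - y' (s + η)) - (y s - y' s)) - η • (X (s, mid u j) - X (s, mid u' j)))
  have h5 := norm_add_le ((u j - u' j) - (y s - y' s)) (ρ j - ρ' j)
  have h7 : η * L * ‖ρ j - ρ' j‖ ≤ L * ‖ρ j - ρ' j‖ := by
    refine mul_le_mul_of_nonneg_right ?_ (norm_nonneg _)
    nlinarith only [hη1, hL]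
  have h8 : (L * (d + (η * L * G + ‖ρ j - ρ' j‖) + η * L * Y) + K) * η =
      η * L * d + η * L * ‖ρ j - ρ' j‖ + η * (η * L ^ 2 * (G + Y) + K) := by ring
  linarith only [h1, h4, h5, h7]

/-- The constant in the two-point estimate. -/
noncomputable def C₃ (L : ℝ) : ℝ :=
  Real.exp L * ((1 + L) + 2 * L ^ 2 * Real.exp (4 * L) +
    L * (2 + 2 * L + C₁ L) * Real.exp (4 * L))

theorem C₃_pos (hL : 1 ≤ L) : 0 < C₃ L := by
  unfold C₃
  have := C₁_pos hL
  positivity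

theorem two_point_num {L η D R P : ℝ} (hL : 1 ≤ L) (hη : 0 < η) (hη1 : η ≤ 1) (hD : 0 ≤ D)
    (hR : 0 ≤ R) (hP : 0 ≤ P) :
    ((1 + L) * R + (η * L ^ 2 * (Real.exp (4 * L) * (D + 2 * R) + Real.exp L * D) +
      L * (2 + 2 * L + C₁ L) * (P + η) * (Real.exp L * D))) * Real.exp L ≤
      C₃ L * ((P + η) * D + R) := by
  have hC₁ := C₁_pos hL
  set A := Real.exp (4 * L) with hA
  set B := Real.exp L with hB
  have hBpos : 0 < B := Real.exp_pos _
  have hApos : 0 < A := Real.exp_pos _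
  have hBA : B ≤ A := Real.exp_le_exp.2 (by linarith only [hL])
  have h1 : B * D ≤ A * D := mul_le_mul_of_nonneg_right hBA hD
  have h2 : η * L ^ 2 * (A * (D + 2 * R) + B * D) ≤ 2 * L ^ 2 * A * ((P + η) * D + R) := by
    have k2 : η * L ^ 2 * (A * (D + 2 * R) + B * D) ≤ η * L ^ 2 * (A * (2 * D + 2 * R)) :=
      mul_le_mul_of_nonneg_left (by linarith) (by positivity)
    have k3 : η * R ≤ R := by nlinarith only [hη1, hR]
    have k4 : η * D ≤ (P + η) * D := mul_le_mul_of_nonneg_right (by linarith) hD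
    calc η * L ^ 2 * (A * (D + 2 * R) + B * D) ≤ η * L ^ 2 * (A * (2 * D + 2 * R)) := k2
      _ = 2 * L ^ 2 * A * (η * D + η * R) := by ring
      _ ≤ 2 * L ^ 2 * A * ((P + η) * D + R) :=
          mul_le_mul_of_nonneg_left (by linarith) (by positivity)
  have h3 : L * (2 + 2 * L + C₁ L) * (P + η) * (B * D) ≤
      L * (2 + 2 * L + C₁ L) * A * ((P + η) * D + R) := by
    have k1 : L * (2 + 2 * L + C₁ L) * (P + η) * (B * D) ≤
        L * (2 + 2 * L + C₁ L) * (P + η) * (A * D) :=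
      mul_le_mul_of_nonneg_left h1 (by positivity)
    have k2 : 0 ≤ L * (2 + 2 * L + C₁ L) * A * R := by positivity
    calc _ ≤ _ := k1
      _ ≤ L * (2 + 2 * L + C₁ L) * (P + η) * (A * D) +
          L * (2 + 2 * L + C₁ L) * A * R := by linarith only [k2]
      _ = _ := by ring
  have h4 : (1 + L) * R ≤ (1 + L) * ((P + η) * D + R) := by
    have : 0 ≤ (P + η) * D := by positivity
    exact mul_le_mul_of_nonneg_left (by linarith) (by linarith only [hL])
  have h5 : (1 + L) * R + (η * L ^ 2 * (A * (D + 2 * R) + B * D) +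
      L * (2 + 2 * L + C₁ L) * (P + η) * (B * D)) ≤
      ((1 + L) + 2 * L ^ 2 * A + L * (2 + 2 * L + C₁ L) * A) * ((P + η) * D + R) := by
    have : ((1 + L) + 2 * L ^ 2 * A + L * (2 + 2 * L + C₁ L) * A) * ((P + η) * D + R) =
        (1 + L) * ((P + η) * D + R) + 2 * L ^ 2 * A * ((P + η) * D + R) +
        L * (2 + 2 * L + C₁ L) * A * ((P + η) * D + R) := by ring
    rw [this]
    linarith only [h2, h3, h4]
  have h6 := mul_le_mul_of_nonneg_right h5 hBpos.le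
  unfold C₃
  rw [← hA, ← hB]
  calc _ ≤ _ := h6
    _ = _ := by ring

/-- The two-point estimate: differences of chains are close to differences of solutions. -/
theorem two_point (h : NiceField X L) (hm : 0 < m) (hmL : 2 * L ≤ m) {u ρ u' ρ' : ℕ → V}
    (hc : IsChain X m u ρ) (hc' : IsChain X m u' ρ')
    {y y' : ℝ → V} (hy : IsSol X y) (hy' : IsSol X y') (h0 : y 0 = u 0) (h0' : y' 0 = u' 0) :
    ‖(u m - u' m) - (y 1 - y' 1)‖ ≤ C₃ L *
      ((∑ i ∈ Finset.range m, ‖ρ i‖ + ∑ i ∈ Finset.range m, ‖ρ' i‖ + (m : ℝ)⁻¹) * ‖u 0 - u' 0‖ +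
        ∑ i ∈ Finset.range m, ‖ρ i - ρ' i‖) := by
  have hL := h.one_le
  have hm' : (0 : ℝ) < m := by exact_mod_cast hm
  have hC₁ := C₁_pos hL
  have hS₁0 : 0 ≤ ∑ i ∈ Finset.range m, ‖ρ i‖ := Finset.sum_nonneg fun _ _ => norm_nonneg _
  have hS₂0 : 0 ≤ ∑ i ∈ Finset.range m, ‖ρ' i‖ := Finset.sum_nonneg fun _ _ => norm_nonneg _
  have hstep := fun j (hj : j < m) => two_point_step h hm hmL hc hc' hy hy' h0 h0' hj
    (S := ∑ i ∈ Finset.range m, ‖ρ i‖ + ∑ i ∈ Finset.range m, ‖ρ' i‖) rfl rfl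
    (by linarith only [hS₂0]) (by linarith only [hS₁0])
  set η : ℝ := (m : ℝ)⁻¹ with hη
  have hηpos : 0 < η := inv_pos.2 hm'
  have hη1 : η ≤ 1 := by
    rw [hη]
    exact inv_le_one_of_one_le₀ (by exact_mod_cast hm)
  have hmη : (m : ℝ) * η = 1 := mul_inv_cancel₀ hm'.ne'
  set R := ∑ i ∈ Finset.range m, ‖ρ i - ρ' i‖ with hR
  have hR0 : 0 ≤ R := Finset.sum_nonneg fun _ _ => norm_nonneg _
  have hnum := two_point_num (L := L) (η := η) (D := ‖u 0 - u' 0‖) (R := R)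
    (P := ∑ i ∈ Finset.range m, ‖ρ i‖ + ∑ i ∈ Finset.range m, ‖ρ' i‖) hL hηpos hη1
    (norm_nonneg _) hR0 (by linarith only [hS₁0, hS₂0])
  refine le_trans ?_ hnum
  have hGr := discrete_gronwall_fin
    (u := fun j => ‖(u j - u' j) - (y ((j : ℝ) * η) - y' ((j : ℝ) * η))‖)
    (c := η * L) (m := m) (by positivity) (norm_nonneg _) (fun j _ => by (clear * - hL hm hC₁; positivity)) hstep m le_rfl
  have h2 : η * L * m = L := by rw [mul_assoc, mul_comm L, ← mul_assoc, mul_comm η, hmη, one_mul]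
  rw [Finset.sum_add_distrib, ← Finset.mul_sum, Finset.sum_const, Finset.card_range, nsmul_eq_mul,
      ← mul_assoc, hmη, one_mul, h2, ← hR] at hGr
  simp only [Nat.cast_zero, zero_mul, h0, h0', sub_self, norm_zero, zero_add] at hGr
  exact hGr

end Vale.Agent.P265.Flat
end
end

section

section

open Set Filter
open scoped Topology ContDiff

set_option linter.unusedSectionVars false

namespace Vale.Agent.P265.Flat

variable {V : Type*} [NormedAddCommGroup V] [NormedSpace ℝ V]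

/-- A nondegenerate alternating form, with a constant. -/
structure Symp (β : V →L[ℝ] V →L[ℝ] ℝ) (Cβ : ℝ) : Prop where
  alt : ∀ u, β u u = 0
  one_le : 1 ≤ Cβ
  bd : ∀ u, ‖u‖ ≤ Cβ * ‖β u‖

/-- The symplectic gradient of a covector. -/
noncomputable def sgrad (β : V →L[ℝ] V →L[ℝ] ℝ) : (V →L[ℝ] ℝ) →L[ℝ] V := β.inverse

namespace Symp

variable {β : V →L[ℝ] V →L[ℝ] ℝ} {Cβ : ℝ} (h : Symp β Cβ)
include h

theorem nonneg : 0 ≤ Cβ := zero_le_one.trans h.one_le

theorem skew (u v : V) : β u v = -β v u := by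
  have h1 := h.alt (u + v)
  simp only [map_add, add_apply, h.alt, zero_add, add_zero] at h1
  linarith

theorem norm_le {u : V} {c : ℝ} (hc : 0 ≤ c) (hu : ∀ v, |β u v| ≤ c * ‖v‖) : ‖u‖ ≤ Cβ * c := by
  refine (h.bd u).trans (mul_le_mul_of_nonneg_left ?_ h.nonneg)
  exact ContinuousLinearMap.opNorm_le_bound _ hc fun v => by
    rw [Real.norm_eq_abs]; exact hu v

theorem injective : Function.Injective β := by
  rw [injective_iff_map_eq_zero]
  intro u hu
  have h1 := h.bd u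
  rw [hu] at h1
  have h2 : ‖(0 : V →L[ℝ] ℝ)‖ = 0 := ContinuousLinearMap.opNorm_zero
  rw [h2, mul_zero] at h1
  exact norm_le_zero_iff.1 h1

end Symp

theorem finrank_dual_eq (V : Type*) [NormedAddCommGroup V] [NormedSpace ℝ V]
    [FiniteDimensional ℝ V] : Module.finrank ℝ V = Module.finrank ℝ (V →L[ℝ] ℝ) := by
  rw [← (LinearMap.toContinuousLinearMap (𝕜 := ℝ) (E := V) (F' := ℝ)).finrank_eq]
  exact Subspace.dual_finrank_eq.symm

/-- Existence of the constant. -/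
theorem exists_symp [FiniteDimensional ℝ V] {β : V →L[ℝ] V →L[ℝ] ℝ} (halt : ∀ u, β u u = 0)
    (hnd : ∀ u, (∀ v, β u v = 0) → u = 0) : ∃ Cβ, Symp β Cβ := by
  have hinj : LinearMap.ker (β : V →ₗ[ℝ] (V →L[ℝ] ℝ)) = ⊥ := by
    rw [LinearMap.ker_eq_bot']
    intro v hv
    have hv' : β v = 0 := hv
    exact hnd v fun w => by rw [hv']; rfl
  obtain ⟨K, hK, hanti⟩ := LinearMap.exists_antilipschitzWith
    (β : V →ₗ[ℝ] (V →L[ℝ] ℝ)) hinj
  refine ⟨1 + K, halt, by simp, fun u => ?_⟩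
  have h1 := hanti.le_mul_dist u 0
  simp only [dist_zero_right, map_zero] at h1
  have h2 : ‖(β : V →ₗ[ℝ] (V →L[ℝ] ℝ)) u‖ = ‖β u‖ := rfl
  rw [h2] at h1
  have h3 : 0 ≤ ‖β u‖ := (β u).opNorm_nonneg
  linarith only [h1, h3]

section Grad

variable [FiniteDimensional ℝ V] {β : V →L[ℝ] V →L[ℝ] ℝ} {Cβ : ℝ}

theorem Symp.beta_sgrad (h : Symp β Cβ) (l : V →L[ℝ] ℝ) : β (sgrad β l) = l := by
  set e : V ≃L[ℝ] (V →L[ℝ] ℝ) := (LinearMap.linearEquivOfInjective
    β.toLinearMap h.injective (finrank_dual_eq V)).toContinuousLinearEquiv with he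
  have h1 : (e : V →L[ℝ] (V →L[ℝ] ℝ)) = β := by
    refine ContinuousLinearMap.ext fun u => ?_
    rfl
  have h2 : sgrad β = (e.symm : (V →L[ℝ] ℝ) →L[ℝ] V) := by
    rw [sgrad, ← h1]
    exact ContinuousLinearMap.inverse_equiv e
  rw [h2]
  have h3 : β (e.symm l) = e (e.symm l) := by rw [← h1]; rfl
  exact h3.trans (e.apply_symm_apply l)

theorem Symp.sgrad_eq (h : Symp β Cβ) {l : V →L[ℝ] ℝ} {u : V} (hu : ∀ v, β u v = l v) :
    sgrad β l = u := by
  apply h.injective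
  rw [h.beta_sgrad]
  exact (ContinuousLinearMap.ext hu).symm

theorem Symp.norm_sgrad_le (h : Symp β Cβ) (l : V →L[ℝ] ℝ) : ‖sgrad β l‖ ≤ Cβ * ‖l‖ := by
  have := h.bd (sgrad β l)
  rwa [h.beta_sgrad] at this

end Grad

end Vale.Agent.P265.Flat
end
end

section

section

open Set Filter
open scoped Topology ContDiff

namespace Vale.Agent.P265

section Quad

variable {A B : Type*} [NormedAddCommGroup A] [NormedSpace ℝ A] [NormedAddCommGroup B]
  [NormedSpace ℝ B]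

/-- The quadrilateral inequality. -/
theorem quad_of_contDiff {f : A → B} {L : ℝ} (hf : Differentiable ℝ f)
    (h1 : ∀ x, ‖fderiv ℝ f x‖ ≤ L) (h2 : ∀ x y, ‖fderiv ℝ f x - fderiv ℝ f y‖ ≤ L * ‖x - y‖)
    (a a' b b' : A) : ‖(f a - f a') - (f b - f b')‖ ≤
      L * ‖(a - a') - (b - b')‖ + L * max ‖a - b‖ ‖a' - b'‖ * ‖b - b'‖ := by
  have hL : 0 ≤ L := (norm_nonneg _).trans (h1 a)
  set g : ℝ → B := fun s => f (a' + s • (a - a')) - f (b' + s • (b - b')) with hg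
  set g' : ℝ → B := fun s => fderiv ℝ f (a' + s • (a - a')) (a - a') -
    fderiv ℝ f (b' + s • (b - b')) (b - b') with hg'
  have hline : ∀ (c d : A) (s : ℝ), HasDerivAt (fun s : ℝ => c + s • d) d s := by
    intro c d s
    simpa only [hasDerivAt_const_add_iff, id_eq, one_smul] using ((hasDerivAt_id s).smul_const d).const_add c
  have hd : ∀ s : ℝ, HasDerivAt g (g' s) s := by
    intro s
    exact (((hf _).hasFDerivAt).comp_hasDerivAt s (hline a' (a - a') s)).sub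
      (((hf _).hasFDerivAt).comp_hasDerivAt s (hline b' (b - b') s))
  have hb : ∀ s ∈ Icc (0 : ℝ) 1, ‖g' s‖ ≤
      L * ‖(a - a') - (b - b')‖ + L * max ‖a - b‖ ‖a' - b'‖ * ‖b - b'‖ := by
    intro s hs
    have h3 : g' s = fderiv ℝ f (a' + s • (a - a')) ((a - a') - (b - b')) +
        (fderiv ℝ f (a' + s • (a - a')) - fderiv ℝ f (b' + s • (b - b'))) (b - b') := by
      simp only [hg', map_sub, sub_apply]
      abel
    rw [h3]
    refine (norm_add_le _ _).trans (add_le_add ?_ ?_)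
    · exact (ContinuousLinearMap.le_opNorm _ _).trans
        (mul_le_mul_of_nonneg_right (h1 _) (norm_nonneg _))
    · refine (ContinuousLinearMap.le_opNorm _ _).trans
        (mul_le_mul_of_nonneg_right ?_ (norm_nonneg _))
      refine (h2 _ _).trans (mul_le_mul_of_nonneg_left ?_ hL)
      have h4 : a' + s • (a - a') - (b' + s • (b - b')) =
          (1 - s) • (a' - b') + s • (a - b) := by
        simp only [smul_sub, sub_smul, one_smul]
        abel
      rw [h4]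
      refine (norm_add_le _ _).trans ?_
      rw [norm_smul, norm_smul, Real.norm_of_nonneg (by linarith only [hs.2]),
        Real.norm_of_nonneg hs.1]
      have h5 : ‖a' - b'‖ ≤ max ‖a - b‖ ‖a' - b'‖ := le_max_right _ _
      have h6 : ‖a - b‖ ≤ max ‖a - b‖ ‖a' - b'‖ := le_max_left _ _
      nlinarith only [h5, h6, hs.1, hs.2]
  have := Convex.norm_image_sub_le_of_norm_hasDerivWithin_le (f := g) (f' := g')
    (s := Icc (0 : ℝ) 1) (x := 0) (y := 1)
    (fun x _ => (hd x).hasDerivWithinAt) hb (convex_Icc 0 1) ⟨le_rfl, zero_le_one⟩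
    ⟨zero_le_one, le_rfl⟩
  have h3 : g 1 - g 0 = (f a - f a') - (f b - f b') := by
    simp only [hg, one_smul, zero_smul, add_zero, add_sub_cancel]
    abel
  rwa [h3, sub_zero, norm_one, mul_one] at this

theorem norm_sub_le_of_fderiv {f : A → B} {L : ℝ} (hf : Differentiable ℝ f)
    (h1 : ∀ x, ‖fderiv ℝ f x‖ ≤ L) (x y : A) : ‖f x - f y‖ ≤ L * ‖x - y‖ :=
  Convex.norm_image_sub_le_of_norm_fderiv_le (𝕜 := ℝ) (s := univ) (fun x _ => hf x)
    (fun x _ => h1 x) convex_univ (mem_univ y) (mem_univ x)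

end Quad

section Bounded

variable {V : Type*} [NormedAddCommGroup V] [NormedSpace ℝ V] {W : Type*} [NormedAddCommGroup W]
  [NormedSpace ℝ W]

/-- Functions periodic in time, `Λ`-periodic in space, vanishing for `z ∈ O`. -/
structure IsPer (Λ : AddSubgroup V) (O : Set V) (G : ℝ × V → W) : Prop where
  time : ∀ q, G (q + (1, 0)) = G q
  space : ∀ l ∈ Λ, ∀ q, G (q + (0, l)) = G q
  zero : ∀ q : ℝ × V, q.2 ∈ O → G q = 0

variable {Λ : AddSubgroup V} {O P : Set V} {G : ℝ × V → W}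

omit [NormedSpace ℝ V] [NormedSpace ℝ W] in
theorem IsPer.bounded (hG : IsPer Λ O G) (hc : Continuous G) (hP : IsCompact P)
    (hOP : ∀ z ∉ O, ∃ l ∈ Λ, z + l ∈ P) : ∃ C, ∀ q, ‖G q‖ ≤ C := by
  have hcomp : IsCompact (Icc (0 : ℝ) 1 ×ˢ P) := isCompact_Icc.prod hP
  obtain ⟨C, hC⟩ := hcomp.exists_bound_of_continuousOn hc.continuousOn
  refine ⟨max C 0, ?_⟩
  rintro ⟨t, z⟩
  by_cases hz : z ∈ O
  · rw [hG.zero _ hz, norm_zero]
    exact le_max_right _ _
  · obtain ⟨l, hl, hlP⟩ := hOP z hz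
    have h1 : G (Int.fract t, z + l) = G (t, z) := by
      have h2 := hG.space l hl (Int.fract t, z)
      rw [Prod.mk_add_mk, add_zero] at h2
      rw [h2]
      have h3 : Function.Periodic (fun t => G (t, z)) 1 := by
        intro t
        have := hG.time (t, z)
        rwa [Prod.mk_add_mk, add_zero] at this
      have h4 : (fun t => G (t, z)) (t - ⌊t⌋ • (1 : ℝ)) = G (t, z) := h3.sub_zsmul_eq ⌊t⌋
      rw [zsmul_one] at h4
      exact h4
    rw [← h1]
    exact (hC _ ⟨⟨Int.fract_nonneg t, (Int.fract_lt_one t).le⟩, hlP⟩).trans (le_max_left _ _)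

theorem IsPer.fderiv_per (hG : IsPer Λ O G) (hO : IsOpen O) : IsPer Λ O (fderiv ℝ G) := by
  have gen : ∀ a : ℝ × V, (∀ q, G (q + a) = G q) → ∀ q, fderiv ℝ G (q + a) = fderiv ℝ G q := by
    intro a ha q
    rw [← fderiv_comp_add_right]
    congr 1
    funext q
    exact ha q
  refine ⟨gen _ hG.time, fun l hl => gen _ (hG.space l hl), ?_⟩
  intro q hq
  have h1 : G =ᶠ[𝓝 q] fun _ => 0 := by
    filter_upwards [(continuous_snd.tendsto q).eventually (hO.mem_nhds hq)] with q' hq'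
    exact hG.zero q' hq'
  rw [h1.fderiv_eq, fderiv_fun_const]
  rfl

/-- A smooth periodic vector field is nice. -/
theorem IsPer.niceField {X : ℝ × V → V} (hX : IsPer Λ O X) (hs : ContDiff ℝ ∞ X) (hO : IsOpen O)
    (hP : IsCompact P) (hOP : ∀ z ∉ O, ∃ l ∈ Λ, z + l ∈ P) : ∃ L, NiceField X L := by
  have hs1 : ContDiff ℝ ∞ (fderiv ℝ X) := hs.fderiv_right (by norm_cast)
  have hs2 : ContDiff ℝ ∞ (fderiv ℝ (fderiv ℝ X)) := hs1.fderiv_right (by norm_cast)
  obtain ⟨C₀, hC₀⟩ := hX.bounded hs.continuous hP hOP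
  obtain ⟨C₁, hC₁⟩ := (hX.fderiv_per hO).bounded hs1.continuous hP hOP
  obtain ⟨C₂, hC₂⟩ := ((hX.fderiv_per hO).fderiv_per hO).bounded hs2.continuous hP hOP
  set L := max 1 (max C₀ (max C₁ C₂)) with hL
  have hL0 : C₀ ≤ L := (le_max_left _ _).trans (le_max_right _ _)
  have hL1 : C₁ ≤ L := (le_max_left _ _).trans ((le_max_right _ _).trans (le_max_right _ _))
  have hL2 : C₂ ≤ L := (le_max_right _ _).trans ((le_max_right _ _).trans (le_max_right _ _))
  have hd : Differentiable ℝ X := hs.differentiable (by simp)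
  have hd1 : Differentiable ℝ (fderiv ℝ X) := hs1.differentiable (by simp)
  refine ⟨L, le_max_left _ _, fun q => (hC₀ q).trans hL0, ?_, ?_⟩
  · exact fun q q' => norm_sub_le_of_fderiv hd (fun q => (hC₁ q).trans hL1) q q'
  · exact quad_of_contDiff hd (fun q => (hC₁ q).trans hL1)
      (fun x y => norm_sub_le_of_fderiv hd1 (fun q => (hC₂ q).trans hL2) x y)

end Bounded

end Vale.Agent.P265
end
end

section

section

open Set Filter
open scoped Topology

set_option linter.unusedSectionVars false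

namespace Vale.Agent.P265.Flat

variable {V : Type*} [NormedAddCommGroup V] [NormedSpace ℝ V]
  {X : ℝ × V → V} {L : ℝ}

section Periodic

variable {Λ : AddSubgroup V}

theorem sol_add_period (h : NiceField X L) (hX : ∀ t z, ∀ l ∈ Λ, X (t, z + l) = X (t, z))
    {y : V → ℝ → V} (hy : ∀ z, y z 0 = z ∧ IsSol X (y z)) (z : V) {l : V}
    (hl : l ∈ Λ) {t : ℝ} (ht : t ∈ Icc (0 : ℝ) 1) : y (z + l) t = y z t + l := by
  refine h.sol_unique (hy (z + l)).2 (y' := fun t => y z t + l) ?_ ?_ ht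
  · intro t ht
    rw [hX t _ l hl]
    exact ((hy z).2 t ht).add_const l
  · rw [(hy (z + l)).1, (hy z).1]

theorem continuous_time_one (h : NiceField X L)
    {y : V → ℝ → V} (hy : ∀ z, y z 0 = z ∧ IsSol X (y z)) {t : ℝ}
    (ht : t ∈ Icc (0 : ℝ) 1) : Continuous (fun z => y z t) := by
  have h1 : LipschitzWith (Real.exp L).toNNReal (fun z => y z t) := by
    refine LipschitzWith.of_dist_le_mul fun z w => ?_
    rw [dist_eq_norm, dist_eq_norm, Real.coe_toNNReal _ (Real.exp_pos L).le]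
    have h2 := h.dist_sol (hy z).2 (hy w).2 ht
    rwa [(hy z).1, (hy w).1] at h2
  exact h1.continuous

/-- Uniform nondegeneracy near the fixed points. -/
theorem uniform_nondeg (h : NiceField X L) (hX : ∀ t z, ∀ l ∈ Λ, X (t, z + l) = X (t, z))
    {y : V → ℝ → V} (hy : ∀ z, y z 0 = z ∧ IsSol X (y z)) {T P : Set V}
    (hT : IsClosed T) (hTΛ : ∀ z ∈ T, ∀ l ∈ Λ, z + l ∈ T) (hP : IsCompact P)
    (hTP : ∀ z ∈ T, ∃ l ∈ Λ, z + l ∈ P)
    (hnd : ∀ s ∈ T, y s 1 = s → ∃ c > 0, ∃ η > 0, ∀ a b, ‖a - s‖ < η → ‖b - s‖ < η →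
      c * ‖a - b‖ ≤ ‖(a - b) - (y a 1 - y b 1)‖) :
    ∃ c > 0, ∃ η > 0, ∀ s ∈ T, y s 1 = s → ∀ a b, ‖a - s‖ < η → ‖b - s‖ < η →
      c * ‖a - b‖ ≤ ‖(a - b) - (y a 1 - y b 1)‖ := by
  have h1 : (1 : ℝ) ∈ Icc (0 : ℝ) 1 := ⟨zero_le_one, le_rfl⟩
  have hΦ := continuous_time_one h hy h1
  set S : Set V := {z | z ∈ T ∧ y z 1 = z} with hS
  have hSc : IsClosed S := hT.inter (isClosed_eq hΦ continuous_id)
  have hSP : IsCompact (P ∩ S) := hP.inter_right hSc
  have key : ∃ c > 0, ∃ η > 0, ∀ s ∈ P ∩ S, ∀ a b, ‖a - s‖ < η → ‖b - s‖ < η →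
      c * ‖a - b‖ ≤ ‖(a - b) - (y a 1 - y b 1)‖ := by
    refine IsCompact.induction_on (p := fun A => ∃ c > 0, ∃ η > 0, ∀ s ∈ A, ∀ a b,
      ‖a - s‖ < η → ‖b - s‖ < η → c * ‖a - b‖ ≤ ‖(a - b) - (y a 1 - y b 1)‖) hSP ?_ ?_ ?_ ?_
    · exact ⟨1, one_pos, 1, one_pos, fun s hs => absurd hs (notMem_empty s)⟩
    · rintro A B hAB ⟨c, hc, η, hη, hB⟩
      exact ⟨c, hc, η, hη, fun s hs => hB s (hAB hs)⟩
    · rintro A B ⟨c, hc, η, hη, hA⟩ ⟨c', hc', η', hη', hB⟩
      refine ⟨min c c', lt_min hc hc', min η η', lt_min hη hη', ?_⟩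
      rintro s (hs | hs) a b ha hb
      · refine le_trans (mul_le_mul_of_nonneg_right (min_le_left _ _) (norm_nonneg _)) ?_
        exact hA s hs a b (lt_of_lt_of_le ha (min_le_left _ _))
          (lt_of_lt_of_le hb (min_le_left _ _))
      · refine le_trans (mul_le_mul_of_nonneg_right (min_le_right _ _) (norm_nonneg _)) ?_
        exact hB s hs a b (lt_of_lt_of_le ha (min_le_right _ _))
          (lt_of_lt_of_le hb (min_le_right _ _))
    · rintro s ⟨-, hsT, hsf⟩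
      obtain ⟨c, hc, η, hη, hcη⟩ := hnd s hsT hsf
      refine ⟨Metric.ball s (η / 2),
        mem_nhdsWithin_of_mem_nhds (Metric.ball_mem_nhds s (by linarith only [hη])), c, hc, η / 2,
        by linarith only [hη], ?_⟩
      intro s' hs' a b ha hb
      have h2 : ‖s' - s‖ < η / 2 := by rwa [Metric.mem_ball, dist_eq_norm] at hs'
      refine hcη a b ?_ ?_
      · have := norm_add_le (a - s') (s' - s)
        rw [sub_add_sub_cancel] at this
        linarith only [ha, h2, this]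
      · have := norm_add_le (b - s') (s' - s)
        rw [sub_add_sub_cancel] at this
        linarith only [hb, h2, this]
  obtain ⟨c, hc, η, hη, hk⟩ := key
  refine ⟨c, hc, η, hη, ?_⟩
  intro s hs hsf a b ha hb
  obtain ⟨l, hl, hlP⟩ := hTP s hs
  have h2 := hk (s + l) ⟨hlP, hTΛ s hs l hl, by rw [sol_add_period h hX hy s hl h1, hsf]⟩
    (a + l) (b + l) (by rwa [add_sub_add_right_eq_sub]) (by rwa [add_sub_add_right_eq_sub])
  rw [sol_add_period h hX hy a hl h1, sol_add_period h hX hy b hl h1,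
    add_sub_add_right_eq_sub, add_sub_add_right_eq_sub] at h2
  exact h2

/-- Almost fixed points are close to fixed points. -/
theorem almost_fixed (h : NiceField X L) (hX : ∀ t z, ∀ l ∈ Λ, X (t, z + l) = X (t, z))
    {y : V → ℝ → V} (hy : ∀ z, y z 0 = z ∧ IsSol X (y z)) {T P : Set V}
    (hT : IsClosed T) (hTΛ : ∀ z ∈ T, ∀ l ∈ Λ, z + l ∈ T) (hP : IsCompact P)
    (hTP : ∀ z ∈ T, ∃ l ∈ Λ, z + l ∈ P) {η : ℝ} (hη : 0 < η) :
    ∃ κ > 0, ∀ z ∈ T, ‖z - y z 1‖ ≤ κ → ∃ s ∈ T, y s 1 = s ∧ ‖z - s‖ < η := by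
  have h1 : (1 : ℝ) ∈ Icc (0 : ℝ) 1 := ⟨zero_le_one, le_rfl⟩
  have hΦ := continuous_time_one h hy h1
  set K : Set V := P ∩ {z | z ∈ T ∧ ∀ s ∈ T, y s 1 = s → η ≤ ‖z - s‖} with hK
  have hKc : IsCompact K := by
    refine hP.inter_right (hT.inter ?_)
    have : {z : V | ∀ s ∈ T, y s 1 = s → η ≤ ‖z - s‖} =
        ⋂ s ∈ {s | s ∈ T ∧ y s 1 = s}, {z | η ≤ ‖z - s‖} := by
      ext z
      simp only [mem_ofPred_eq, mem_iInter, and_imp]
    change IsClosed {z : V | ∀ s ∈ T, y s 1 = s → η ≤ ‖z - s‖}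
    rw [this]
    exact isClosed_biInter fun s _ => isClosed_le continuous_const
      (continuous_id.sub continuous_const).norm
  have hcont : Continuous (fun z : V => ‖z - y z 1‖) := (continuous_id.sub hΦ).norm
  have key : ∃ κ > 0, ∀ z ∈ K, κ < ‖z - y z 1‖ := by
    rcases K.eq_empty_or_nonempty with hemp | hne
    · exact ⟨1, one_pos, fun z hz => by rw [hemp] at hz; exact absurd hz (notMem_empty z)⟩
    · obtain ⟨z₀, hz₀, hmin⟩ := hKc.exists_isMinOn hne hcont.continuousOn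
      have hpos : 0 < ‖z₀ - y z₀ 1‖ := by
        rw [norm_pos_iff, sub_ne_zero]
        intro heq
        have := hz₀.2.2 z₀ hz₀.2.1 heq.symm
        rw [sub_self, norm_zero] at this
        linarith
      refine ⟨‖z₀ - y z₀ 1‖ / 2, by linarith only [hpos], fun z hz => ?_⟩
      have : ‖z₀ - y z₀ 1‖ ≤ ‖z - y z 1‖ := hmin hz
      linarith
  obtain ⟨κ, hκ, hκ'⟩ := key
  refine ⟨κ, hκ, ?_⟩
  intro z hz hzκ
  obtain ⟨l, hl, hlP⟩ := hTP z hz
  by_contra hcon
  push Not at hcon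
  have hzK : z + l ∈ K := by
    refine ⟨hlP, hTΛ z hz l hl, ?_⟩
    intro s hs hsf
    have hl' : -l ∈ Λ := neg_mem hl
    have h2 := hcon (s + -l) (hTΛ s hs _ hl') (by rw [sol_add_period h hX hy s hl' h1, hsf])
    have h3 : z - (s + -l) = z + l - s := by abel
    rwa [h3] at h2
  have h2 := hκ' _ hzK
  rw [sol_add_period h hX hy z hl h1, add_sub_add_right_eq_sub] at h2
  linarith

/-- The comparison of almost closed chains and fixed points of the time-one map. -/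
theorem kp (h : NiceField X L)
    (hX : ∀ t z, ∀ l ∈ Λ, X (t, z + l) = X (t, z))
    {y : V → ℝ → V} (hy : ∀ z, y z 0 = z ∧ IsSol X (y z)) {T P : Set V}
    (hT : IsClosed T) (hTΛ : ∀ z ∈ T, ∀ l ∈ Λ, z + l ∈ T) (hP : IsCompact P)
    (hTP : ∀ z ∈ T, ∃ l ∈ Λ, z + l ∈ P)
    (hnd : ∀ s ∈ T, y s 1 = s → ∃ c > 0, ∃ η > 0, ∀ a b, ‖a - s‖ < η → ‖b - s‖ < η →
      c * ‖a - b‖ ≤ ‖(a - b) - (y a 1 - y b 1)‖) :
    ∃ η > 0, ∃ C > 0, ∃ κ > 0, ∃ m₀ : ℕ, ∀ m ≥ m₀, 0 < m →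
      (∀ u ρ : ℕ → V, IsChain X m u ρ → (∀ j < m, ρ j = 0) → u m = u 0 → u 0 ∈ T →
        ∃ s ∈ T, y s 1 = s ∧ ‖u 0 - s‖ < η) ∧
      (∀ s ∈ T, y s 1 = s → ∀ u ρ u' ρ' : ℕ → V, IsChain X m u ρ → IsChain X m u' ρ' →
        ‖u 0 - s‖ < η → ‖u' 0 - s‖ < η →
        ∑ i ∈ Finset.range m, ‖ρ i‖ ≤ κ → ∑ i ∈ Finset.range m, ‖ρ' i‖ ≤ κ →
        ∀ j ≤ m, ‖u j - u' j‖ ≤ C * (∑ i ∈ Finset.range m, ‖ρ i - ρ' i‖ +
          ‖(u m - u 0) - (u' m - u' 0)‖)) := by
  have hL := h.one_le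
  have hC₁ := C₁_pos hL
  have hC₃ := C₃_pos hL
  obtain ⟨c, hc, η, hη, hu⟩ := uniform_nondeg h hX hy hT hTΛ hP hTP hnd
  obtain ⟨κ₁, hκ₁, haf⟩ := almost_fixed h hX hy hT hTΛ hP hTP hη
  set κ := c / (8 * C₃ L) with hκ
  have hκpos : 0 < κ := by positivity
  obtain ⟨m₀, hm₀⟩ := exists_nat_ge (max (2 * L) (max (C₁ L / κ₁) (1 / κ)))
  refine ⟨η, hη, Real.exp (4 * L) * (2 * (C₃ L + 1) / c + 2), by positivity, κ, hκpos, m₀, ?_⟩
  intro m hm hmpos
  have hmm : (m₀ : ℝ) ≤ m := by exact_mod_cast hm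
  have hm1 : 2 * L ≤ m := (le_max_left _ _).trans (hm₀.trans hmm)
  have hm2 : C₁ L / κ₁ ≤ m :=
    (le_max_left _ _).trans ((le_max_right _ _).trans (hm₀.trans hmm))
  have hm3 : 1 / κ ≤ m :=
    (le_max_right _ _).trans ((le_max_right _ _).trans (hm₀.trans hmm))
  have hm' : (0 : ℝ) < m := by exact_mod_cast hmpos
  have hmη : (m : ℝ) * (m : ℝ)⁻¹ = 1 := mul_inv_cancel₀ hm'.ne'
  refine ⟨?_, ?_⟩
  · intro u ρ hcu hρ hclosed huT
    refine haf (u 0) huT ?_
    have h1 := chain_sol h hmpos hcu (hy (u 0)).2 (hy (u 0)).1 m le_rfl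
    rw [hmη, hclosed] at h1
    have h2 : ∑ i ∈ Finset.range m, ‖ρ i‖ = 0 :=
      Finset.sum_eq_zero fun i hi => by rw [hρ i (Finset.mem_range.1 hi), norm_zero]
    rw [h2, zero_add] at h1
    refine h1.trans ?_
    rw [← div_eq_mul_inv, div_le_iff₀ hm']
    rw [div_le_iff₀ hκ₁] at hm2
    linarith only [hm2]
  · intro s hs hsf u ρ u' ρ' hcu hcu' hus hus' hρ hρ'
    have h1 := two_point h hmpos hm1 hcu hcu' (hy (u 0)).2 (hy (u' 0)).2 (hy (u 0)).1
      (hy (u' 0)).1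
    have h2 := hu s hs hsf (u 0) (u' 0) hus hus'
    set R := ∑ i ∈ Finset.range m, ‖ρ i - ρ' i‖ with hR
    have hR0 : 0 ≤ R := Finset.sum_nonneg fun _ _ => norm_nonneg _
    set D := ‖u 0 - u' 0‖ with hD
    have hD0 : 0 ≤ D := norm_nonneg _
    set e := ‖(u m - u 0) - (u' m - u' 0)‖ with he
    have he0 : 0 ≤ e := norm_nonneg _
    have hce : ‖(u 0 - u' 0) - (y (u 0) 1 - y (u' 0) 1)‖ ≤
        ‖(u m - u' m) - (y (u 0) 1 - y (u' 0) 1)‖ + e := by
      have := norm_sub_le ((u m - u' m) - (y (u 0) 1 - y (u' 0) 1)) ((u m - u 0) - (u' m - u' 0))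
      have h3 : (u m - u' m) - (y (u 0) 1 - y (u' 0) 1) - ((u m - u 0) - (u' m - u' 0)) =
          (u 0 - u' 0) - (y (u 0) 1 - y (u' 0) 1) := by abel
      rwa [h3] at this
    have h3 : (m : ℝ)⁻¹ ≤ κ := by
      rw [inv_le_comm₀ hm' hκpos, ← one_div]
      exact hm3
    have h4 : C₃ L * (∑ i ∈ Finset.range m, ‖ρ i‖ + ∑ i ∈ Finset.range m, ‖ρ' i‖ +
        (m : ℝ)⁻¹) ≤ c / 2 := by
      have h5 : C₃ L * (∑ i ∈ Finset.range m, ‖ρ i‖ + ∑ i ∈ Finset.range m, ‖ρ' i‖ +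
        (m : ℝ)⁻¹) ≤ C₃ L * (3 * κ) := mul_le_mul_of_nonneg_left (by linarith only [hρ, hρ', h3]) hC₃.le
      have h6 : C₃ L * (8 * κ) = c := by
        rw [hκ]
        (clear * - hC₃ hc; field_simp)
      linarith only [hc, h5, h6]
    have h5 : C₃ L * ((∑ i ∈ Finset.range m, ‖ρ i‖ + ∑ i ∈ Finset.range m, ‖ρ' i‖ +
        (m : ℝ)⁻¹) * D + R) ≤ c / 2 * D + C₃ L * R := by
      have h6 := mul_le_mul_of_nonneg_right h4 hD0
      calc _ = C₃ L * (∑ i ∈ Finset.range m, ‖ρ i‖ + ∑ i ∈ Finset.range m, ‖ρ' i‖ +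
            (m : ℝ)⁻¹) * D + C₃ L * R := by ring
        _ ≤ _ := by linarith only [h6]
    have h6 : D ≤ 2 * (C₃ L + 1) / c * (R + e) := by
      rw [div_mul_eq_mul_div, le_div_iff₀ hc]
      nlinarith only [hR0, h2, h1, hce, h5, hC₃, he0]
    intro j hj
    refine ((chain_chain h hmpos hm1 hcu hcu').1 j hj).trans ?_
    rw [← hR, ← hD, mul_assoc]
    refine mul_le_mul_of_nonneg_left ?_ (Real.exp_pos _).le
    linarith only [he0, h6]

end Periodic

end Vale.Agent.P265.Flat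
end
end

section

section

open Set Filter
open scoped Topology ContDiff

set_option linter.unusedSectionVars false

namespace Vale.Agent.P265.Flat

section Ext

variable {m : ℕ} {V : Type*} [NormedAddCommGroup V] [NormedSpace ℝ V]

/-- Extension by zero of the midpoint displacements. -/
def ex (ζ : Fin m → V) (j : ℕ) : V := if h : j < m then ζ ⟨j, h⟩ else 0

theorem ex_of_lt (ζ : Fin m → V) {j : ℕ} (h : j < m) : ex ζ j = ζ ⟨j, h⟩ := dif_pos h

variable (m V) in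
/-- `ex` as a continuous linear map. -/
noncomputable def exL (j : ℕ) : (Fin m → V) →L[ℝ] V :=
  if h : j < m then ContinuousLinearMap.proj (R := ℝ) (φ := fun _ : Fin m => V) ⟨j, h⟩ else 0

@[simp] theorem exL_apply (ζ : Fin m → V) (j : ℕ) : exL m V j ζ = ex ζ j := by
  by_cases h : j < m
  · simp [exL, ex, h]
  · simp [exL, ex, h]

theorem norm_ex_le (ζ : Fin m → V) (j : ℕ) : ‖ex ζ j‖ ≤ ‖ζ‖ := by
  by_cases h : j < m
  · rw [ex_of_lt ζ h]
    exact norm_le_pi_norm ζ _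
  · simp only [ex, h, ↓reduceDIte, norm_zero, norm_nonneg]

theorem norm_le_of_ex {ζ : Fin m → V} {C : ℝ} (hC : 0 ≤ C) (h : ∀ j < m, ‖ex ζ j‖ ≤ C) :
    ‖ζ‖ ≤ C := by
  rw [pi_norm_le_iff_of_nonneg hC]
  intro i
  have := h i i.2
  rwa [ex_of_lt ζ i.2] at this

theorem ex_zero (j : ℕ) : ex (0 : Fin m → V) j = 0 := by
  rw [← exL_apply, map_zero]

theorem ex_sub (ζ ζ' : Fin m → V) (j : ℕ) : ex (ζ - ζ') j = ex ζ j - ex ζ' j := by
  rw [← exL_apply, map_sub, exL_apply, exL_apply]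

theorem ex_single {i : ℕ} (hi : i < m) (v : V) (j : ℕ) :
    ex (Pi.single (⟨i, hi⟩ : Fin m) v : Fin m → V) j = if j = i then v else 0 := by
  by_cases h : j < m
  · rw [ex_of_lt _ h]
    by_cases hji : j = i
    · subst hji
      simp
    · rw [Pi.single_eq_of_ne (by simpa [Fin.ext_iff] using hji), if_neg hji]
  · have h1 : ex (Pi.single (⟨i, hi⟩ : Fin m) v : Fin m → V) j = 0 := dif_neg h
    rw [h1, if_neg (by omega)]

/-- The vertices of the polygon relative to the midpoint of the end points. -/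
noncomputable def ell (ζ : Fin m → V) : ℕ → V
  | 0 => ∑ i ∈ Finset.range m, (-1 : ℝ) ^ i • ex ζ i
  | j + 1 => (2 : ℝ) • ex ζ j - ell ζ j

theorem ell_succ (ζ : Fin m → V) (j : ℕ) : ell ζ (j + 1) = (2 : ℝ) • ex ζ j - ell ζ j := rfl

variable (m V) in
/-- `ell` as a continuous linear map. -/
noncomputable def ellL : ℕ → (Fin m → V) →L[ℝ] V
  | 0 => ∑ i ∈ Finset.range m, (-1 : ℝ) ^ i • exL m V i
  | j + 1 => (2 : ℝ) • exL m V j - ellL j

@[simp] theorem ellL_apply (ζ : Fin m → V) (j : ℕ) : ellL m V j ζ = ell ζ j := by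
  induction j with
  | zero => simp only [ellL, sum_apply, smul_apply, exL_apply, ell]
  | succ j ih => simp only [ellL, sub_apply, smul_apply, exL_apply, ih, ell]

theorem ell_formula (ζ : Fin m → V) (j : ℕ) : ell ζ j =
    (-1 : ℝ) ^ j • (ell ζ 0 - (2 : ℝ) • ∑ i ∈ Finset.range j, (-1 : ℝ) ^ i • ex ζ i) := by
  induction j with
  | zero => simp only [pow_zero, Finset.range_zero, Finset.sum_empty, smul_zero, sub_zero, one_smul]
  | succ j ih =>
    rw [ell_succ, ih, Finset.sum_range_succ]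
    have h1 : ((-1 : ℝ) ^ j) * ((-1 : ℝ) ^ j) = 1 := by
      rw [← mul_pow]; simp
    have h2 : (-1 : ℝ) ^ (j + 1) = -((-1 : ℝ) ^ j) := by rw [pow_succ]; ring
    rw [h2]
    set x : ℝ := (-1 : ℝ) ^ j
    set S := ∑ i ∈ Finset.range j, (-1 : ℝ) ^ i • ex ζ i
    have h3 : -x • (ell ζ 0 - (2 : ℝ) • (S + x • ex ζ j)) =
        (2 * (x * x)) • ex ζ j - x • (ell ζ 0 - (2 : ℝ) • S) := by
      module
    rw [h3, h1, mul_one]

theorem ell_last (hm : Even m) (ζ : Fin m → V) : ell ζ m = -ell ζ 0 := by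
  rw [ell_formula ζ m, hm.neg_one_pow, one_smul]
  have h1 : ell ζ 0 = ∑ i ∈ Finset.range m, (-1 : ℝ) ^ i • ex ζ i := rfl
  rw [← h1]
  module

theorem mid_ell (z : V) (ζ : Fin m → V) (j : ℕ) : mid (fun j => z + ell ζ j) j = z + ex ζ j := by
  simp only [mid, ell_succ]
  module

theorem ex_eq_mid (ζ : Fin m → V) (j : ℕ) : ex ζ j = (1 / 2 : ℝ) • (ell ζ j + ell ζ (j + 1)) := by
  rw [ell_succ]
  module

variable (m V) in
/-- The evaluation points as linear functions of the base point and the displacements. -/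
noncomputable def aL (j : ℕ) : V × (Fin m → V) →L[ℝ] V :=
  ContinuousLinearMap.fst ℝ V (Fin m → V) +
    (exL m V j).comp (ContinuousLinearMap.snd ℝ V (Fin m → V))

@[simp] theorem aL_apply (q : V × (Fin m → V)) (j : ℕ) : aL m V j q = q.1 + ex q.2 j := by
  simp [aL]

end Ext

section Form

variable (m : ℕ) {V : Type*} [NormedAddCommGroup V] [NormedSpace ℝ V]

/-- The bilinear form whose quadratic form is the symplectic area of the polygon. -/
noncomputable def bForm (β : V →L[ℝ] V →L[ℝ] ℝ) : (Fin m → V) →L[ℝ] (Fin m → V) →L[ℝ] ℝ :=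
  (1 / 2 : ℝ) • ∑ j ∈ Finset.range m,
    β.bilinearComp (ellL m V (j + 1) - ellL m V j) (exL m V j)

variable {m} {β : V →L[ℝ] V →L[ℝ] ℝ} {Cβ : ℝ}

theorem bForm_apply (ζ δ : Fin m → V) : bForm m β ζ δ =
    (1 / 2) * ∑ j ∈ Finset.range m, β (ell ζ (j + 1) - ell ζ j) (ex δ j) := by
  simp only [bForm, one_div, smul_apply, sum_apply, ContinuousLinearMap.bilinearComp_apply, sub_apply, ellL_apply, map_sub, exL_apply, Finset.sum_sub_distrib, smul_eq_mul]

theorem bForm_symm (h : Symp β Cβ) (hm : Even m) (ζ δ : Fin m → V) :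
    bForm m β ζ δ + bForm m β δ ζ =
      ∑ j ∈ Finset.range m, β (ell ζ (j + 1) - ell ζ j) (ex δ j) := by
  have key : ∑ j ∈ Finset.range m, β (ell ζ (j + 1) - ell ζ j) (ex δ j) =
      ∑ j ∈ Finset.range m, β (ell δ (j + 1) - ell δ j) (ex ζ j) := by
    have h1 : ∀ j, β (ell ζ (j + 1) - ell ζ j) (ex δ j) - β (ell δ (j + 1) - ell δ j) (ex ζ j) =
        β (ell ζ (j + 1)) (ell δ (j + 1)) - β (ell ζ j) (ell δ j) := by
      intro j
      rw [ex_eq_mid δ j, ex_eq_mid ζ j]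
      simp only [map_sub, map_add, map_smul, sub_apply, smul_eq_mul]
      rw [h.skew (ell δ (j + 1)) (ell ζ j), h.skew (ell δ (j + 1)) (ell ζ (j + 1)),
        h.skew (ell δ j) (ell ζ j), h.skew (ell δ j) (ell ζ (j + 1))]
      ring
    rw [← sub_eq_zero, ← Finset.sum_sub_distrib, Finset.sum_congr rfl fun j _ => h1 j,
      Finset.sum_range_sub (fun j => β (ell ζ j) (ell δ j)), ell_last hm, ell_last hm]
    simp only [map_neg, neg_apply, neg_neg, sub_self]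
  rw [bForm_apply, bForm_apply, ← key]
  ring

/-- Bounds for the residual from bounds for the fibre derivative. -/
theorem residual_fiber (h : Symp β Cβ) {ρ : ℕ → V} {C : ℝ} (hC : 0 ≤ C)
    (hρ : ∀ δ : Fin m → V, |∑ j ∈ Finset.range m, β (ρ j) (ex δ j)| ≤ C * ‖δ‖) :
    ∀ j < m, (∀ v, |β (ρ j) v| ≤ C * ‖v‖) ∧ ‖ρ j‖ ≤ Cβ * C := by
  intro i hi
  have key : ∀ v, |β (ρ i) v| ≤ C * ‖v‖ := by
    intro v
    have h1 := hρ (Pi.single (⟨i, hi⟩ : Fin m) v)
    rw [Finset.sum_eq_single i] at h1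
    · rw [ex_single, if_pos rfl, Pi.norm_single] at h1
      exact h1
    · intro j _ hj
      rw [ex_single, if_neg hj, map_zero]
    · intro hj
      exact absurd (Finset.mem_range.2 hi) hj
  exact ⟨key, h.norm_le hC key⟩

theorem beta_sum_left {ι : Type*} (s : Finset ι) (f : ι → V) (v : V) :
    β (∑ i ∈ s, f i) v = ∑ i ∈ s, β (f i) v := by
  rw [map_sum]
  exact sum_apply _ _ _

end Form

end Vale.Agent.P265.Flat
end
end

section

section

open Set Filter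
open scoped Topology ContDiff

set_option linter.unusedSectionVars false

namespace Vale.Agent.P265.Flat

variable {m : ℕ} {V : Type*} [NormedAddCommGroup V] [NormedSpace ℝ V]

/-- The time step. -/
noncomputable def hst (m : ℕ) : ℝ := (m : ℝ)⁻¹

theorem hst_pos (hm : 0 < m) : 0 < hst m := by
  unfold hst
  have : (0 : ℝ) < m := by exact_mod_cast hm
  positivity

theorem hst_mul (hm : 0 < m) : (m : ℝ) * hst m = 1 :=
  mul_inv_cancel₀ (by have : (0 : ℝ) < m := by exact_mod_cast hm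
                      exact this.ne')

theorem hst_mul_le (hm : 0 < m) {j : ℕ} (hj : j ≤ m) : (j : ℝ) * hst m ≤ 1 := by
  rw [← hst_mul hm]
  exact mul_le_mul_of_nonneg_right (by exact_mod_cast hj) (hst_pos hm).le

/-- The discretized action of the Hamiltonian part. -/
noncomputable def act (G : ℝ × V → ℝ) (m : ℕ) (q : V × (Fin m → V)) : ℝ :=
  ∑ j ∈ Finset.range m, hst m * G ((j : ℝ) * hst m, q.1 + ex q.2 j)

/-- The residual of a chain. -/
noncomputable def res (X : ℝ × V → V) (m : ℕ) (τ : ℝ) (z : V) (ζ : Fin m → V)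
    (j : ℕ) : V :=
  (ell ζ (j + 1) - ell ζ j) - (τ * hst m) • X ((j : ℝ) * hst m, z + ex ζ j)

/-- The local expression of the generating function. -/
noncomputable def locF (β : V →L[ℝ] V →L[ℝ] ℝ) (G : ℝ × V → ℝ) (χ κ : V → ℝ) (m : ℕ)
    (q : V × (Fin m → V)) : ℝ :=
  bForm m β q.2 q.2 - ((1 - χ q.1) * κ q.1 + χ q.1 * act G m q)

variable {β : V →L[ℝ] V →L[ℝ] ℝ} {Cβ : ℝ} {G : ℝ × V → ℝ} {X : ℝ × V → V} {χ κ : V → ℝ}

theorem hasFDerivAt_act (hGX : ∀ t w, HasFDerivAt (fun w => G (t, w)) (β (X (t, w))) w)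
    (z : V) (ζ : Fin m → V) :
    ∃ D : V × (Fin m → V) →L[ℝ] ℝ, HasFDerivAt (act G m) D (z, ζ) ∧
      ∀ v δ, D (v, δ) = ∑ j ∈ Finset.range m,
        hst m * β (X ((j : ℝ) * hst m, z + ex ζ j)) (v + ex δ j) := by
  refine ⟨∑ j ∈ Finset.range m, hst m • (β (X ((j : ℝ) * hst m,
    z + ex ζ j))).comp (aL m V j), ?_, ?_⟩
  · have h1 : act G m = fun q => ∑ j ∈ Finset.range m,
        hst m * G ((j : ℝ) * hst m, aL m V j q) := by
      funext q
      simp [act]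
    rw [h1]
    refine HasFDerivAt.fun_sum fun j _ => ?_
    have h2 : HasFDerivAt (fun w => G ((j : ℝ) * hst m, w))
        (β (X ((j : ℝ) * hst m, z + ex ζ j))) (aL m V j (z, ζ)) := by
      rw [aL_apply]
      exact hGX _ _
    exact (h2.comp (z, ζ) (aL m V j).hasFDerivAt).const_mul (hst m)
  · intro v δ
    simp only [sum_apply, smul_apply, ContinuousLinearMap.comp_apply, aL_apply, map_add, smul_eq_mul]

theorem hasFDerivAt_bForm (h : Symp β Cβ) (hm : Even m) (z : V) (ζ : Fin m → V) :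
    ∃ D : V × (Fin m → V) →L[ℝ] ℝ,
      HasFDerivAt (fun q : V × (Fin m → V) => bForm m β q.2 q.2) D (z, ζ) ∧
      ∀ v δ, D (v, δ) = ∑ j ∈ Finset.range m, β (ell ζ (j + 1) - ell ζ j) (ex δ j) := by
  have h1 : HasFDerivAt (fun q : V × (Fin m → V) => bForm m β q.2)
      ((bForm m β).comp (ContinuousLinearMap.snd ℝ V (Fin m → V))) (z, ζ) :=
    ((bForm m β).comp (ContinuousLinearMap.snd ℝ V (Fin m → V))).hasFDerivAt
  have h2 : HasFDerivAt (fun q : V × (Fin m → V) => q.2)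
      (ContinuousLinearMap.snd ℝ V (Fin m → V)) (z, ζ) := hasFDerivAt_snd
  refine ⟨_, h1.clm_apply h2, ?_⟩
  intro v δ
  rw [← bForm_symm h hm]
  simp

/-- The derivative of the local expression. -/
theorem hasFDerivAt_locF (h : Symp β Cβ) (hm : Even m)
    (hGX : ∀ t w, HasFDerivAt (fun w => G (t, w)) (β (X (t, w))) w)
    {z : V} {χ' κ' : V →L[ℝ] ℝ} (hχ : HasFDerivAt χ χ' z) (hκ : HasFDerivAt κ κ' z)
    (ζ : Fin m → V) :
    ∃ D : V × (Fin m → V) →L[ℝ] ℝ, HasFDerivAt (locF β G χ κ m) D (z, ζ) ∧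
      ∀ v δ, D (v, δ) = ∑ j ∈ Finset.range m, β (res X m (χ z) z ζ j) (ex δ j) -
        ((1 - χ z) * κ' v + χ' v * (act G m (z, ζ) - κ z) +
          χ z * ∑ j ∈ Finset.range m, hst m * β (X ((j : ℝ) * hst m, z + ex ζ j)) v) := by
  obtain ⟨D₁, hD₁, hD₁'⟩ := hasFDerivAt_bForm (m := m) h hm z ζ
  obtain ⟨D₂, hD₂, hD₂'⟩ := hasFDerivAt_act (m := m) hGX z ζ
  have hfst : HasFDerivAt (fun q : V × (Fin m → V) => q.1)
      (ContinuousLinearMap.fst ℝ V (Fin m → V)) (z, ζ) := hasFDerivAt_fst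
  have h3 : HasFDerivAt (fun q : V × (Fin m → V) => χ q.1)
      (χ'.comp (ContinuousLinearMap.fst ℝ V (Fin m → V))) (z, ζ) :=
    HasFDerivAt.comp (z, ζ) (g := χ) (f := fun q : V × (Fin m → V) => q.1) hχ hfst
  have h4 : HasFDerivAt (fun q : V × (Fin m → V) => κ q.1)
      (κ'.comp (ContinuousLinearMap.fst ℝ V (Fin m → V))) (z, ζ) :=
    HasFDerivAt.comp (z, ζ) (g := κ) (f := fun q : V × (Fin m → V) => q.1) hκ hfst
  refine ⟨_, hD₁.sub (((h3.const_sub 1).mul h4).add (h3.mul hD₂)), ?_⟩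
  intro v δ
  have h6 : ∑ j ∈ Finset.range m, β (res X m (χ z) z ζ j) (ex δ j) =
      ∑ j ∈ Finset.range m, β (ell ζ (j + 1) - ell ζ j) (ex δ j) -
      χ z * ∑ j ∈ Finset.range m,
        hst m * β (X ((j : ℝ) * hst m, z + ex ζ j)) (ex δ j) := by
    rw [Finset.mul_sum, ← Finset.sum_sub_distrib]
    refine Finset.sum_congr rfl fun j _ => ?_
    rw [res, map_sub, map_smul, sub_apply, smul_apply, smul_eq_mul]
    ring
  have h7 : ∑ j ∈ Finset.range m, hst m * β (X ((j : ℝ) * hst m, z + ex ζ j)) (v + ex δ j) =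
      ∑ j ∈ Finset.range m, hst m * β (X ((j : ℝ) * hst m, z + ex ζ j)) v +
      ∑ j ∈ Finset.range m, hst m * β (X ((j : ℝ) * hst m, z + ex ζ j)) (ex δ j) := by
    rw [← Finset.sum_add_distrib]
    refine Finset.sum_congr rfl fun j _ => ?_
    rw [map_add]
    ring
  rw [h6]
  simp only [add_apply, sub_apply, smul_apply, neg_apply,
    ContinuousLinearMap.comp_apply, ContinuousLinearMap.coe_fst', smul_eq_mul, hD₁', hD₂', h7]
  ring

end Vale.Agent.P265.Flat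
end
end

section

section

open Set Filter
open scoped Topology ContDiff

set_option linter.unusedSectionVars false

namespace Vale.Agent.P265.Flat

variable {m : ℕ} {V : Type*} [NormedAddCommGroup V] [NormedSpace ℝ V]

theorem seq_fwd {a : ℕ → V} {c : ℝ} {k : ℕ} (h0 : a 0 = 0)
    (h : ∀ j < k, ‖a j‖ ≤ j * c → ‖a (j + 1) - a j‖ ≤ c) : ∀ j ≤ k, ‖a j‖ ≤ j * c := by
  intro j
  induction j with
  | zero => intro _; simp [h0]
  | succ j ih =>
    intro hj
    have h1 := ih (by omega)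
    have h2 := h j (by omega) h1
    have h3 := norm_add_le (a (j + 1) - a j) (a j)
    rw [sub_add_cancel] at h3
    push_cast
    linarith only [h1, h2, h3]

theorem zeta_bound (hm : Even m) {ζ : Fin m → V} {c : ℝ} (hc : 0 ≤ c)
    (h : ∀ j < m, ‖ell ζ (j + 1) - ell ζ j‖ ≤ c) : ‖ζ‖ ≤ 2 * (m * c) := by
  have hmc : 0 ≤ (m : ℝ) * c := by positivity
  have h1 := seq_fwd (a := fun j => ell ζ j - ell ζ 0) (c := c) (k := m) (by simp)
    (fun j hj _ => by rw [sub_sub_sub_cancel_right]; exact h j hj)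
  have h2 : 2 * ‖ell ζ 0‖ ≤ m * c := by
    have h3 := h1 m le_rfl
    simp only [ell_last hm] at h3
    have h4 : -ell ζ 0 - ell ζ 0 = (-2 : ℝ) • ell ζ 0 := by module
    rw [h4, norm_smul] at h3
    simpa only [ge_iff_le, norm_neg, Real.norm_ofNat] using h3
  have h3 : ∀ j ≤ m, ‖ell ζ j‖ ≤ 2 * (m * c) := by
    intro j hj
    have h4 := h1 j hj
    have h5 := norm_add_le (ell ζ j - ell ζ 0) (ell ζ 0)
    rw [sub_add_cancel] at h5
    have h6 : (j : ℝ) * c ≤ m * c := mul_le_mul_of_nonneg_right (by exact_mod_cast hj) hc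
    linarith only [hmc, h2, h4, h5, h6]
  refine norm_le_of_ex (by (clear * - hc; positivity)) fun j hj => ?_
  rw [ex_eq_mid, norm_smul, Real.norm_of_nonneg (by norm_num)]
  have h4 := norm_add_le (ell ζ j) (ell ζ (j + 1))
  have h5 := h3 j hj.le
  have h6 := h3 (j + 1) hj
  linarith only [h4, h5, h6]

variable {X : ℝ × V → V}

theorem ell_diff {τ : ℝ} {z : V} {ζ : Fin m → V} {j : ℕ} :
    ell ζ (j + 1) - ell ζ j = res X m τ z ζ j +
      (τ * hst m) • X ((j : ℝ) * hst m, z + ex ζ j) := by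
  simp [res]

/-- A bound for the displacements from a bound for the residual and for the vector field. -/
theorem zeta_le_of_res (hm : Even m) (hm0 : 0 < m) {τ : ℝ} (hτ0 : 0 ≤ τ) (hτ1 : τ ≤ 1) {z : V}
    {ζ : Fin m → V} {d x : ℝ} (hd : 0 ≤ d) (hx : 0 ≤ x) (h : ∀ j < m, ‖res X m τ z ζ j‖ ≤ d)
    (hX : ∀ j < m, ‖X ((j : ℝ) * hst m, z + ex ζ j)‖ ≤ x) :
    ‖ζ‖ ≤ 2 * (m * d) + 2 * x := by
  have hh := hst_pos hm0
  have hτh : ‖τ * hst m‖ ≤ hst m := by
    rw [Real.norm_of_nonneg (by positivity)]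
    nlinarith only [hτ1, hh]
  have h3 := zeta_bound hm (ζ := ζ) (c := d + hst m * x) (by (clear * - hd hh hx; positivity))
    (fun j hj => by
      rw [ell_diff (X := X) (τ := τ) (z := z)]
      refine (norm_add_le _ _).trans (add_le_add (h j hj) ?_)
      rw [norm_smul]
      exact mul_le_mul hτh (hX j hj) (norm_nonneg _) hh.le)
  refine h3.trans (le_of_eq ?_)
  have h4 : (m : ℝ) * (d + hst m * x) = m * d + (m * hst m) * x := by ring
  rw [h4, hst_mul hm0, one_mul]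
  ring

/-- Fibre-critical chains starting in the shell stay in the shell. -/
theorem stay {N : V → ℝ} (hN : ∀ a b, |N a - N b| ≤ ‖a - b‖)
    (hqc : ∀ a b, N ((1 / 2 : ℝ) • (a + b)) ≤ max (N a) (N b)) (hm : Even m) (hm0 : 0 < m)
    {ε a L : ℝ} (hε : 0 ≤ ε) (hX : ∀ t w, 0 < N w → ‖X (t, w)‖ ≤ ε) (hL : ∀ q, ‖X q‖ ≤ L)
    (hεL : ε + hst m * L ≤ a) {τ : ℝ} (hτ0 : 0 ≤ τ) (hτ1 : τ ≤ 1) {z : V} (hz : a < N z)
    {ζ : Fin m → V} (hres : ∀ j < m, res X m τ z ζ j = 0) : ‖ζ‖ ≤ 2 * ε := by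
  have hh := hst_pos hm0
  have hτh : ‖τ * hst m‖ ≤ hst m := by
    rw [Real.norm_of_nonneg (by (clear * - hτ0 hh; positivity))]
    nlinarith only [hτ1, hh]
  have hjh : ∀ j ≤ m, (j : ℝ) * (hst m * ε) ≤ ε := by
    intro j hj
    have h4 := hst_mul_le hm0 hj
    have h5 : (j : ℝ) * (hst m * ε) = (j * hst m) * ε := by ring
    rw [h5]
    nlinarith only [hε, h4]
  have hdiff : ∀ j < m, ell ζ (j + 1) - ell ζ j =
      (τ * hst m) • X ((j : ℝ) * hst m, z + ex ζ j) := by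
    intro j hj
    rw [ell_diff (X := X) (τ := τ) (z := z), hres j hj, zero_add]
  have hdL : ∀ j < m, ‖ell ζ (j + 1) - ell ζ j‖ ≤ hst m * L := by
    intro j hj
    rw [hdiff j hj, norm_smul]
    exact mul_le_mul hτh (hL _) (norm_nonneg _) hh.le
  have hdε : ∀ j < m, 0 < N (z + ex ζ j) → ‖ell ζ (j + 1) - ell ζ j‖ ≤ hst m * ε := by
    intro j hj hN0
    rw [hdiff j hj, norm_smul]
    exact mul_le_mul hτh (hX _ _ hN0) (norm_nonneg _) hh.le
  -- the midpoint is close to both end points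
  have hm1 : ∀ j < m, ‖(z + ell ζ j) - (z + ex ζ j)‖ ≤ hst m * L := by
    intro j hj
    have h1 : (z + ell ζ j) - (z + ex ζ j) = -((1 / 2 : ℝ) • (ell ζ (j + 1) - ell ζ j)) := by
      rw [ex_eq_mid]; module
    rw [h1, norm_neg, norm_smul, Real.norm_of_nonneg (by norm_num)]
    have h2 := hdL j hj
    have h3 := norm_nonneg (ell ζ (j + 1) - ell ζ j)
    linarith only [h2, h3]
  have hm2 : ∀ j < m, ‖(z + ell ζ (j + 1)) - (z + ex ζ j)‖ ≤ hst m * L := by
    intro j hj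
    have h1 : (z + ell ζ (j + 1)) - (z + ex ζ j) =
        (1 / 2 : ℝ) • (ell ζ (j + 1) - ell ζ j) := by
      rw [ex_eq_mid]; module
    rw [h1, norm_smul, Real.norm_of_nonneg (by norm_num)]
    have h2 := hdL j hj
    have h3 := norm_nonneg (ell ζ (j + 1) - ell ζ j)
    linarith only [h2, h3]
  have hends : a < N (z + ell ζ 0) ∨ a < N (z + ell ζ m) := by
    have h1 := hqc (z + ell ζ 0) (z + ell ζ m)
    have h2 : (1 / 2 : ℝ) • (z + ell ζ 0 + (z + ell ζ m)) = z := by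
      rw [ell_last hm]; module
    rw [h2] at h1
    exact lt_max_iff.1 (hz.trans_le h1)
  have key : ∀ j < m, 0 < N (z + ex ζ j) := by
    rcases hends with h0 | h0
    · -- forward
      have hpt : ∀ j < m, ‖ell ζ j - ell ζ 0‖ ≤ j * (hst m * ε) → 0 < N (z + ex ζ j) := by
        intro j hj hb
        have h1 := (abs_le.1 (hN (z + ell ζ 0) (z + ell ζ j))).2
        have h2 := (abs_le.1 (hN (z + ell ζ j) (z + ex ζ j))).2
        rw [add_sub_add_left_eq_sub, norm_sub_rev] at h1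
        have h3 := hm1 j hj
        have h4 := hjh j hj.le
        linarith only [hεL, h0, hb, h1, h2, h3, h4]
      have hq := seq_fwd (a := fun j => ell ζ j - ell ζ 0) (c := hst m * ε) (k := m) (by simp)
        (fun j hj hb => by
          rw [sub_sub_sub_cancel_right]
          exact hdε j hj (hpt j hj hb))
      exact fun j hj => hpt j hj (hq j hj.le)
    · -- backward
      have hpt : ∀ i < m, ‖ell ζ (m - i) - ell ζ m‖ ≤ i * (hst m * ε) →
          0 < N (z + ex ζ (m - (i + 1))) := by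
        intro i hi hb
        have e1 : m - (i + 1) + 1 = m - i := by omega
        have h1 := (abs_le.1 (hN (z + ell ζ m) (z + ell ζ (m - i)))).2
        have h2 := (abs_le.1 (hN (z + ell ζ (m - i)) (z + ex ζ (m - (i + 1))))).2
        rw [add_sub_add_left_eq_sub, norm_sub_rev] at h1
        have h3 := hm2 (m - (i + 1)) (by omega)
        rw [e1] at h3
        have h4 := hjh i hi.le
        linarith only [hεL, h0, hb, h1, h2, h3, h4]
      have hq := seq_fwd (a := fun i => ell ζ (m - i) - ell ζ m) (c := hst m * ε) (k := m)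
        (by simp)
        (fun i hi hb => by
          have e1 : m - (i + 1) + 1 = m - i := by omega
          have h1 := hdε (m - (i + 1)) (by omega) (hpt i hi hb)
          rw [e1] at h1
          rw [sub_sub_sub_cancel_right, norm_sub_rev]
          exact h1)
      intro j hj
      have h1 := hpt (m - (j + 1)) (by omega) (hq (m - (j + 1)) (by omega))
      have e1 : m - (m - (j + 1) + 1) = j := by omega
      rwa [e1] at h1
  have h3 := zeta_le_of_res (X := X) hm hm0 hτ0 hτ1 (ζ := ζ) (z := z) le_rfl hε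
    (fun j hj => by rw [hres j hj, norm_zero]) (fun j hj => hX _ _ (key j hj))
  linarith only [h3]

variable {β : V →L[ℝ] V →L[ℝ] ℝ} {Cβ : ℝ} {G : ℝ × V → ℝ} {χ κ : V → ℝ}

/-- The gradient estimate in the shell. -/
theorem shell_estimate [FiniteDimensional ℝ V] (hβ : Symp β Cβ) (hm : Even m) (hm0 : 0 < m)
    (hGX : ∀ t w, HasFDerivAt (fun w => G (t, w)) (β (X (t, w))) w)
    {z : V} {r ε Cχ : ℝ} (hr : 0 < r) (hε : 0 ≤ ε) {κ' : V → (V →L[ℝ] ℝ)}
    {χ' : V →L[ℝ] ℝ}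
    (hκ : ∀ w, ‖w - z‖ < r → HasFDerivAt κ (κ' w) w)
    (hκ1 : ∀ w, ‖w - z‖ < r → ‖κ' w‖ ≤ ε)
    (hκ2 : ∀ w, ‖w - z‖ < r → ‖κ' w - κ' z‖ ≤ ε * ‖w - z‖)
    (hG : ∀ t w, ‖w - z‖ < r → G (t, w) = κ w)
    (hχ : HasFDerivAt χ χ' z) (hχ' : ‖χ'‖ ≤ Cχ) (hχ0 : 0 ≤ χ z) (hχ1 : χ z ≤ 1)
    (hsmall : 4 * Cβ * ((2 + Cχ) * ε) ≤ 1) {ζ : Fin m → V} (hζ : ‖ζ‖ < r) :
    DifferentiableAt ℝ (locF β G χ κ m) (z, ζ) ∧
    ‖ζ‖ ≤ 4 * (m + 1) * Cβ * ‖fderiv ℝ (locF β G χ κ m) (z, ζ)‖ ∧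
    ‖κ' z‖ ≤ (m + 2) * ‖fderiv ℝ (locF β G χ κ m) (z, ζ)‖ := by
  have hz : ‖z - z‖ < r := by rwa [sub_self, norm_zero]
  obtain ⟨D, hD, hDv⟩ := hasFDerivAt_locF (m := m) hβ hm hGX hχ (hκ z hz) ζ
  refine ⟨hD.differentiableAt, ?_⟩
  rw [hD.fderiv]
  set d := ‖D‖ with hd
  have hd0 : 0 ≤ d := D.opNorm_nonneg
  have hCχ : 0 ≤ Cχ := χ'.opNorm_nonneg.trans hχ'
  have hCβ := hβ.one_le
  have hh := hst_pos hm0
  -- the evaluation points
  have hw : ∀ j, ‖(z + ex ζ j) - z‖ ≤ ‖ζ‖ := by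
    intro j
    rw [add_sub_cancel_left]
    exact norm_ex_le ζ j
  have hwr : ∀ j, ‖(z + ex ζ j) - z‖ < r := fun j => (hw j).trans_lt hζ
  -- the vector field
  have hXκ : ∀ t w, ‖w - z‖ < r → β (X (t, w)) = κ' w := by
    intro t w hw
    have h1 : HasFDerivAt (fun w => G (t, w)) (κ' w) w := by
      refine (hκ w hw).congr_of_eventuallyEq ?_
      have h2 : ∀ᶠ w' in 𝓝 w, ‖w' - z‖ < r := by
        have : Continuous fun w' : V => ‖w' - z‖ := by fun_prop
        exact (this.tendsto w).eventually (gt_mem_nhds hw)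
      filter_upwards [h2] with w' hw' using hG t w' hw'
    exact (hGX t w).unique h1
  set x := Cβ * (‖κ' z‖ + ε * ‖ζ‖) with hx
  have hx0 : 0 ≤ x := mul_nonneg hβ.nonneg (add_nonneg (κ' z).opNorm_nonneg (by (clear * - hε; positivity)))
  have hκw : ∀ j, ‖κ' (z + ex ζ j) - κ' z‖ ≤ ε * ‖ζ‖ := fun j =>
    (hκ2 _ (hwr j)).trans (mul_le_mul_of_nonneg_left (hw j) hε)
  have hXx : ∀ j < m, ‖X ((j : ℝ) * hst m, z + ex ζ j)‖ ≤ x := by
    intro j _
    refine (hβ.bd _).trans (mul_le_mul_of_nonneg_left ?_ hβ.nonneg)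
    rw [hXκ _ _ (hwr j)]
    have h1 := hκw j
    have h2 := norm_add_le (κ' (z + ex ζ j) - κ' z) (κ' z)
    rw [sub_add_cancel] at h2
    linarith only [h1, h2]
  -- the residual
  have hres := residual_fiber (m := m) hβ (ρ := res X m (χ z) z ζ) hd0 (by
    intro δ
    have h1 := hDv 0 δ
    simp only [map_zero, mul_zero, zero_mul, add_zero, sub_zero, Finset.sum_const_zero] at h1
    rw [← h1]
    refine (D.le_opNorm _).trans ?_
    rw [Prod.norm_mk, norm_zero, max_eq_right (norm_nonneg _)])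
  have hζb := zeta_le_of_res (X := X) hm hm0 hχ0 hχ1 (mul_nonneg hβ.nonneg hd0) hx0
    (fun j hj => (hres j hj).2) hXx
  -- the base derivative
  have hbase : ‖κ' z‖ ≤ d + ε * ‖ζ‖ + Cχ * (ε * ‖ζ‖) := by
    refine ContinuousLinearMap.opNorm_le_bound _ (by (clear * - hε hCχ; positivity)) fun v => ?_
    have h1 := hDv v 0
    simp only [ex_zero, map_zero, Finset.sum_const_zero] at h1
    have h7 : ∑ j ∈ Finset.range m, hst m * β (X ((j : ℝ) * hst m, z + ex ζ j)) v =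
        κ' z v + ∑ j ∈ Finset.range m, hst m * (κ' (z + ex ζ j) - κ' z) v := by
      have h8 : ∑ _j ∈ Finset.range m, hst m * κ' z v = κ' z v := by
        rw [Finset.sum_const, Finset.card_range, nsmul_eq_mul, ← mul_assoc, hst_mul hm0, one_mul]
      rw [← h8, ← Finset.sum_add_distrib]
      refine Finset.sum_congr rfl fun j _ => ?_
      rw [sub_apply, hXκ _ _ (hwr j)]
      ring
    have h9 : |∑ j ∈ Finset.range m, hst m * (κ' (z + ex ζ j) - κ' z) v| ≤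
        ε * ‖ζ‖ * ‖v‖ := by
      refine (Finset.abs_sum_le_sum_abs _ _).trans ?_
      have h10 : ∀ j ∈ Finset.range m,
          |hst m * (κ' (z + ex ζ j) - κ' z) v| ≤ hst m * (ε * ‖ζ‖ * ‖v‖) := by
        intro j _
        rw [abs_mul, abs_of_pos hh]
        refine mul_le_mul_of_nonneg_left ?_ hh.le
        exact ((κ' (z + ex ζ j) - κ' z).le_opNorm v).trans
          (mul_le_mul_of_nonneg_right (hκw j) (norm_nonneg _))
      refine (Finset.sum_le_sum h10).trans ?_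
      rw [Finset.sum_const, Finset.card_range, nsmul_eq_mul, ← mul_assoc, hst_mul hm0, one_mul]
    have h11 : |act G m (z, ζ) - κ z| ≤ ε * ‖ζ‖ := by
      have h12 : act G m (z, ζ) - κ z =
          ∑ j ∈ Finset.range m, hst m * (κ (z + ex ζ j) - κ z) := by
        have h13 : ∑ _j ∈ Finset.range m, hst m * κ z = κ z := by
          rw [Finset.sum_const, Finset.card_range, nsmul_eq_mul, ← mul_assoc, hst_mul hm0, one_mul]
        rw [act, ← h13, ← Finset.sum_sub_distrib]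
        refine Finset.sum_congr rfl fun j _ => ?_
        rw [h13, hG _ _ (hwr j)]
        ring
      rw [h12]
      refine (Finset.abs_sum_le_sum_abs _ _).trans ?_
      have h10 : ∀ j ∈ Finset.range m,
          |hst m * (κ (z + ex ζ j) - κ z)| ≤ hst m * (ε * ‖ζ‖) := by
        intro j _
        rw [abs_mul, abs_of_pos hh]
        refine mul_le_mul_of_nonneg_left ?_ hh.le
        have h14 := Convex.norm_image_sub_le_of_norm_hasFDerivWithin_le (f := κ) (f' := κ')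
          (s := Metric.ball z r) (x := z) (y := z + ex ζ j) (C := ε)
          (fun w hw => (hκ w (by rwa [Metric.mem_ball, dist_eq_norm] at hw)).hasFDerivWithinAt)
          (fun w hw => hκ1 w (by rwa [Metric.mem_ball, dist_eq_norm] at hw))
          (convex_ball z r) (Metric.mem_ball_self hr)
          (by rw [Metric.mem_ball, dist_eq_norm]; exact hwr j)
        exact h14.trans (mul_le_mul_of_nonneg_left (hw j) hε)
      refine (Finset.sum_le_sum h10).trans ?_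
      rw [Finset.sum_const, Finset.card_range, nsmul_eq_mul, ← mul_assoc, hst_mul hm0, one_mul]
    rw [h7] at h1
    set S := ∑ j ∈ Finset.range m, hst m * (κ' (z + ex ζ j) - κ' z) v with hS
    have h15 : κ' z v = -D (v, 0) - χ z * S - χ' v * (act G m (z, ζ) - κ z) := by
      rw [h1]
      ring
    rw [h15]
    have h16 : |D (v, 0)| ≤ d * ‖v‖ := by
      have := D.le_opNorm (v, 0)
      rwa [Prod.norm_mk, norm_zero, max_eq_left (norm_nonneg _)] at this
    have h17 : |χ z * S| ≤ ε * ‖ζ‖ * ‖v‖ := by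
      rw [abs_mul, abs_of_nonneg hχ0]
      have h18 := abs_nonneg S
      nlinarith only [h9, hχ1, h18]
    have h18 : |χ' v * (act G m (z, ζ) - κ z)| ≤ Cχ * (ε * ‖ζ‖) * ‖v‖ := by
      rw [abs_mul]
      have h19 : |χ' v| ≤ Cχ * ‖v‖ :=
        (χ'.le_opNorm v).trans (mul_le_mul_of_nonneg_right hχ' (norm_nonneg _))
      have h20 := mul_le_mul h19 h11 (abs_nonneg _) (by (clear * - hCχ; positivity))
      linarith only [h20]
    rw [Real.norm_eq_abs]
    have h19 := abs_sub (-D (v, 0) - χ z * S) (χ' v * (act G m (z, ζ) - κ z))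
    have h20 := abs_sub (-D (v, 0)) (χ z * S)
    rw [abs_neg] at h20
    linarith only [h16, h17, h18, h19, h20]
  have hζ0 : 0 ≤ ‖ζ‖ := norm_nonneg _
  have hm' : (0 : ℝ) ≤ m := Nat.cast_nonneg m
  have h2 : 4 * Cβ * ((2 + Cχ) * ε) * ‖ζ‖ ≤ 1 * ‖ζ‖ := mul_le_mul_of_nonneg_right hsmall hζ0
  have h1 : ‖ζ‖ ≤ 2 * (m + 1) * Cβ * d + 2 * Cβ * ((2 + Cχ) * ε) * ‖ζ‖ := by
    have h5 : Cβ * (‖κ' z‖ + ε * ‖ζ‖) ≤ Cβ * (d + ε * ‖ζ‖ + Cχ * (ε * ‖ζ‖) + ε * ‖ζ‖) :=
      mul_le_mul_of_nonneg_left (by linarith only [hbase]) hβ.nonneg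
    rw [hx] at hζb
    linarith only [hζb, h5]
  have h3 : ‖ζ‖ ≤ 4 * (m + 1) * Cβ * d := by linarith only [h2, h1]
  refine ⟨h3, ?_⟩
  have h4 : (1 + Cχ) * ε * ‖ζ‖ ≤ (2 + Cχ) * ε * ‖ζ‖ := by
    have : 0 ≤ ε * ‖ζ‖ := by (clear * - hε; positivity)
    nlinarith only [this]
  have h5 : (2 + Cχ) * ε * ‖ζ‖ ≤ (m + 1) * d := by
    have h6 : 0 ≤ (2 + Cχ) * ε := by (clear * - hCχ hε; positivity)
    have h7 : (2 + Cχ) * ε * ‖ζ‖ ≤ (2 + Cχ) * ε * (4 * (m + 1) * Cβ * d) :=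
      mul_le_mul_of_nonneg_left h3 h6
    have h8 : 0 ≤ (m + 1) * d := by (clear * - hm0; positivity)
    have h9 : 4 * Cβ * ((2 + Cχ) * ε) * ((m + 1) * d) ≤ 1 * ((m + 1) * d) :=
      mul_le_mul_of_nonneg_right hsmall h8
    linarith only [h7, h9]
  linarith only [hbase, h4, h5]

end Vale.Agent.P265.Flat
end
end

section

section

open scoped Manifold ContDiff Topology
open Set Filter

namespace Vale.Agent.P265

variable {E : Type*} [NormedAddCommGroup E] [NormedSpace ℝ E] {M : Type*} [TopologicalSpace M]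
  [ChartedSpace E M]

/-- At a fixed point, the derivative of a map is the derivative of its expression in the chart. -/
theorem hasFDerivAt_chart_of_fixed (ψ : M → M) (x₀ : M) (hfix : ψ x₀ = x₀)
    (hψ : MDifferentiableAt 𝓘(ℝ, E) 𝓘(ℝ, E) ψ x₀) :
    HasFDerivAt (fun y ↦ extChartAt 𝓘(ℝ, E) x₀ (ψ ((extChartAt 𝓘(ℝ, E) x₀).symm y)))
      (show E →L[ℝ] E from mfderiv 𝓘(ℝ, E) 𝓘(ℝ, E) ψ x₀) (extChartAt 𝓘(ℝ, E) x₀ x₀) := by
  have h2 := hψ.hasMFDerivAt.2
  simp only [writtenInExtChartAt, hfix] at h2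
  have h3 : HasFDerivWithinAt (fun y ↦ extChartAt 𝓘(ℝ, E) x₀ (ψ ((extChartAt 𝓘(ℝ, E) x₀).symm y)))
      (show E →L[ℝ] E from mfderiv 𝓘(ℝ, E) 𝓘(ℝ, E) ψ x₀) (range 𝓘(ℝ, E))
      (extChartAt 𝓘(ℝ, E) x₀ x₀) := h2
  rw [ModelWithCorners.range_eq_univ] at h3
  exact hasFDerivWithinAt_univ.1 h3

variable [FiniteDimensional ℝ E] [IsManifold 𝓘(ℝ, E) ∞ M]

theorem exists_branch (Φ : ℝ × M → M)
    (hΦ : ContMDiff (𝓘(ℝ, ℝ).prod 𝓘(ℝ, E)) 𝓘(ℝ, E) ∞ Φ) (s₀ : ℝ) (x₀ : M)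
    (hfix : Φ (s₀, x₀) = x₀)
    (hnd : ∀ v : E, (mfderiv 𝓘(ℝ, E) 𝓘(ℝ, E) (fun x ↦ Φ (s₀, x)) x₀ v : E) = v → v = 0) :
    ∃ γ : ℝ → M, γ s₀ = x₀ ∧ (∀ᶠ s in 𝓝 s₀, ContinuousAt γ s) ∧
      ∀ᶠ p in 𝓝 (s₀, x₀), (Φ p = p.2 ↔ γ p.1 = p.2) := by
  set e := extChartAt 𝓘(ℝ, E) x₀ with he
  set y₀ := e x₀ with hy₀
  have hx₀src : x₀ ∈ e.source := mem_extChartAt_source x₀
  have hy₀tgt : y₀ ∈ e.target := mem_extChartAt_target x₀
  have htgt : e.target ∈ 𝓝 y₀ := extChartAt_target_mem_nhds x₀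
  have hey : e.symm y₀ = x₀ := extChartAt_to_inv x₀
  have hesymm : ContMDiffAt 𝓘(ℝ, E) 𝓘(ℝ, E) ∞ e.symm y₀ :=
    (contMDiffOn_extChartAt_symm x₀).contMDiffAt htgt
  have heAt : ContMDiffAt 𝓘(ℝ, E) 𝓘(ℝ, E) ∞ e x₀ := contMDiffAt_extChartAt
  let g : ℝ × E → E := fun q ↦ e (Φ (q.1, e.symm q.2)) - q.2
  have hg1 : ContMDiffAt 𝓘(ℝ, ℝ × E) 𝓘(ℝ, E) ∞
      (fun q : ℝ × E ↦ e (Φ (q.1, e.symm q.2))) (s₀, y₀) := by
    have h1 : ContMDiffAt 𝓘(ℝ, ℝ × E) 𝓘(ℝ, E) ∞ (fun q : ℝ × E ↦ e.symm q.2) (s₀, y₀) :=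
      ContMDiffAt.comp (I' := 𝓘(ℝ, E)) (s₀, y₀) (g := e.symm) (f := fun q : ℝ × E ↦ q.2)
        hesymm contDiff_snd.contMDiff.contMDiffAt
    have h2 : ContMDiffAt 𝓘(ℝ, ℝ × E) (𝓘(ℝ, ℝ).prod 𝓘(ℝ, E)) ∞
        (fun q : ℝ × E ↦ (q.1, e.symm q.2)) (s₀, y₀) :=
      (contDiff_fst.contMDiff.contMDiffAt).prodMk h1
    have h3 : ContMDiffAt 𝓘(ℝ, ℝ × E) 𝓘(ℝ, E) ∞
        (fun q : ℝ × E ↦ Φ (q.1, e.symm q.2)) (s₀, y₀) :=
      ContMDiffAt.comp (s₀, y₀) (hΦ.contMDiffAt) h2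
    have h4 : Φ (s₀, e.symm y₀) = x₀ := by
      rw [hey, hfix]
    exact ContMDiffAt.comp (s₀, y₀) (g := e) (by simp only [h4]; exact heAt) h3
  have hg : ContDiffAt ℝ ∞ g (s₀, y₀) := by
    have := hg1.contDiffAt
    exact this.sub contDiffAt_snd
  have hgz : g (s₀, y₀) = 0 := by
    simp only [g]
    rw [hey, hfix, ← hy₀, sub_self]
  -- the partial derivative
  set A : E →L[ℝ] E := mfderiv 𝓘(ℝ, E) 𝓘(ℝ, E) (fun x ↦ Φ (s₀, x)) x₀ with hA
  have hmd : MDifferentiableAt 𝓘(ℝ, E) 𝓘(ℝ, E) (fun x ↦ Φ (s₀, x)) x₀ := by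
    have : ContMDiff 𝓘(ℝ, E) 𝓘(ℝ, E) ∞ (fun x ↦ Φ (s₀, x)) :=
      hΦ.comp (contMDiff_const.prodMk contMDiff_id)
    exact (this x₀).mdifferentiableAt (by simp)
  have hpart : fderiv ℝ g (s₀, y₀) ∘L ContinuousLinearMap.inr ℝ ℝ (E) =
      A - ContinuousLinearMap.id ℝ (E) := by
    have hgd : HasFDerivAt g (fderiv ℝ g (s₀, y₀)) (s₀, y₀) :=
      (hg.differentiableAt (by simp)).hasFDerivAt
    have hin : HasFDerivAt (fun y : E ↦ (s₀, y)) (ContinuousLinearMap.inr ℝ ℝ (E)) y₀ :=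
      hasFDerivAt_prodMk_right s₀ y₀
    have h1 : HasFDerivAt (fun y : E ↦ g (s₀, y))
        ((fderiv ℝ g (s₀, y₀)).comp (ContinuousLinearMap.inr ℝ ℝ (E))) y₀ :=
      HasFDerivAt.comp y₀ hgd hin
    have h2 := hasFDerivAt_chart_of_fixed (fun x ↦ Φ (s₀, x)) x₀ hfix hmd
    exact h1.unique (h2.sub (hasFDerivAt_id y₀))
  have hinv : (fderiv ℝ g (s₀, y₀) ∘L ContinuousLinearMap.inr ℝ ℝ (E)).IsInvertible := by
    rw [hpart]
    have hinj : Function.Injective ((A - ContinuousLinearMap.id ℝ (E)) : E →ₗ[ℝ] E) := by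
      rw [← LinearMap.ker_eq_bot, LinearMap.ker_eq_bot']
      intro v hv
      have h1 : A v - v = 0 := hv
      exact hnd v (sub_eq_zero.1 h1)
    refine ⟨(LinearEquiv.ofInjectiveEndo _ hinj).toContinuousLinearEquiv, ?_⟩
    ext v
    rfl
  have hg1' : ContDiffAt ℝ 1 g (s₀, y₀) := hg.of_le (by exact_mod_cast le_top)
  set ψ := hg1'.implicitFunction one_ne_zero hinv with hψ
  have hψ0 : ψ s₀ = y₀ := hg1'.implicitFunction_apply_self one_ne_zero hinv
  have hψc : ContDiffAt ℝ 1 ψ s₀ := hg1'.contDiffAt_implicitFunction one_ne_zero hinv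
  have hψev : ∀ᶠ s in 𝓝 s₀, ContinuousAt ψ s :=
    (hψc.eventually (by simp)).mono fun s hs ↦ hs.continuousAt
  have hψt : ∀ᶠ s in 𝓝 s₀, ψ s ∈ e.target :=
    hψc.continuousAt.eventually (by rw [hψ0]; exact htgt)
  refine ⟨fun s ↦ e.symm (ψ s), by simp only [hψ0, hey], ?_, ?_⟩
  · filter_upwards [hψev, hψt] with s h1 h2
    have h3 : ContinuousAt e.symm (ψ s) := by
      have ho : IsOpen e.target := isOpen_extChartAt_target x₀
      exact (continuousOn_extChartAt_symm x₀).continuousAt (ho.mem_nhds h2)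
    exact ContinuousAt.comp (f := ψ) h3 h1
  · have hiff := hg1'.eventually_apply_eq_iff_implicitFunction one_ne_zero hinv
    rw [← hψ] at hiff
    have hsrc : e.source ∈ 𝓝 x₀ := extChartAt_source_mem_nhds x₀
    have hc2 : Tendsto (fun p : ℝ × M ↦ (p.1, e p.2)) (𝓝 (s₀, x₀)) (𝓝 (s₀, y₀)) := by
      have : ContinuousAt (fun p : ℝ × M ↦ (p.1, e p.2)) (s₀, x₀) :=
        continuousAt_fst.prodMk (ContinuousAt.comp (f := Prod.snd) (g := e) (x := (s₀, x₀))
          (continuousAt_extChartAt x₀) continuousAt_snd)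
      exact this
    have h1 := hc2.eventually hiff
    have h2 : ∀ᶠ p : ℝ × M in 𝓝 (s₀, x₀), p.2 ∈ e.source :=
      (continuousAt_snd (p := (s₀, x₀))).eventually hsrc
    have h3 : ∀ᶠ p : ℝ × M in 𝓝 (s₀, x₀), Φ p ∈ e.source :=
      (hΦ.continuous.continuousAt (x := (s₀, x₀))).eventually (by rw [hfix]; exact hsrc)
    have h4 : ∀ᶠ p : ℝ × M in 𝓝 (s₀, x₀), ψ p.1 ∈ e.target :=
      (continuousAt_fst (p := (s₀, x₀))).eventually hψt
    filter_upwards [h1, h2, h3, h4] with p h1 h2 h3 h4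
    rw [hgz] at h1
    have h5 : g (p.1, e p.2) = e (Φ p) - e p.2 := by
      simp only [g, e.left_inv h2]
    rw [h5, sub_eq_zero] at h1
    constructor
    · intro h
      have h6 : ψ p.1 = e p.2 := h1.1 (by rw [h])
      simp only [h6, e.left_inv h2]
    · intro h
      have h6 : e (e.symm (ψ p.1)) = e p.2 := by rw [h]
      rw [e.right_inv h4] at h6
      exact e.injOn h3 h2 (h1.2 h6)

end Vale.Agent.P265
end
end

section

section

open scoped Manifold ContDiff Topology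
open Set Filter

namespace Vale.Agent.P265

/-- Null-homotopy of loops is transported along free homotopies of loops. -/
theorem nullhomotopic_transport {M : Type*} [TopologicalSpace M]
    (h : C(unitInterval × unitInterval, M)) (hloop : ∀ τ, h (τ, 0) = h (τ, 1)) {x₀ x₁ : M}
    (γ₀ : Path x₀ x₀) (γ₁ : Path x₁ x₁) (h₀ : ∀ t, γ₀ t = h (0, t)) (h₁ : ∀ t, γ₁ t = h (1, t))
    (hnull : γ₀.Homotopic (Path.refl x₀)) : γ₁.Homotopic (Path.refl x₁) := by
  obtain rfl : x₀ = h (0, 0) := by rw [← h₀ 0, γ₀.source]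
  obtain rfl : x₁ = h (1, 0) := by rw [← h₁ 0, γ₁.source]
  let a : Path ((0 : unitInterval), (0 : unitInterval)) (0, 1) :=
    { toFun := fun t ↦ (0, t), continuous_toFun := by fun_prop, source' := rfl, target' := rfl }
  let b : Path ((0 : unitInterval), (1 : unitInterval)) (1, 1) :=
    { toFun := fun t ↦ (t, 1), continuous_toFun := by fun_prop, source' := rfl, target' := rfl }
  let c : Path ((0 : unitInterval), (0 : unitInterval)) (1, 0) :=
    { toFun := fun t ↦ (t, 0), continuous_toFun := by fun_prop, source' := rfl, target' := rfl }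
  let e : Path ((1 : unitInterval), (0 : unitInterval)) (1, 1) :=
    { toFun := fun t ↦ (1, t), continuous_toFun := by fun_prop, source' := rfl, target' := rfl }
  have : ContractibleSpace unitInterval :=
    (convex_Icc (0 : ℝ) 1).contractibleSpace ⟨0, left_mem_Icc.2 zero_le_one⟩
  have hsq : (a.trans b).Homotopic (c.trans e) := SimplyConnectedSpace.paths_homotopic _ _
  have hsq' := (hsq.map h).pathCast rfl (hloop 1)
  set Z : Path (h (0, 0)) (h (1, 0)) := c.map h.continuous with hZ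
  have eq1 : ((a.trans b).map h.continuous).cast rfl (hloop 1) = γ₀.trans Z := by
    ext t
    simp only [Path.cast_coe, Path.map_coe, Function.comp_apply, Path.trans_apply, hZ]
    split_ifs
    · rw [h₀]; rfl
    · exact (hloop _).symm
  have eq2 : ((c.trans e).map h.continuous).cast rfl (hloop 1) = Z.trans γ₁ := by
    ext t
    simp only [Path.cast_coe, Path.map_coe, Function.comp_apply, Path.trans_apply, hZ]
    split_ifs
    · rfl
    · rw [h₁]; rfl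
  rw [eq1, eq2] at hsq'
  have k1 : Z.Homotopic (Z.trans γ₁) :=
    ((Path.Homotopic.refl_trans Z).symm.trans (hnull.symm.hcomp (Path.Homotopic.refl Z))).trans hsq'
  have k2 : γ₁.Homotopic ((Z.symm.trans Z).trans γ₁) :=
    (Path.Homotopic.refl_trans γ₁).symm.trans
      ((Path.Homotopic.symm_trans Z).symm.hcomp (Path.Homotopic.refl γ₁))
  have k3 : ((Z.symm.trans Z).trans γ₁).Homotopic (Z.symm.trans Z) :=
    (Path.Homotopic.trans_assoc _ _ _).trans ((Path.Homotopic.refl _).hcomp k1.symm)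
  exact (k2.trans k3).trans (Path.Homotopic.symm_trans Z)

/-- Membership in `Fix0` is transported along continuous paths of fixed points. -/
theorem fix0_transport {M : Type*} [TopologicalSpace M] (φ : ℝ → ℝ → M → M)
    (hφ : Continuous (fun p : ℝ × ℝ × M ↦ φ p.1 p.2.1 p.2.2))
    (c : C(unitInterval, ℝ)) (z : C(unitInterval, M))
    (hφ0 : ∀ τ, φ (c τ) 0 (z τ) = z τ)
    (hz : ∀ τ, φ (c τ) 1 (z τ) = z τ) (h0 : z 0 ∈ Fix0 (φ (c 0))) :
    z 1 ∈ Fix0 (φ (c 1)) := by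
  obtain ⟨_, γ, hγ, hγnull⟩ := h0
  let h : C(unitInterval × unitInterval, M) :=
    ⟨fun p ↦ φ (c p.1) p.2 (z p.1), hφ.comp (by (clear * -; fun_prop) :
      Continuous fun p : unitInterval × unitInterval ↦ ((c p.1, (p.2 : ℝ), z p.1) : ℝ × ℝ × M))⟩
  have hh0 : ∀ τ, h (τ, 0) = z τ := fun τ ↦ by
    simpa only [ContinuousMap.coe_mk, Icc.coe_zero, h] using hφ0 τ
  have hh1 : ∀ τ, h (τ, 1) = z τ := fun τ ↦ by
    simpa only [ContinuousMap.coe_mk, Icc.coe_one, h] using hz τ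
  let γ₁ : Path (z 1) (z 1) :=
    { toFun := fun t ↦ h (1, t), continuous_toFun := by (clear * - hφ; fun_prop),
      source' := hh0 1, target' := hh1 1 }
  refine ⟨hz 1, γ₁, fun t ↦ rfl, ?_⟩
  exact nullhomotopic_transport h (fun τ ↦ (hh0 τ).trans (hh1 τ).symm) γ γ₁ hγ (fun t ↦ rfl) hγnull

variable {V : Type*} [NormedAddCommGroup V] [NormedSpace ℝ V] {M : Type*} [TopologicalSpace M]
  [ChartedSpace V M]
  [FiniteDimensional ℝ V] [IsManifold 𝓘(ℝ, V) ∞ M]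

/-- Near a parameter at which all fixed points are nondegenerate, the number of fixed points with
contractible loop is constant. -/
theorem eventually_encard_fix0_eq [T2Space M] [CompactSpace M] (φ : ℝ → ℝ → M → M)
    (hφ : ContMDiff (𝓘(ℝ, ℝ).prod (𝓘(ℝ, ℝ).prod 𝓘(ℝ, V))) 𝓘(ℝ, V) ∞
      (fun p : ℝ × ℝ × M ↦ φ p.1 p.2.1 p.2.2))
    (s₀ : ℝ) (hnd : NondegFixedPoints V (φ s₀ 1)) :
    ∀ᶠ s in 𝓝 s₀, (∀ s' ∈ uIcc s₀ s, ∀ x, φ s' 0 x = x) →
      (Fix0 (φ s)).encard = (Fix0 (φ s₀)).encard := by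
  set Φ : ℝ × M → M := fun p ↦ φ p.1 1 p.2 with hΦdef
  have hΦ : ContMDiff (𝓘(ℝ, ℝ).prod 𝓘(ℝ, V)) 𝓘(ℝ, V) ∞ Φ :=
    hφ.comp (contMDiff_fst.prodMk (contMDiff_const.prodMk contMDiff_snd))
  have hΦc : Continuous Φ := hΦ.continuous
  set F₀ : Set M := {x | Φ (s₀, x) = x} with hF₀
  have hF₀closed : IsClosed F₀ := isClosed_eq (hΦc.comp (by fun_prop)) continuous_id
  have hbr := fun (x : M) (hx : x ∈ F₀) ↦ exists_branch Φ hΦ s₀ x hx (hnd x hx)
  choose! γ hγ0 hγc hγiff using hbr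
  have hF₀fin : F₀.Finite := by
    obtain ⟨t, ht1, ht2⟩ := hF₀closed.isCompact.elim_nhds_subcover
      (fun x ↦ {x' | x' ∈ F₀ → x' = x}) (fun x hx ↦ by
        have h1 : ∀ᶠ x' in 𝓝 x, (Φ (s₀, x') = x' ↔ γ x s₀ = x') := by
          have h2 : Tendsto (fun x' : M ↦ (s₀, x')) (𝓝 x) (𝓝 (s₀, x)) :=
            (Continuous.prodMk_right s₀).continuousAt
          exact h2.eventually (hγiff x hx)
        filter_upwards [h1] with x' hx' hx'F
        rw [hγ0 x hx] at hx'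
        exact (hx'.1 hx'F).symm)
    refine t.finite_toSet.subset fun x hx ↦ ?_
    obtain ⟨x', hx't, hx'⟩ := mem_iUnion₂.1 (ht2 hx)
    rw [hx' hx]
    exact hx't
  obtain ⟨U, hU1, hU2⟩ := hF₀fin.t2_separation
  have hWV : ∀ x ∈ F₀, ∃ W ∈ 𝓝 s₀, ∃ V ∈ 𝓝 x, ∀ s ∈ W, ∀ x' ∈ V,
      (Φ (s, x') = x' ↔ γ x s = x') := by
    intro x hx
    have h := hγiff x hx
    rw [nhds_prod_eq] at h
    obtain ⟨W, hW, V, hV, hWV⟩ := Filter.mem_prod_iff.1 h
    exact ⟨W, hW, V, hV, fun s hs x' hx' ↦ hWV (mk_mem_prod hs hx')⟩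
  choose! W hW V hV hWV using hWV
  set V' : M → Set M := fun x ↦ interior (V x) ∩ U x with hV'
  have hV'open : ∀ x, IsOpen (V' x) := fun x ↦ isOpen_interior.inter (hU1 x).2
  have hV'mem : ∀ x ∈ F₀, x ∈ V' x := fun x hx ↦
    ⟨mem_interior_iff_mem_nhds.2 (hV x hx), (hU1 x).1⟩
  set K : Set M := (⋃ x ∈ F₀, V' x)ᶜ with hK
  have hKc : IsCompact K :=
    (isClosed_compl_iff.2 (isOpen_biUnion fun x _ ↦ hV'open x)).isCompact
  have hKev : ∀ᶠ s in 𝓝 s₀, ∀ y ∈ K, Φ (s, y) ≠ y := by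
    refine hKc.eventually_forall_of_forall_eventually fun y hy ↦ ?_
    have hne : Φ (s₀, y) ≠ y := by
      intro h
      exact hy (mem_iUnion₂.2 ⟨y, h, hV'mem y h⟩)
    have hopen : IsOpen {p : ℝ × M | Φ p ≠ p.2} := isOpen_ne_fun hΦc continuous_snd
    exact hopen.mem_nhds hne
  have hPev : ∀ᶠ s in 𝓝 s₀, ∀ x ∈ F₀, ContinuousAt (γ x) s ∧ s ∈ W x ∧ γ x s ∈ V' x := by
    rw [Filter.eventually_all_finite hF₀fin]
    intro x hx
    have h1 : ∀ᶠ s in 𝓝 s₀, s ∈ W x := hW x hx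
    have h2 : ∀ᶠ s in 𝓝 s₀, γ x s ∈ V' x := by
      refine (hγc x hx).self_of_nhds.eventually ?_
      rw [hγ0 x hx]
      exact (hV'open x).mem_nhds (hV'mem x hx)
    filter_upwards [hγc x hx, h1, h2] with s h3 h4 h5 using ⟨h3, h4, h5⟩
  obtain ⟨ε, hε, hball⟩ := Metric.eventually_nhds_iff_ball.1 (hPev.and hKev)
  filter_upwards [Metric.ball_mem_nhds s₀ hε] with s hs hid
  have hseg : ∀ s' ∈ uIcc s₀ s, s' ∈ Metric.ball s₀ ε := by
    intro s' hs'
    rw [Metric.mem_ball, Real.dist_eq] at hs ⊢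
    exact lt_of_le_of_lt (abs_sub_left_of_mem_uIcc hs') hs
  -- the branches
  have hfixbr : ∀ x ∈ F₀, ∀ s' ∈ uIcc s₀ s, φ s' 1 (γ x s') = γ x s' := by
    intro x hx s' hs'
    obtain ⟨h1, h2, h3⟩ := (hball s' (hseg s' hs')).1 x hx
    exact (hWV x hx s' h2 (γ x s') (interior_subset h3.1)).2 rfl
  have htrans : ∀ x ∈ F₀, ∀ a ∈ uIcc s₀ s, ∀ b ∈ uIcc s₀ s,
      γ x a ∈ Fix0 (φ a) → γ x b ∈ Fix0 (φ b) := by
    intro x hx a ha b hb hmem
    have hline : ∀ τ : unitInterval, a + (τ : ℝ) * (b - a) ∈ uIcc s₀ s := by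
      intro τ
      have hconv : Convex ℝ (uIcc s₀ s) := convex_uIcc s₀ s
      have := hconv.add_smul_sub_mem ha hb τ.2
      simpa only [smul_eq_mul] using this
    let c : C(unitInterval, ℝ) := ⟨fun τ ↦ a + (τ : ℝ) * (b - a), by fun_prop⟩
    let z : C(unitInterval, M) := ⟨fun τ ↦ γ x (c τ), by
      rw [continuous_iff_continuousAt]
      intro τ
      have h1 : ContinuousAt (γ x) (c τ) := ((hball _ (hseg _ (hline τ))).1 x hx).1
      exact ContinuousAt.comp (f := c) h1 c.continuous.continuousAt⟩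
    have hres := fix0_transport φ hφ.continuous c z (fun τ ↦ hid _ (hline τ) _)
      (fun τ ↦ hfixbr x hx _ (hline τ)) (by simpa only [ContinuousMap.coe_mk, Icc.coe_zero, zero_mul, add_zero, c, z] using hmem)
    simpa [z, c] using hres
  have himage : Fix0 (φ s) = (fun x ↦ γ x s) '' Fix0 (φ s₀) := by
    ext y
    constructor
    · intro hy
      have hyfix : Φ (s, y) = y := hy.1
      have hyK : y ∉ K := fun h ↦ (hball s hs).2 y h hyfix
      rw [hK, mem_compl_iff, not_not] at hyK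
      obtain ⟨x, hx, hyx⟩ := mem_iUnion₂.1 hyK
      obtain ⟨h1, h2, h3⟩ := (hball s hs).1 x hx
      have h4 : γ x s = y := (hWV x hx s h2 y (interior_subset hyx.1)).1 hyfix
      refine ⟨x, ?_, h4⟩
      have h5 := htrans x hx s right_mem_uIcc s₀ left_mem_uIcc (by rw [h4]; exact hy)
      rwa [hγ0 x hx] at h5
    · rintro ⟨x, hx, rfl⟩
      have hxF : x ∈ F₀ := hx.1
      exact htrans x hxF s₀ left_mem_uIcc s right_mem_uIcc (by rwa [hγ0 x hxF])
  rw [himage]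
  refine InjOn.encard_image ?_
  intro x hx x' hx' hxx'
  by_contra hne
  have hxF : x ∈ F₀ := hx.1
  have hxF' : x' ∈ F₀ := hx'.1
  have h1 := ((hball s hs).1 x hxF).2.2.2
  have h2 := ((hball s hs).1 x' hxF').2.2.2
  simp only at hxx'
  rw [hxx'] at h1
  exact (hU2 hxF hxF' hne).le_bot ⟨h1, h2⟩

/-- The number of fixed points with contractible loop is constant along smooth families of
isotopies whose time-one maps have only nondegenerate fixed points. -/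
theorem encard_Fix0_eq_of_mem [T2Space M] [CompactSpace M] (φ : ℝ → ℝ → M → M)
    (hφ : ContMDiff (𝓘(ℝ, ℝ).prod (𝓘(ℝ, ℝ).prod 𝓘(ℝ, V))) 𝓘(ℝ, V) ∞
      (fun p : ℝ × ℝ × M ↦ φ p.1 p.2.1 p.2.2))
    (h0 : ∀ s ∈ Icc (0 : ℝ) 1, ∀ x, φ s 0 x = x)
    (hnd : ∀ s ∈ Icc (0 : ℝ) 1, NondegFixedPoints V (φ s 1))
    {a b : ℝ} (ha : a ∈ Icc (0 : ℝ) 1) (hb : b ∈ Icc (0 : ℝ) 1) :
    (Fix0 (φ a)).encard = (Fix0 (φ b)).encard := by
  have hloc : IsLocallyConstant (fun s : Icc (0 : ℝ) 1 ↦ (Fix0 (φ s)).encard) := by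
    rw [IsLocallyConstant.iff_eventually_eq]
    intro s
    have h1 := eventually_encard_fix0_eq φ hφ s (hnd s s.2)
    have h2 := (continuous_subtype_val.continuousAt (x := s)).eventually h1
    filter_upwards [h2] with s' hs'
    refine hs' fun r hr ↦ h0 r ?_
    exact (ordConnected_Icc.uIcc_subset s.2 s'.2) hr
  exact hloc.apply_eq_of_preconnectedSpace ⟨a, ha⟩ ⟨b, hb⟩

/-- The number of fixed points with contractible loop is the same at both ends of a smooth family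
of isotopies whose time-one maps have only nondegenerate fixed points. -/
theorem encard_Fix0_eq [T2Space M] [CompactSpace M] (φ : ℝ → ℝ → M → M)
    (hφ : ContMDiff (𝓘(ℝ, ℝ).prod (𝓘(ℝ, ℝ).prod 𝓘(ℝ, V))) 𝓘(ℝ, V) ∞
      (fun p : ℝ × ℝ × M ↦ φ p.1 p.2.1 p.2.2))
    (h0 : ∀ s ∈ Icc (0 : ℝ) 1, ∀ x, φ s 0 x = x)
    (hnd : ∀ s ∈ Icc (0 : ℝ) 1, NondegFixedPoints V (φ s 1)) :
    (Fix0 (φ 0)).encard = (Fix0 (φ 1)).encard :=
  encard_Fix0_eq_of_mem φ hφ h0 hnd (left_mem_Icc.2 zero_le_one) (right_mem_Icc.2 zero_le_one)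

end Vale.Agent.P265
end
end

section

section

open Set Filter Manifold
open scoped ContDiff Topology

namespace Vale.Agent.P265

/-- Euclidean space of dimension `k`. -/
abbrev Eu (k : ℕ) : Type := EuclideanSpace ℝ (Fin k)

section Basic

variable {V : Type*} [NormedAddCommGroup V] [NormedSpace ℝ V]

/-- Linear lower bound for the gradient of `g` near the point `y`. -/
def GradLB (g : V → ℝ) (y : V) : Prop :=
  ∃ c > 0, ∀ᶠ z in 𝓝 y, c * ‖z - y‖ ≤ ‖fderiv ℝ g z‖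

theorem hess_of_gradLB {g : V → ℝ} {y : V} (hg : DifferentiableAt ℝ (fderiv ℝ g) y)
    (h0 : fderiv ℝ g y = 0) (h : GradLB g y) (v : V)
    (hv : ∀ w, fderiv ℝ (fderiv ℝ g) y v w = 0) : v = 0 := by
  obtain ⟨c, hc, hlb⟩ := h
  by_contra hne
  have hnv : 0 < ‖v‖ := norm_pos_iff.2 hne
  have hAv : fderiv ℝ (fderiv ℝ g) y v = 0 := by
    ext w; simpa only [zero_apply] using hv w
  have hline : HasDerivAt (fun s : ℝ => y + s • v) v 0 := by
    simpa using ((hasDerivAt_id (0 : ℝ)).smul_const v).const_add y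
  have hG : HasFDerivAt (fderiv ℝ g) (fderiv ℝ (fderiv ℝ g) y) (y + (0 : ℝ) • v) := by
    simpa using hg.hasFDerivAt
  have h1 : HasDerivAt (fun s : ℝ => fderiv ℝ g (y + s • v)) (fderiv ℝ (fderiv ℝ g) y v) 0 :=
    hG.comp_hasDerivAt (0 : ℝ) hline
  rw [hAv] at h1
  have h2 := h1.isLittleO
  have h3 : ∀ᶠ s : ℝ in 𝓝 0, ‖fderiv ℝ g (y + s • v)‖ ≤ (c * ‖v‖ / 2) * ‖s‖ := by
    have := h2.def (c := c * ‖v‖ / 2) (by positivity)
    filter_upwards [this] with s hs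
    simpa only [Real.norm_eq_abs, zero_smul, add_zero, h0, sub_zero, smul_zero] using hs
  have h4 : ∀ᶠ s : ℝ in 𝓝 0, c * ‖(y + s • v) - y‖ ≤ ‖fderiv ℝ g (y + s • v)‖ := by
    have : Tendsto (fun s : ℝ => y + s • v) (𝓝 0) (𝓝 y) := by
      have := hline.continuousAt.tendsto
      simpa only [zero_smul, add_zero] using this
    exact this.eventually hlb
  obtain ⟨ε, hε, hball⟩ := Metric.eventually_nhds_iff_ball.1 (h3.and h4)
  have hmem : (ε / 2 : ℝ) ∈ Metric.ball (0 : ℝ) ε := by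
    rw [Metric.mem_ball, dist_zero_right, Real.norm_eq_abs, abs_of_pos (by (clear * - hε; positivity))]
    linarith only [hε]
  obtain ⟨h5, h6⟩ := hball _ hmem
  rw [add_sub_cancel_left, norm_smul] at h6
  have h7 : 0 < ‖(ε / 2 : ℝ)‖ := by
    rw [Real.norm_eq_abs, abs_of_pos (by (clear * - hε; positivity))]; (clear * - hε; positivity)
  nlinarith only [h5, h6, mul_pos (mul_pos hc hnv) h7]

theorem gradLB_of_hess [FiniteDimensional ℝ V] {g : V → ℝ} {y : V}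
    (hg : DifferentiableAt ℝ (fderiv ℝ g) y) (h0 : fderiv ℝ g y = 0)
    (hv : ∀ v, (∀ w, fderiv ℝ (fderiv ℝ g) y v w = 0) → v = 0) : GradLB g y := by
  set A := fderiv ℝ (fderiv ℝ g) y with hA
  have hker : LinearMap.ker (A : V →ₗ[ℝ] (V →L[ℝ] ℝ)) = ⊥ := by
    rw [LinearMap.ker_eq_bot']
    intro v hv'
    have hv'' : A v = 0 := hv'
    refine hv v fun w => ?_
    rw [hv'']
    rfl
  obtain ⟨K, hK, hanti⟩ := LinearMap.exists_antilipschitzWith (A : V →ₗ[ℝ] (V →L[ℝ] ℝ)) hker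
  have hK' : (0 : ℝ) < K := by exact_mod_cast hK
  refine ⟨1 / (2 * K), by positivity, ?_⟩
  have h2 := hg.hasFDerivAt.isLittleO
  have h3 := h2.def (c := 1 / (2 * K)) (by positivity)
  filter_upwards [h3] with z hz
  rw [h0, sub_zero] at hz
  have h4 : ‖z - y‖ ≤ K * ‖A (z - y)‖ := by
    have := hanti.le_mul_dist (z - y) 0
    simpa only [map_sub, ge_iff_le, dist_zero_right, ContinuousLinearMap.coe_coe, map_zero] using this
  have h5 : ‖A (z - y)‖ ≤ ‖fderiv ℝ g z‖ + ‖fderiv ℝ g z - A (z - y)‖ := by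
    have h6 := norm_sub_le (fderiv ℝ g z) (fderiv ℝ g z - A (z - y))
    rwa [sub_sub_cancel] at h6
  have h6 : ‖z - y‖ / K ≤ ‖A (z - y)‖ := by
    rw [div_le_iff₀ hK']; linarith only [h4]
  have h7 : ‖z - y‖ / K = 1 / (2 * K) * ‖z - y‖ + 1 / (2 * K) * ‖z - y‖ := by
    field_simp; ring
  linarith only [hz, h5, h6, h7]

variable {V' : Type*} [NormedAddCommGroup V'] [NormedSpace ℝ V']

/-- A linear lower bound for the gradient is invariant under coordinate changes. -/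
theorem GradLB.comp {g : V → ℝ} {τ : V' → V} {σ : V → V'} {y' : V'}
    (hτ : ContDiffAt ℝ 1 τ y') (hσ : ContDiffAt ℝ 1 σ (τ y'))
    (hg : ∀ᶠ z in 𝓝 (τ y'), DifferentiableAt ℝ g z)
    (h1 : ∀ᶠ z in 𝓝 y', σ (τ z) = z) (h2 : ∀ᶠ w in 𝓝 (τ y'), τ (σ w) = w)
    (h : GradLB g (τ y')) : GradLB (g ∘ τ) y' := by
  obtain ⟨c, hc, hlb⟩ := h
  -- bound for the derivative of `σ`
  obtain ⟨K, s, hs, hK⟩ := hσ.exists_lipschitzOnWith
  have hσd : ∀ᶠ w in 𝓝 (τ y'), ContDiffAt ℝ 1 σ w := hσ.eventually (by simp)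
  have hτd : ∀ᶠ z in 𝓝 y', ContDiffAt ℝ 1 τ z := hτ.eventually (by simp)
  have hcont : Tendsto τ (𝓝 y') (𝓝 (τ y')) := hτ.continuousAt
  have hC : ∀ᶠ w in 𝓝 (τ y'), ‖fderiv ℝ σ w‖ ≤ ‖fderiv ℝ σ (τ y')‖ + 1 := by
    have hcf : ContinuousAt (fderiv ℝ σ) (τ y') :=
      hσ.continuousAt_fderiv (by simp)
    have := hcf.norm.eventually (Iic_mem_nhds (lt_add_one ‖fderiv ℝ σ (τ y')‖))
    exact this
  set C := ‖fderiv ℝ σ (τ y')‖ + 1 with hCdef
  have hCpos : 0 < C := by positivity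
  have hy' : σ (τ y') = y' := h1.self_of_nhds
  have hτσ : ∀ᶠ w in 𝓝 (τ y'), ∀ᶠ w' in 𝓝 w, τ (σ w') = w' := h2.eventually_nhds
  have hconts : Tendsto σ (𝓝 (τ y')) (𝓝 y') := by
    have := hσ.continuousAt.tendsto
    rwa [hy'] at this
  refine ⟨c / (C * (K + 1)), by (clear * - hc; positivity), ?_⟩
  filter_upwards [h1, hcont.eventually hlb, hcont.eventually hC, hcont.eventually hg, hτd,
    hcont.eventually hσd, hcont.eventually hτσ, hcont.eventually hs, hcont.eventually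
    (hconts.eventually hτd)] with z hz1 hz2 hz3 hz4 hz5 hz6 hz7 hz8 hz9
  have hKs := hK.dist_le_mul _ hz8 _ (mem_of_mem_nhds hs)
  rw [hz1, hy', dist_eq_norm, dist_eq_norm] at hKs
  have hchain : fderiv ℝ (g ∘ τ) z = (fderiv ℝ g (τ z)).comp (fderiv ℝ τ z) :=
    fderiv_comp z hz4 (hz5.differentiableAt (by simp))
  have hcomp : (fderiv ℝ τ z).comp (fderiv ℝ σ (τ z)) = ContinuousLinearMap.id ℝ V := by
    have hd : HasFDerivAt (τ ∘ σ) ((fderiv ℝ τ (σ (τ z))).comp (fderiv ℝ σ (τ z))) (τ z) :=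
      HasFDerivAt.comp (τ z) (hz9.differentiableAt (by simp)).hasFDerivAt
        (hz6.differentiableAt (by simp)).hasFDerivAt
    have hid : HasFDerivAt (τ ∘ σ) (ContinuousLinearMap.id ℝ V) (τ z) :=
      (hasFDerivAt_id (τ z)).congr_of_eventuallyEq hz7
    rw [hz1] at hd
    exact hd.unique hid
  have heq : fderiv ℝ g (τ z) = (fderiv ℝ (g ∘ τ) z).comp (fderiv ℝ σ (τ z)) := by
    rw [hchain, ContinuousLinearMap.comp_assoc, hcomp, ContinuousLinearMap.comp_id]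
  have hle : ‖fderiv ℝ g (τ z)‖ ≤ ‖fderiv ℝ (g ∘ τ) z‖ * C := by
    rw [heq]
    exact (ContinuousLinearMap.opNorm_comp_le _ _).trans
      (mul_le_mul_of_nonneg_left hz3 (norm_nonneg _))
  have hK0 : (0 : ℝ) ≤ K := K.2
  have h8 : ‖z - y'‖ ≤ (K + 1) * ‖τ z - τ y'‖ := by
    nlinarith only [hKs, norm_nonneg (τ z - τ y')]
  rw [div_mul_eq_mul_div, div_le_iff₀ (by (clear * -; positivity))]
  calc c * ‖z - y'‖ ≤ c * ((K + 1) * ‖τ z - τ y'‖) := mul_le_mul_of_nonneg_left h8 hc.le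
    _ = (K + 1) * (c * ‖τ z - τ y'‖) := by ring
    _ ≤ (K + 1) * ‖fderiv ℝ g (τ z)‖ := mul_le_mul_of_nonneg_left hz2 (by (clear * -; positivity))
    _ ≤ (K + 1) * (‖fderiv ℝ (g ∘ τ) z‖ * C) := mul_le_mul_of_nonneg_left hle (by (clear * -; positivity))
    _ = ‖fderiv ℝ (g ∘ τ) z‖ * (C * (K + 1)) := by ring

theorem GradLB.congr {g g' : V → ℝ} {y : V} (h : GradLB g y) (hgg : g =ᶠ[𝓝 y] g') :
    GradLB g' y := by
  obtain ⟨c, hc, hlb⟩ := h
  refine ⟨c, hc, ?_⟩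
  filter_upwards [hlb, hgg.fderiv (𝕜 := ℝ)] with z hz hz'
  rwa [← hz']

end Basic

end Vale.Agent.P265
end
end

section

section

open Set Filter Manifold
open scoped ContDiff Topology

namespace Vale.Agent.P265

section Dm

variable {E₁ : Type*} [NormedAddCommGroup E₁] [NormedSpace ℝ E₁] {H₁ : Type*} [TopologicalSpace H₁]
  (I₁ : ModelWithCorners ℝ E₁ H₁) {M₁ : Type*} [TopologicalSpace M₁] [ChartedSpace H₁ M₁]
  {E₂ : Type*} [NormedAddCommGroup E₂] [NormedSpace ℝ E₂] {H₂ : Type*} [TopologicalSpace H₂]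
  (I₂ : ModelWithCorners ℝ E₂ H₂) {M₂ : Type*} [TopologicalSpace M₂] [ChartedSpace H₂ M₂]

/-- The derivative as a continuous linear map between the model vector spaces. -/
noncomputable def Dm (f : M₁ → M₂) (x : M₁) : E₁ →L[ℝ] E₂ := mfderiv I₁ I₂ f x

end Dm

section DmCrit

variable {E₁ : Type*} [NormedAddCommGroup E₁] [NormedSpace ℝ E₁] {H₁ : Type*} [TopologicalSpace H₁]
  {I₁ : ModelWithCorners ℝ E₁ H₁} {M₁ : Type*} [TopologicalSpace M₁] [ChartedSpace H₁ M₁]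

theorem mem_crit_iff_Dm {f : M₁ → ℝ} {x : M₁} : x ∈ Crit I₁ f ↔ Dm I₁ 𝓘(ℝ, ℝ) f x = 0 := by
  constructor
  · intro h
    exact ContinuousLinearMap.ext fun v => h v
  · intro h v
    have h1 : Dm I₁ 𝓘(ℝ, ℝ) f x v = 0 := by rw [h]; rfl
    exact h1

end DmCrit

section Param

variable {V : Type*} [NormedAddCommGroup V] [NormedSpace ℝ V]
  {V₁ : Type*} [NormedAddCommGroup V₁] [NormedSpace ℝ V₁] {B : Type*} [TopologicalSpace B]
  {I : ModelWithCorners ℝ V₁ B} {X : Type*} [TopologicalSpace X] [ChartedSpace B X]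

/-- `P` is a smooth parametrization of an open subset of `X` by the open set `U`, with smooth
inverse `e`. -/
structure IsLocalParam (I : ModelWithCorners ℝ V₁ B) (P : V → X) (e : X → V) (U : Set V) :
    Prop where
  isOpen : IsOpen U
  isOpen_image : IsOpen (P '' U)
  smooth : ContMDiffOn 𝓘(ℝ, V) I ∞ P U
  smooth_inv : ContMDiffOn I 𝓘(ℝ, V) ∞ e (P '' U)
  left_inv : ∀ z ∈ U, e (P z) = z

namespace IsLocalParam

variable {P : V → X} {e : X → V} {U : Set V} (h : IsLocalParam I P e U)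
include h

theorem right_inv {x : X} (hx : x ∈ P '' U) : P (e x) = x := by
  obtain ⟨z, hz, rfl⟩ := hx
  rw [h.left_inv z hz]

theorem contMDiffAt {z : V} (hz : z ∈ U) : ContMDiffAt 𝓘(ℝ, V) I ∞ P z :=
  h.smooth.contMDiffAt (h.isOpen.mem_nhds hz)

theorem contMDiffAt_inv {z : V} (hz : z ∈ U) : ContMDiffAt I 𝓘(ℝ, V) ∞ e (P z) :=
  h.smooth_inv.contMDiffAt (h.isOpen_image.mem_nhds (mem_image_of_mem P hz))

theorem mono {U' : Set V} (hU' : IsOpen U') (hsub : U' ⊆ U) : IsLocalParam I P e U' where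
  isOpen := hU'
  isOpen_image := by
    have : P '' U' = P '' U ∩ e ⁻¹' U' := by
      ext x
      constructor
      · rintro ⟨z, hz, rfl⟩
        refine ⟨mem_image_of_mem P (hsub hz), ?_⟩
        rw [mem_preimage, h.left_inv z (hsub hz)]
        exact hz
      · rintro ⟨hx, hx'⟩
        exact ⟨e x, hx', h.right_inv hx⟩
    rw [this]
    exact h.smooth_inv.continuousOn.isOpen_inter_preimage h.isOpen_image hU'
  smooth := h.smooth.mono hsub
  smooth_inv := h.smooth_inv.mono (image_mono hsub)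
  left_inv := fun z hz => h.left_inv z (hsub hz)

theorem hasMFDerivAt {z : V} (hz : z ∈ U) :
    HasMFDerivAt 𝓘(ℝ, V) I P z (mfderiv 𝓘(ℝ, V) I P z) :=
  ((h.contMDiffAt hz).mdifferentiableAt (by simp)).hasMFDerivAt

theorem hasMFDerivAt_inv {z : V} (hz : z ∈ U) :
    HasMFDerivAt I 𝓘(ℝ, V) e (P z) (mfderiv I 𝓘(ℝ, V) e (P z)) :=
  ((h.contMDiffAt_inv hz).mdifferentiableAt (by simp)).hasMFDerivAt

theorem Dm_inv_Dm {z : V} (hz : z ∈ U) (v : V) :
    Dm I 𝓘(ℝ, V) e (P z) (Dm 𝓘(ℝ, V) I P z v) = v := by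
  have h1 := (h.hasMFDerivAt_inv hz).comp z (h.hasMFDerivAt hz)
  have h2 : HasMFDerivAt 𝓘(ℝ, V) 𝓘(ℝ, V) (e ∘ P) z
      (ContinuousLinearMap.id ℝ (TangentSpace 𝓘(ℝ, V) z)) := by
    refine (hasMFDerivAt_id z).congr_of_eventuallyEq ?_
    filter_upwards [h.isOpen.mem_nhds hz] with z' hz' using h.left_inv z' hz'
  have h3 := hasMFDerivAt_unique h1 h2
  exact congrArg (fun (A : V →L[ℝ] V) => A v) h3

theorem Dm_Dm_inv {z : V} (hz : z ∈ U) (w : V₁) :
    Dm 𝓘(ℝ, V) I P z (Dm I 𝓘(ℝ, V) e (P z) w) = w := by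
  have hPe : P (e (P z)) = P z := by rw [h.left_inv z hz]
  have h0 : HasMFDerivAt 𝓘(ℝ, V) I P (e (P z)) (mfderiv 𝓘(ℝ, V) I P (e (P z))) := by
    have hz' : e (P z) ∈ U := by rw [h.left_inv z hz]; exact hz
    exact h.hasMFDerivAt hz'
  have h1 := h0.comp (P z) (h.hasMFDerivAt_inv hz)
  have h2 : HasMFDerivAt I I (P ∘ e) (P z)
      (ContinuousLinearMap.id ℝ (TangentSpace I (P z))) := by
    refine (hasMFDerivAt_id (P z)).congr_of_eventuallyEq ?_
    filter_upwards [h.isOpen_image.mem_nhds (mem_image_of_mem P hz)] with x hx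
      using h.right_inv hx
  have h3 := hasMFDerivAt_unique h1 h2
  have h4 : Dm 𝓘(ℝ, V) I P (e (P z)) (Dm I 𝓘(ℝ, V) e (P z) w) = w :=
    congrArg (fun (A : V₁ →L[ℝ] V₁) => A w) h3
  rwa [h.left_inv z hz] at h4

/-- Derivative of a function in a parametrization. -/
theorem hasFDerivAt_comp {z : V} (hz : z ∈ U) {f : X → ℝ}
    (hf : MDifferentiableAt I 𝓘(ℝ, ℝ) f (P z)) :
    HasFDerivAt (f ∘ P) ((Dm I 𝓘(ℝ, ℝ) f (P z)).comp (Dm 𝓘(ℝ, V) I P z)) z :=
  (hf.hasMFDerivAt.comp z (h.hasMFDerivAt hz)).hasFDerivAt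

theorem fderiv_comp_apply {z : V} (hz : z ∈ U) {f : X → ℝ}
    (hf : MDifferentiableAt I 𝓘(ℝ, ℝ) f (P z)) (v : V) :
    fderiv ℝ (f ∘ P) z v = Dm I 𝓘(ℝ, ℝ) f (P z) (Dm 𝓘(ℝ, V) I P z v) := by
  rw [(h.hasFDerivAt_comp hz hf).fderiv]
  rfl

theorem mem_crit_iff {z : V} (hz : z ∈ U) {f : X → ℝ}
    (hf : MDifferentiableAt I 𝓘(ℝ, ℝ) f (P z)) :
    P z ∈ Crit I f ↔ fderiv ℝ (f ∘ P) z = 0 := by
  rw [mem_crit_iff_Dm]
  constructor
  · intro h0
    ext v
    rw [h.fderiv_comp_apply hz hf, h0]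
    rfl
  · intro h0
    ext w
    have h1 := h.fderiv_comp_apply hz hf (Dm I 𝓘(ℝ, V) e (P z) w)
    rw [h0, h.Dm_Dm_inv hz w] at h1
    rw [← h1]
    rfl

end IsLocalParam

/-- The inverse of the preferred chart is a parametrization. -/
theorem isLocalParam_extChartAt [I.Boundaryless] [IsManifold I ∞ X] (x : X) :
    IsLocalParam I (extChartAt I x).symm (extChartAt I x) (extChartAt I x).target where
  isOpen := isOpen_extChartAt_target x
  isOpen_image := by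
    rw [PartialEquiv.symm_image_target_eq_source]
    exact isOpen_extChartAt_source x
  smooth := contMDiffOn_extChartAt_symm x
  smooth_inv := by
    rw [PartialEquiv.symm_image_target_eq_source]
    rw [extChartAt_source]
    exact contMDiffOn_extChartAt
  left_inv := fun z hz => (extChartAt I x).right_inv hz

/-- Nondegeneracy of the Hessian at a critical point follows from a linear lower bound for the
gradient in any smooth parametrization. -/
theorem hessNondeg_of_param [I.Boundaryless] [IsManifold I ∞ X] {P : V → X} {e : X → V} {U : Set V}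
    (h : IsLocalParam I P e U) {z : V} (hz : z ∈ U) {f : X → ℝ} (hf : ContMDiff I 𝓘(ℝ, ℝ) ∞ f)
    (hcrit : P z ∈ Crit I f) (hlb : GradLB (f ∘ P) z) : HessNondeg I f (P z) := by
  set x := P z with hx
  set c := extChartAt I x with hc
  set y := c x with hy
  have hp := isLocalParam_extChartAt (I := I) x
  rw [← hc] at hp
  have hyt : y ∈ c.target := mem_extChartAt_target x
  have hcy : c.symm y = x := extChartAt_to_inv x
  -- transition maps
  have hopen : IsOpen (P '' U) := h.isOpen_image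
  have hxU : x ∈ P '' U := mem_image_of_mem P hz
  have hτ : ContDiffAt ℝ ∞ (e ∘ c.symm) y := by
    have h1 : ContMDiffAt I 𝓘(ℝ, V) ∞ e (c.symm y) := by
      rw [hcy]; exact h.contMDiffAt_inv hz
    exact (h1.comp y (hp.contMDiffAt hyt)).contDiffAt
  have hτy : (e ∘ c.symm) y = z := by
    simp only [Function.comp_apply, hcy, hx, h.left_inv z hz]
  have hσ : ContDiffAt ℝ ∞ (c ∘ P) z := by
    have h1 : ContMDiffAt I 𝓘(ℝ, V₁) ∞ c (P z) := by
      have := hp.contMDiffAt_inv hyt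
      rwa [hcy] at this
    exact (h1.comp z (h.contMDiffAt hz)).contDiffAt
  have hcont1 : Tendsto c.symm (𝓝 y) (𝓝 x) := by
    have := (hp.contMDiffAt hyt).continuousAt.tendsto
    rwa [hcy] at this
  have hcont2 : Tendsto P (𝓝 z) (𝓝 x) := (h.contMDiffAt hz).continuousAt.tendsto
  have hsrc : c.source ∈ 𝓝 x := extChartAt_source_mem_nhds x
  have e1 : ∀ᶠ w in 𝓝 y, P (e (c.symm w)) = c.symm w := by
    filter_upwards [hcont1.eventually (hopen.mem_nhds hxU)] with w hw using h.right_inv hw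
  have e2 : ∀ᶠ w in 𝓝 y, (c ∘ P) ((e ∘ c.symm) w) = w := by
    filter_upwards [e1, hp.isOpen.mem_nhds hyt] with w hw hw'
    simp only [Function.comp_apply, hw]
    exact c.right_inv hw'
  have e3 : ∀ᶠ w in 𝓝 z, (e ∘ c.symm) ((c ∘ P) w) = w := by
    filter_upwards [hcont2.eventually hsrc, h.isOpen.mem_nhds hz] with w hw hw'
    simp only [Function.comp_apply, c.left_inv hw]
    exact h.left_inv w hw'
  have hfP : ContDiffAt ℝ ∞ (f ∘ P) z := by
    exact ((hf.contMDiffAt (x := P z)).comp z (h.contMDiffAt hz)).contDiffAt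
  have hfc : ContDiffAt ℝ ∞ (f ∘ c.symm) y :=
    ((hf.contMDiffAt (x := c.symm y)).comp y (hp.contMDiffAt hyt)).contDiffAt
  have hlb2 : GradLB ((f ∘ P) ∘ (e ∘ c.symm)) y := by
    refine GradLB.comp (σ := c ∘ P) (hτ.of_le (by simp)) ?_ ?_ e2 ?_ ?_
    · rw [hτy]; exact hσ.of_le (by simp)
    · rw [hτy]
      have h1 : ContDiffAt ℝ 1 (f ∘ P) z := hfP.of_le (by simp)
      filter_upwards [h1.eventually (by simp)] with w hw using hw.differentiableAt (by simp)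
    · rw [hτy]; exact e3
    · rw [hτy]; exact hlb
  have hlb3 : GradLB (f ∘ c.symm) y := by
    refine hlb2.congr ?_
    filter_upwards [e1] with w hw
    simp only [Function.comp_apply, hw]
  have hdd : DifferentiableAt ℝ (fderiv ℝ (f ∘ c.symm)) y := by
    have h1 : ContDiffAt ℝ 1 (fderiv ℝ (f ∘ c.symm)) y :=
      hfc.fderiv_right (by norm_cast)
    exact h1.differentiableAt (by simp)
  have h0 : fderiv ℝ (f ∘ c.symm) y = 0 := by
    have := (hp.mem_crit_iff hyt (f := f)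
      ((hf.contMDiffAt (x := c.symm y)).mdifferentiableAt (by simp))).1 (by rw [hcy]; exact hcrit)
    exact this
  intro v hv
  exact hess_of_gradLB hdd h0 hlb3 v hv

/-- Conversely, nondegeneracy of the Hessian gives the lower bound in any parametrization. -/
theorem gradLB_of_hessNondeg [FiniteDimensional ℝ V₁] [I.Boundaryless] [IsManifold I ∞ X]
    {P : V → X} {e : X → V} {U : Set V}
    (h : IsLocalParam I P e U) {z : V} (hz : z ∈ U) {f : X → ℝ} (hf : ContMDiff I 𝓘(ℝ, ℝ) ∞ f)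
    (hcrit : P z ∈ Crit I f) (hnd : HessNondeg I f (P z)) : GradLB (f ∘ P) z := by
  set x := P z with hx
  set c := extChartAt I x with hc
  set y := c x with hy
  have hp := isLocalParam_extChartAt (I := I) x
  rw [← hc] at hp
  have hyt : y ∈ c.target := mem_extChartAt_target x
  have hcy : c.symm y = x := extChartAt_to_inv x
  have hopen : IsOpen (P '' U) := h.isOpen_image
  have hxU : x ∈ P '' U := mem_image_of_mem P hz
  have hτ : ContDiffAt ℝ ∞ (e ∘ c.symm) y := by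
    have h1 : ContMDiffAt I 𝓘(ℝ, V) ∞ e (c.symm y) := by
      rw [hcy]; exact h.contMDiffAt_inv hz
    exact (h1.comp y (hp.contMDiffAt hyt)).contDiffAt
  have hτy : (e ∘ c.symm) y = z := by
    simp only [Function.comp_apply, hcy, hx, h.left_inv z hz]
  have hσ : ContDiffAt ℝ ∞ (c ∘ P) z := by
    have h1 : ContMDiffAt I 𝓘(ℝ, V₁) ∞ c (P z) := by
      have := hp.contMDiffAt_inv hyt
      rwa [hcy] at this
    exact (h1.comp z (h.contMDiffAt hz)).contDiffAt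
  have hσz : (c ∘ P) z = y := rfl
  have hcont1 : Tendsto c.symm (𝓝 y) (𝓝 x) := by
    have := (hp.contMDiffAt hyt).continuousAt.tendsto
    rwa [hcy] at this
  have hcont2 : Tendsto P (𝓝 z) (𝓝 x) := (h.contMDiffAt hz).continuousAt.tendsto
  have hsrc : c.source ∈ 𝓝 x := extChartAt_source_mem_nhds x
  have e1 : ∀ᶠ w in 𝓝 z, c.symm (c (P w)) = P w := by
    filter_upwards [hcont2.eventually hsrc] with w hw using c.left_inv hw
  have e2 : ∀ᶠ w in 𝓝 y, (c ∘ P) ((e ∘ c.symm) w) = w := by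
    filter_upwards [hcont1.eventually (hopen.mem_nhds hxU), hp.isOpen.mem_nhds hyt] with w hw hw'
    simp only [Function.comp_apply, h.right_inv hw]
    exact c.right_inv hw'
  have e3 : ∀ᶠ w in 𝓝 z, (e ∘ c.symm) ((c ∘ P) w) = w := by
    filter_upwards [e1, h.isOpen.mem_nhds hz] with w hw hw'
    simp only [Function.comp_apply, hw]
    exact h.left_inv w hw'
  have hfc : ContDiffAt ℝ ∞ (f ∘ c.symm) y :=
    ((hf.contMDiffAt (x := c.symm y)).comp y (hp.contMDiffAt hyt)).contDiffAt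
  have hdd : DifferentiableAt ℝ (fderiv ℝ (f ∘ c.symm)) y := by
    have h1 : ContDiffAt ℝ 1 (fderiv ℝ (f ∘ c.symm)) y :=
      hfc.fderiv_right (by norm_cast)
    exact h1.differentiableAt (by simp)
  have h0 : fderiv ℝ (f ∘ c.symm) y = 0 := by
    have := (hp.mem_crit_iff hyt (f := f)
      ((hf.contMDiffAt (x := c.symm y)).mdifferentiableAt (by simp))).1 (by rw [hcy]; exact hcrit)
    exact this
  have hlb : GradLB (f ∘ c.symm) y := gradLB_of_hess hdd h0 hnd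
  have hlb2 : GradLB ((f ∘ c.symm) ∘ (c ∘ P)) z := by
    refine GradLB.comp (σ := e ∘ c.symm) (hσ.of_le (by simp)) ?_ ?_ e3 ?_ ?_
    · rw [hσz]; exact hτ.of_le (by simp only [WithTop.one_le_coe, le_top])
    · rw [hσz]
      have h1 : ContDiffAt ℝ 1 (f ∘ c.symm) y := hfc.of_le (by simp)
      filter_upwards [h1.eventually (by simp)] with w hw using hw.differentiableAt (by simp)
    · rw [hσz]; exact e2
    · rw [hσz]; exact hlb
  refine hlb2.congr ?_
  filter_upwards [e1] with w hw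
  simp only [Function.comp_apply, hw]

end Param

end Vale.Agent.P265
end
end

section

section

open Set Filter Manifold
open scoped ContDiff Topology

set_option maxSynthPendingDepth 3
set_option linter.unusedSectionVars false

namespace Vale.Agent.P265

variable {V : Type*} [NormedAddCommGroup V] [NormedSpace ℝ V] {M : Type*} [TopologicalSpace M]
  [ChartedSpace V M]

variable [FiniteDimensional ℝ V]

/-- The form `om` at `x` as a bilinear map on the model space. -/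
noncomputable def omV {om : FormField V M} (hom : IsSymplectic om) (x : M) : V →L[ℝ] V →L[ℝ] ℝ :=
  IsBilinearMap.toContinuousBilinearMap (𝕜 := ℝ) (E := V) (F := V) (G := ℝ) (f := om x)
    (hom.bilin x)

/-- The pullback of `om` by `P`. -/
noncomputable def pullForm {om : FormField V M} (hom : IsSymplectic om) (P : V → M) (z : V) :
    V →L[ℝ] V →L[ℝ] ℝ :=
  (omV hom (P z)).bilinearComp (Dm 𝓘(ℝ, V) 𝓘(ℝ, V) P z) (Dm 𝓘(ℝ, V) 𝓘(ℝ, V) P z)

theorem pullForm_apply {om : FormField V M} (hom : IsSymplectic om) (P : V → M) (z v w : V) :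
    pullForm hom P z v w = omV hom (P z) (Dm 𝓘(ℝ, V) 𝓘(ℝ, V) P z v)
      (Dm 𝓘(ℝ, V) 𝓘(ℝ, V) P z w) := rfl

variable {om : FormField V M} {H : ℝ → M → ℝ} {φ : ℝ → M → M}

theorem IsPeriodicHamiltonian.contMDiff (hH : IsPeriodicHamiltonian V H) (t : ℝ) :
    ContMDiff 𝓘(ℝ, V) 𝓘(ℝ, ℝ) ∞ (H t) :=
  hH.smooth.comp (contMDiff_const.prodMk contMDiff_id)

theorem IsHamiltonianFlow.contMDiff_time (hφ : IsHamiltonianFlow om H φ) (x : M) :
    ContMDiff 𝓘(ℝ, ℝ) 𝓘(ℝ, V) ∞ (fun t => φ t x) :=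
  hφ.smooth.comp (contMDiff_id.prodMk contMDiff_const)

theorem IsHamiltonianFlow.contMDiff_space (hφ : IsHamiltonianFlow om H φ) (t : ℝ) :
    ContMDiff 𝓘(ℝ, V) 𝓘(ℝ, V) ∞ (φ t) :=
  hφ.smooth.comp (contMDiff_const.prodMk contMDiff_id)

theorem IsHamiltonianFlow.continuous_time (hφ : IsHamiltonianFlow om H φ) (x : M) :
    Continuous (fun t => φ t x) := (hφ.contMDiff_time x).continuous

/-- Hamilton's equation in a parametrization. -/
theorem IsHamiltonianFlow.param (hom : IsSymplectic om) (hφ : IsHamiltonianFlow om H φ)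
    (hH : IsPeriodicHamiltonian V H) {P : V → M} {e : M → V} {U : Set V}
    (hp : IsLocalParam 𝓘(ℝ, V) P e U) {t : ℝ} {x : M} {z : V} (hz : z ∈ U)
    (hx : φ t x = P z) :
    ∃ u : V, HasDerivAt (fun s => e (φ s x)) u t ∧
      Dm 𝓘(ℝ, V) 𝓘(ℝ, V) P z u = Dm 𝓘(ℝ, ℝ) 𝓘(ℝ, V) (fun s => φ s x) t 1 ∧
      ∀ v, pullForm hom P z u v = fderiv ℝ (H t ∘ P) z v := by
  have h1 : HasMFDerivAt 𝓘(ℝ, ℝ) 𝓘(ℝ, V) (fun s => φ s x) t
      (mfderiv 𝓘(ℝ, ℝ) 𝓘(ℝ, V) (fun s => φ s x) t) :=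
    ((hφ.contMDiff_time x t).mdifferentiableAt (by simp)).hasMFDerivAt
  have h2 : HasMFDerivAt 𝓘(ℝ, V) 𝓘(ℝ, V) e (φ t x)
      (mfderiv 𝓘(ℝ, V) 𝓘(ℝ, V) e (φ t x)) := by
    rw [hx]; exact hp.hasMFDerivAt_inv hz
  have h3 := h2.comp t h1
  have h4 : HasFDerivAt (fun s => e (φ s x))
      ((Dm 𝓘(ℝ, V) 𝓘(ℝ, V) e (φ t x)).comp
        (Dm 𝓘(ℝ, ℝ) 𝓘(ℝ, V) (fun s => φ s x) t)) t := h3.hasFDerivAt
  set u₀ : V := Dm 𝓘(ℝ, ℝ) 𝓘(ℝ, V) (fun s => φ s x) t 1 with hu₀
  have hu : Dm 𝓘(ℝ, V) 𝓘(ℝ, V) P z (Dm 𝓘(ℝ, V) 𝓘(ℝ, V) e (φ t x) u₀) = u₀ := by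
    rw [hx]; exact hp.Dm_Dm_inv hz u₀
  refine ⟨Dm 𝓘(ℝ, V) 𝓘(ℝ, V) e (φ t x) u₀, ?_, hu, ?_⟩
  · exact h4.hasDerivAt
  · intro v
    rw [pullForm_apply, hu, hp.fderiv_comp_apply hz ((hH.contMDiff t _).mdifferentiableAt
      (by simp))]
    have h5 := hφ.hamilton t x (Dm 𝓘(ℝ, V) 𝓘(ℝ, V) P z v)
    have h6 : omV hom (φ t x) u₀ (Dm 𝓘(ℝ, V) 𝓘(ℝ, V) P z v) =
        Dm 𝓘(ℝ, V) 𝓘(ℝ, ℝ) (H t) (φ t x) (Dm 𝓘(ℝ, V) 𝓘(ℝ, V) P z v) := h5
    rw [hx] at h6
    exact h6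

theorem IsSymplectic.omV_nondeg (hom : IsSymplectic om) (x : M) (v : V)
    (h : ∀ w : V, omV hom x v w = 0) : v = 0 := hom.nondeg x v h

theorem pullForm_eq_pullback (hom : IsSymplectic om) (P : V → M) (y v w : V) :
    pullForm hom P y v w = pullback om P v w y := rfl

theorem IsSymplectic.continuousOn_pullForm (hom : IsSymplectic om) (x₀ : M) :
    ContinuousOn (pullForm hom (extChartAt 𝓘(ℝ, V) x₀).symm)
      (extChartAt 𝓘(ℝ, V) x₀).target := by
  rw [continuousOn_clm_apply]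
  intro v
  rw [continuousOn_clm_apply]
  intro w
  exact (hom.smooth x₀ v w).continuousOn

variable [IsManifold 𝓘(ℝ, V) ∞ M]

/-- Uniform nondegeneracy of the local expression of a symplectic form. -/
theorem IsSymplectic.lower_bound (hom : IsSymplectic om) (x₀ : M) :
    ∃ c > 0, ∀ᶠ y in 𝓝 (extChartAt 𝓘(ℝ, V) x₀ x₀),
      ∀ v, c * ‖v‖ ≤ ‖pullForm hom (extChartAt 𝓘(ℝ, V) x₀).symm y v‖ := by
  set P := (extChartAt 𝓘(ℝ, V) x₀).symm with hP
  set y₀ := extChartAt 𝓘(ℝ, V) x₀ x₀ with hy₀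
  have hp := isLocalParam_extChartAt (I := 𝓘(ℝ, V)) x₀
  rw [← hP] at hp
  have hy : y₀ ∈ (extChartAt 𝓘(ℝ, V) x₀).target := mem_extChartAt_target x₀
  have hinj : LinearMap.ker (pullForm hom P y₀ : V →ₗ[ℝ] (V →L[ℝ] ℝ)) = ⊥ := by
    rw [LinearMap.ker_eq_bot']
    intro v hv
    have hv' : pullForm hom P y₀ v = 0 := hv
    have h1 : Dm 𝓘(ℝ, V) 𝓘(ℝ, V) P y₀ v = 0 := by
      refine hom.omV_nondeg (P y₀) _ fun w => ?_
      have h2 : pullForm hom P y₀ v (Dm 𝓘(ℝ, V) 𝓘(ℝ, V)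
        (extChartAt 𝓘(ℝ, V) x₀) (P y₀) w) = 0 := by rw [hv']; rfl
      rw [pullForm_apply, hp.Dm_Dm_inv hy] at h2
      exact h2
    have h3 := hp.Dm_inv_Dm hy v
    rw [h1] at h3
    rw [← h3]
    exact map_zero _
  obtain ⟨K, hK, hanti⟩ := LinearMap.exists_antilipschitzWith
    (pullForm hom P y₀ : V →ₗ[ℝ] (V →L[ℝ] ℝ)) hinj
  have hK' : (0 : ℝ) < K := by exact_mod_cast hK
  have hcont : ContinuousAt (pullForm hom P) y₀ :=
    (hom.continuousOn_pullForm x₀).continuousAt ((isOpen_extChartAt_target x₀).mem_nhds hy)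
  refine ⟨1 / (2 * K), by positivity, ?_⟩
  have h1 : ∀ᶠ y in 𝓝 y₀, ‖pullForm hom P y - pullForm hom P y₀‖ < 1 / (2 * K) := by
    have := Metric.tendsto_nhds.1 hcont.tendsto (1 / (2 * K)) (by positivity)
    simpa only [one_div, mul_inv_rev, dist_eq_norm] using this
  filter_upwards [h1] with y hy1 v
  have h2 : ‖v‖ ≤ K * ‖pullForm hom P y₀ v‖ := by
    have := hanti.le_mul_dist v 0
    simpa only [ge_iff_le, dist_zero_right, ContinuousLinearMap.coe_coe, map_zero] using this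
  have h3 : ‖pullForm hom P y₀ v‖ ≤ ‖pullForm hom P y v‖ +
      ‖(pullForm hom P y - pullForm hom P y₀) v‖ := by
    have := norm_sub_le (pullForm hom P y v) ((pullForm hom P y - pullForm hom P y₀) v)
    rwa [sub_apply, sub_sub_cancel] at this
  have h4 : ‖(pullForm hom P y - pullForm hom P y₀) v‖ ≤ 1 / (2 * K) * ‖v‖ :=
    (ContinuousLinearMap.le_opNorm _ _).trans
      (mul_le_mul_of_nonneg_right hy1.le (norm_nonneg _))
  have h5 : ‖v‖ / K ≤ ‖pullForm hom P y₀ v‖ := by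
    rw [div_le_iff₀ hK']; (clear hP hy₀ hp hy hinj hK hK' hcont h1 y hy1 h3 h4; linarith)
  have h7 : ‖v‖ / K = 1 / (2 * K) * ‖v‖ + 1 / (2 * K) * ‖v‖ := by
    field_simp; ring
  linarith

/-- A common critical point of all `H_t` is fixed by the Hamiltonian flow. -/
theorem IsHamiltonianFlow.rest [T2Space M] (hom : IsSymplectic om)
    (hH : IsPeriodicHamiltonian V H) (hφ : IsHamiltonianFlow om H φ) {x : M}
    (hx : ∀ t, x ∈ Crit 𝓘(ℝ, V) (H t)) {t : ℝ} (ht : 0 ≤ t) : φ t x = x := by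
  set P := (extChartAt 𝓘(ℝ, V) x).symm with hP
  set e := extChartAt 𝓘(ℝ, V) x with he
  set y₀ := e x with hy₀
  have hp := isLocalParam_extChartAt (I := 𝓘(ℝ, V)) x
  rw [← he, ← hP] at hp
  have hy : y₀ ∈ e.target := mem_extChartAt_target x
  have hPy : P y₀ = x := extChartAt_to_inv x
  obtain ⟨c, hc, hlb⟩ := hom.lower_bound x
  -- the bound for the differential of `H`
  have hbound : ∀ t₀ : ℝ, ∃ L : ℝ, ∀ᶠ q in 𝓝 (t₀, y₀),
      ‖fderiv ℝ (H q.1 ∘ P) q.2‖ ≤ L * ‖q.2 - y₀‖ := by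
    intro t₀
    set g : ℝ × V → ℝ := fun q => H q.1 (P q.2) with hg
    have hgs : ∀ q : ℝ × V, q.2 ∈ e.target → ContDiffAt ℝ ∞ g q := by
      intro q hq
      have h1 : ContMDiffAt 𝓘(ℝ, ℝ × V) (𝓘(ℝ, ℝ).prod 𝓘(ℝ, V)) ∞
          (fun q : ℝ × V => (q.1, P q.2)) q :=
        (contDiff_fst.contMDiff.contMDiffAt).prodMk
          (ContMDiffAt.comp (I' := 𝓘(ℝ, V)) q (g := P) (f := fun q : ℝ × V => q.2)
            (hp.contMDiffAt hq) contDiff_snd.contMDiff.contMDiffAt)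
      exact (ContMDiffAt.comp q (hH.smooth.contMDiffAt) h1).contDiffAt
    have hfd : ∀ q : ℝ × V, q.2 ∈ e.target → fderiv ℝ (H q.1 ∘ P) q.2 =
        (fderiv ℝ g q).comp (ContinuousLinearMap.inr ℝ ℝ V) := by
      intro q hq
      have h1 : HasFDerivAt g (fderiv ℝ g q) (q.1, q.2) :=
        ((hgs q hq).differentiableAt (by simp)).hasFDerivAt
      have h2 : HasFDerivAt (fun y : V => (q.1, y)) (ContinuousLinearMap.inr ℝ ℝ V) q.2 :=
        hasFDerivAt_prodMk_right q.1 q.2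
      exact (HasFDerivAt.comp q.2 h1 h2).fderiv
    have hC1 : ContDiffAt ℝ 1 (fderiv ℝ g) (t₀, y₀) :=
      (hgs (t₀, y₀) hy).fderiv_right (by norm_cast)
    obtain ⟨K, s, hs, hK⟩ := hC1.exists_lipschitzOnWith
    refine ⟨K, ?_⟩
    have ht1 : Tendsto (fun q : ℝ × V => (q.1, y₀)) (𝓝 (t₀, y₀)) (𝓝 (t₀, y₀)) := by
      have : Continuous (fun q : ℝ × V => (q.1, y₀)) := by fun_prop
      exact this.tendsto (t₀, y₀)
    have htg : ∀ᶠ q : ℝ × V in 𝓝 (t₀, y₀), q.2 ∈ e.target :=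
      (continuous_snd.tendsto (t₀, y₀)).eventually (hp.isOpen.mem_nhds hy)
    filter_upwards [hs, ht1.eventually hs, htg] with q hq1 hq2 hq3
    have h3 := hK.dist_le_mul _ hq1 _ hq2
    have h4 : (fderiv ℝ g (q.1, y₀)).comp (ContinuousLinearMap.inr ℝ ℝ V) = 0 := by
      rw [← hfd (q.1, y₀) hy]
      have := (hp.mem_crit_iff hy (f := H q.1)
        ((hH.contMDiff q.1 _).mdifferentiableAt (by simp))).1 (by rw [hPy]; exact hx q.1)
      exact this
    rw [hfd q hq3]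
    have h5 : (fderiv ℝ g q).comp (ContinuousLinearMap.inr ℝ ℝ V) =
        (fderiv ℝ g q - fderiv ℝ g (q.1, y₀)).comp (ContinuousLinearMap.inr ℝ ℝ V) := by
      rw [ContinuousLinearMap.sub_comp, h4, sub_zero]
    rw [h5]
    calc ‖(fderiv ℝ g q - fderiv ℝ g (q.1, y₀)).comp (ContinuousLinearMap.inr ℝ ℝ V)‖
        ≤ ‖fderiv ℝ g q - fderiv ℝ g (q.1, y₀)‖ * ‖ContinuousLinearMap.inr ℝ ℝ V‖ :=
          ContinuousLinearMap.opNorm_comp_le _ _
      _ ≤ ‖fderiv ℝ g q - fderiv ℝ g (q.1, y₀)‖ * 1 :=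
          mul_le_mul_of_nonneg_left (ContinuousLinearMap.norm_inr_le_one ℝ ℝ V)
            (norm_nonneg _)
      _ ≤ K * dist q (q.1, y₀) := by rw [mul_one, ← dist_eq_norm]; exact h3
      _ = K * ‖q.2 - y₀‖ := by
          rw [Prod.dist_eq]
          simp only [dist_self, dist_eq_norm, norm_nonneg, sup_of_le_right]
  -- continuous induction
  set s : Set ℝ := {t | φ t x = x} with hs
  have hclosed : IsClosed s := isClosed_eq (hφ.continuous_time x) continuous_const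
  have h0 : (0 : ℝ) ∈ s := hφ.zero x
  have hsub : Icc 0 t ⊆ s := by
    refine IsClosed.Icc_subset_of_forall_mem_nhdsWithin (hclosed.inter isClosed_Icc) h0 ?_
    rintro t₀ ⟨ht₀, -⟩
    have ht₀' : φ t₀ x = x := ht₀
    obtain ⟨L, hL⟩ := hbound t₀
    have hcφ : ContinuousAt (fun t => φ t x) t₀ := (hφ.continuous_time x).continuousAt
    have hce : ContinuousAt (fun t => e (φ t x)) t₀ := by
      have h1 : ContinuousAt e (φ t₀ x) := by rw [ht₀']; exact continuousAt_extChartAt x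
      exact ContinuousAt.comp (f := fun t => φ t x) h1 hcφ
    have hey : e (φ t₀ x) = y₀ := by rw [ht₀']
    have hq : Tendsto (fun t => (t, e (φ t x))) (𝓝 t₀) (𝓝 (t₀, y₀)) := by
      have := (continuousAt_id (x := t₀)).prodMk hce
      simpa only [ContinuousAt, id_eq, hey] using this
    have hsrc : ∀ᶠ t in 𝓝 t₀, φ t x ∈ e.source := by
      have h1 := hcφ.tendsto
      simp only [ht₀'] at h1
      exact h1.eventually (extChartAt_source_mem_nhds x)
    have hlb' : ∀ᶠ t in 𝓝 t₀, ∀ v, c * ‖v‖ ≤ ‖pullForm hom P (e (φ t x)) v‖ := by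
      have := hce.tendsto
      rw [hey] at this
      exact this.eventually hlb
    obtain ⟨ε, hε, hball⟩ := Metric.eventually_nhds_iff_ball.1
      ((hq.eventually hL).and (hsrc.and hlb'))
    have hder : ∀ t ∈ Metric.ball t₀ ε, ∃ u : V, HasDerivAt (fun s => e (φ s x)) u t ∧
        ‖u‖ ≤ L / c * ‖e (φ t x) - y₀‖ := by
      intro t ht
      obtain ⟨h1, h2, h3⟩ := hball t ht
      have hzt : e (φ t x) ∈ e.target := e.map_source h2
      have hxz : φ t x = P (e (φ t x)) := (e.left_inv h2).symm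
      obtain ⟨u, hu1, -, hu2⟩ := hφ.param hom hH hp hzt hxz
      refine ⟨u, hu1, ?_⟩
      have h4 : pullForm hom P (e (φ t x)) u = fderiv ℝ (H t ∘ P) (e (φ t x)) := by
        exact ContinuousLinearMap.ext fun v => hu2 v
      have h5 := h3 u
      rw [h4] at h5
      have h6 : c * ‖u‖ ≤ L * ‖e (φ t x) - y₀‖ := h5.trans h1
      rw [div_mul_eq_mul_div, le_div_iff₀ hc]
      linarith only [h1, h5]
    choose! u hu1 hu2 using hder
    have hmem : ∀ t ∈ Icc t₀ (t₀ + ε / 2), t ∈ Metric.ball t₀ ε := by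
      intro t ht
      rw [Metric.mem_ball, Real.dist_eq, abs_lt]
      constructor <;> linarith only [hε, ht.1, ht.2]
    have hzero : ∀ t ∈ Icc t₀ (t₀ + ε / 2), e (φ t x) - y₀ = 0 := by
      refine eq_zero_of_abs_deriv_le_mul_abs_self_of_eq_zero_right (K := L / c)
        (f := fun t => e (φ t x) - y₀) (f' := u) ?_ ?_ ?_ ?_
      · intro t ht
        exact ((hu1 t (hmem t ht)).sub_const y₀).continuousAt.continuousWithinAt
      · intro t ht
        exact ((hu1 t (hmem t (Ico_subset_Icc_self ht))).sub_const y₀).hasDerivWithinAt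
      · simp only [hey, sub_self]
      · intro t ht
        exact hu2 t (hmem t (Ico_subset_Icc_self ht))
    have hsub' : Ioo t₀ (t₀ + ε / 2) ⊆ s := by
      intro t ht
      have h1 := hzero t (Ioo_subset_Icc_self ht)
      obtain ⟨-, h2, -⟩ := hball t (hmem t (Ioo_subset_Icc_self ht))
      have h3 : e (φ t x) = e x := sub_eq_zero.1 h1
      exact e.injOn h2 (mem_extChartAt_source x) h3
    exact mem_of_superset (Ioo_mem_nhdsGT (by linarith only [hε])) hsub'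
  exact hsub ⟨ht, le_rfl⟩

/-- A common critical point of all `H_t` belongs to `Fix0`. -/
theorem IsHamiltonianFlow.rest_mem_Fix0 [T2Space M] (hom : IsSymplectic om)
    (hH : IsPeriodicHamiltonian V H) (hφ : IsHamiltonianFlow om H φ) {x : M}
    (hx : ∀ t, x ∈ Crit 𝓘(ℝ, V) (H t)) : x ∈ Fix0 φ := by
  refine ⟨hφ.rest hom hH hx zero_le_one, Path.refl x, fun t => ?_, Path.Homotopic.refl _⟩
  rw [hφ.rest hom hH hx t.2.1]
  rfl

end Vale.Agent.P265
end
end

section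

section

open Set Filter Manifold
open scoped ContDiff Topology

set_option maxSynthPendingDepth 3

namespace Vale.Agent.P265

variable {V : Type*} [NormedAddCommGroup V] [NormedSpace ℝ V] {M : Type*} [TopologicalSpace M]
  [ChartedSpace V M]
  [FiniteDimensional ℝ V] [IsManifold 𝓘(ℝ, V) ∞ M]

theorem tendsto_clm_apply {α E F : Type*} [NormedAddCommGroup E] [NormedSpace ℝ E]
    [NormedAddCommGroup F] [NormedSpace ℝ F] {l : Filter α} {A : α → E →L[ℝ] F}
    {A₀ : E →L[ℝ] F} {x : α → E} {x₀ : E} (hA : Tendsto A l (𝓝 A₀)) (hx : Tendsto x l (𝓝 x₀)) :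
    Tendsto (fun a => A a (x a)) l (𝓝 (A₀ x₀)) :=
  (isBoundedBilinearMap_apply.continuous.tendsto (A₀, x₀)).comp (hA.prodMk_nhds hx)

theorem exists_hamVec {A : V →L[ℝ] V →L[ℝ] ℝ} (hA : ∀ v, A v = 0 → v = 0)
    (l : V →L[ℝ] ℝ) : ∃ X, A X = l := by
  have h1 : Module.finrank ℝ (V →L[ℝ] ℝ) = Module.finrank ℝ V := by
    rw [← (LinearMap.toContinuousLinearMap (𝕜 := ℝ) (E := V) (F' := ℝ)).finrank_eq]
    exact Subspace.dual_finrank_eq
  have hinj : Function.Injective (A : V →ₗ[ℝ] (V →L[ℝ] ℝ)) := by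
    rw [← LinearMap.ker_eq_bot, LinearMap.ker_eq_bot']
    exact hA
  exact (LinearMap.injective_iff_surjective_of_finrank_eq_finrank h1.symm).1 hinj l

/-- At a nondegenerate critical point of a function `K` Poisson-commuting with `h`, the
differential of `h` vanishes. -/
theorem mem_crit_of_poisson {om : FormField V M} (hom : IsSymplectic om) {K h : M → ℝ}
    (hK : ContMDiff 𝓘(ℝ, V) 𝓘(ℝ, ℝ) ∞ K) (hh : ContMDiff 𝓘(ℝ, V) 𝓘(ℝ, ℝ) ∞ h) {x : M}
    (hx : x ∈ Crit 𝓘(ℝ, V) K) (hnd : HessNondeg 𝓘(ℝ, V) K x)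
    (hP : ∀ᶠ x' in 𝓝 x, PoissonZero om K h x') : x ∈ Crit 𝓘(ℝ, V) h := by
  set P := (extChartAt 𝓘(ℝ, V) x).symm with hPdef
  set e := extChartAt 𝓘(ℝ, V) x with he
  set y₀ := e x with hy₀
  have hp := isLocalParam_extChartAt (I := 𝓘(ℝ, V)) x
  rw [← he, ← hPdef] at hp
  have hy : y₀ ∈ e.target := mem_extChartAt_target x
  have hPy : P y₀ = x := extChartAt_to_inv x
  obtain ⟨c, hc, hlb⟩ := hom.lower_bound x
  rw [← he, ← hPdef, ← hy₀] at hlb
  have hinj : ∀ᶠ y in 𝓝 y₀, ∀ v, pullForm hom P y v = 0 → v = 0 := by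
    filter_upwards [hlb] with y hy v hv
    have := hy v
    rw [hv, norm_zero] at this
    have h1 : ‖v‖ ≤ 0 := by nlinarith only [this, hc]
    exact norm_le_zero_iff.1 h1
  have hXex : ∀ y : V, ∃ X : V, (∀ v, pullForm hom P y v = 0 → v = 0) →
      pullForm hom P y X = fderiv ℝ (h ∘ P) y := by
    intro y
    by_cases hy : ∀ v, pullForm hom P y v = 0 → v = 0
    · obtain ⟨X, hX⟩ := exists_hamVec hy (fderiv ℝ (h ∘ P) y)
      exact ⟨X, fun _ => hX⟩
    · exact ⟨0, fun h' => absurd h' hy⟩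
  choose X hX using hXex
  have hX' : ∀ᶠ y in 𝓝 y₀, pullForm hom P y (X y) = fderiv ℝ (h ∘ P) y := by
    filter_upwards [hinj] with y hy using hX y hy
  have htgt : ∀ᶠ y in 𝓝 y₀, y ∈ e.target := hp.isOpen.mem_nhds hy
  have hPc : Tendsto P (𝓝 y₀) (𝓝 x) := by
    have := (hp.contMDiffAt hy).continuousAt.tendsto
    rwa [hPy] at this
  -- the Poisson condition in the chart
  have hzero : ∀ᶠ y in 𝓝 y₀, fderiv ℝ (K ∘ P) y (X y) = 0 := by
    filter_upwards [hX', htgt, hPc.eventually hP] with y h1 h2 h3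
    rw [hp.fderiv_comp_apply h2 ((hK _).mdifferentiableAt (by simp))]
    refine h3 _ fun w => ?_
    have h4 : omV hom (P y) (Dm 𝓘(ℝ, V) 𝓘(ℝ, V) P y (X y))
        (Dm 𝓘(ℝ, V) 𝓘(ℝ, V) P y (Dm 𝓘(ℝ, V) 𝓘(ℝ, V) e (P y) w)) =
        Dm 𝓘(ℝ, V) 𝓘(ℝ, ℝ) h (P y)
          (Dm 𝓘(ℝ, V) 𝓘(ℝ, V) P y (Dm 𝓘(ℝ, V) 𝓘(ℝ, V) e (P y) w)) := by
      rw [← pullForm_apply, h1, hp.fderiv_comp_apply h2 ((hh _).mdifferentiableAt (by simp))]
    have h5 : Dm 𝓘(ℝ, V) 𝓘(ℝ, V) P y (Dm 𝓘(ℝ, V) 𝓘(ℝ, V) e (P y) w) = w :=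
      hp.Dm_Dm_inv h2 w
    rw [h5] at h4
    exact h4
  -- continuity of `X` at `y₀`
  have hcont : ContinuousAt (pullForm hom P) y₀ :=
    (hom.continuousOn_pullForm x).continuousAt (hp.isOpen.mem_nhds hy)
  have hhd : ContDiffAt ℝ ∞ (h ∘ P) y₀ :=
    ((hh.contMDiffAt (x := P y₀)).comp y₀ (hp.contMDiffAt hy)).contDiffAt
  have hhc : ContinuousAt (fderiv ℝ (h ∘ P)) y₀ := hhd.continuousAt_fderiv (by simp)
  have hX0 : pullForm hom P y₀ (X y₀) = fderiv ℝ (h ∘ P) y₀ := hX'.self_of_nhds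
  have hXc : Tendsto X (𝓝 y₀) (𝓝 (X y₀)) := by
    rw [tendsto_iff_norm_sub_tendsto_zero]
    have h1 : Tendsto (fun y => ‖fderiv ℝ (h ∘ P) y - pullForm hom P y (X y₀)‖ / c) (𝓝 y₀)
        (𝓝 0) := by
      have h2 : ContinuousAt (fun y => ‖fderiv ℝ (h ∘ P) y - pullForm hom P y (X y₀)‖ / c) y₀ :=
        ((hhc.sub (hcont.clm_apply continuousAt_const)).norm).div_const c
      have h3 := h2.tendsto
      simpa only [hX0, sub_self, norm_zero, zero_div] using h3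
    refine squeeze_zero' (Eventually.of_forall fun _ => norm_nonneg _) ?_ h1
    filter_upwards [hlb, hX'] with y h2 h3
    have h4 := h2 (X y - X y₀)
    rw [map_sub, h3] at h4
    rw [le_div_iff₀ hc]
    (clear K hK hh hx hnd hP hPdef he hy₀ hp hy hPy hc hlb hinj hX hX' htgt hPc hzero hcont hhd hhc hX0 h1 h2 h3; linarith)
  -- differentiate
  have hKd : ContDiffAt ℝ ∞ (K ∘ P) y₀ :=
    ((hK.contMDiffAt (x := P y₀)).comp y₀ (hp.contMDiffAt hy)).contDiffAt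
  have hK2 : DifferentiableAt ℝ (fderiv ℝ (K ∘ P)) y₀ := by
    have h1 : ContDiffAt ℝ 1 (fderiv ℝ (K ∘ P)) y₀ := hKd.fderiv_right (by norm_cast)
    exact h1.differentiableAt (by simp)
  have hK0 : fderiv ℝ (K ∘ P) y₀ = 0 :=
    (hp.mem_crit_iff hy ((hK _).mdifferentiableAt (by simp))).1 (by rw [hPy]; exact hx)
  have hsymm : IsSymmSndFDerivAt ℝ (K ∘ P) y₀ :=
    hKd.isSymmSndFDerivAt (by simp only [minSmoothness_of_isRCLikeNormedField]; norm_cast)
  have hzero2 : ∀ v, fderiv ℝ (fderiv ℝ (K ∘ P)) y₀ v (X y₀) = 0 := by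
    intro v
    have hline : HasDerivAt (fun s : ℝ => y₀ + s • v) v 0 := by
      simpa using ((hasDerivAt_id (0 : ℝ)).smul_const v).const_add y₀
    have hlt : Tendsto (fun s : ℝ => y₀ + s • v) (𝓝 0) (𝓝 y₀) := by
      have := hline.continuousAt.tendsto
      simpa only [zero_smul, add_zero] using this
    have hG : HasFDerivAt (fderiv ℝ (K ∘ P)) (fderiv ℝ (fderiv ℝ (K ∘ P)) y₀)
        (y₀ + (0 : ℝ) • v) := by
      simpa only [zero_smul, add_zero] using hK2.hasFDerivAt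
    have h1 : HasDerivAt (fun s : ℝ => fderiv ℝ (K ∘ P) (y₀ + s • v))
        (fderiv ℝ (fderiv ℝ (K ∘ P)) y₀ v) 0 := hG.comp_hasDerivAt (0 : ℝ) hline
    have h2 : Tendsto (fun s : ℝ => s⁻¹ • (fderiv ℝ (K ∘ P) (y₀ + s • v))) (𝓝[≠] 0)
        (𝓝 (fderiv ℝ (fderiv ℝ (K ∘ P)) y₀ v)) := by
      have := h1.tendsto_slope_zero
      simpa only [zero_add, zero_smul, add_zero, hK0, sub_zero] using this
    have h3 : Tendsto (fun s : ℝ => X (y₀ + s • v)) (𝓝[≠] 0) (𝓝 (X y₀)) :=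
      (hXc.comp hlt).mono_left nhdsWithin_le_nhds
    have h4 : Tendsto (fun s : ℝ => (s⁻¹ • (fderiv ℝ (K ∘ P) (y₀ + s • v))) (X (y₀ + s • v)))
        (𝓝[≠] 0) (𝓝 (fderiv ℝ (fderiv ℝ (K ∘ P)) y₀ v (X y₀))) :=
      tendsto_clm_apply h2 h3
    have h5 : Tendsto (fun s : ℝ => (s⁻¹ • (fderiv ℝ (K ∘ P) (y₀ + s • v))) (X (y₀ + s • v)))
        (𝓝[≠] 0) (𝓝 0) := by
      refine tendsto_const_nhds.congr' ?_
      have h6 : ∀ᶠ s : ℝ in 𝓝[≠] 0, fderiv ℝ (K ∘ P) (y₀ + s • v) (X (y₀ + s • v)) = 0 :=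
        (hlt.eventually hzero).filter_mono nhdsWithin_le_nhds
      filter_upwards [h6] with s hs
      rw [smul_apply, hs, smul_zero]
    exact tendsto_nhds_unique h4 h5
  have hXz : X y₀ = 0 := by
    refine hnd (X y₀) fun w => ?_
    have h1 := hzero2 w
    rw [hsymm.eq] at h1
    exact h1
  have hfin : fderiv ℝ (h ∘ P) y₀ = 0 := by
    rw [← hX0, hXz, map_zero]
  have := (hp.mem_crit_iff hy ((hh _).mdifferentiableAt (by simp))).2 hfin
  rwa [hPy] at this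

end Vale.Agent.P265
end
end

section

section

open Set Filter Manifold
open scoped ContDiff Topology

set_option maxSynthPendingDepth 3

namespace Vale.Agent.P265

section Prod

variable {V : Type*} [NormedAddCommGroup V] [NormedSpace ℝ V]
  {V₁ : Type*} [NormedAddCommGroup V₁] [NormedSpace ℝ V₁] {B : Type*} [TopologicalSpace B]
  {I : ModelWithCorners ℝ V₁ B} {X : Type*} [TopologicalSpace X] [ChartedSpace B X]
  {Z : Type*} [NormedAddCommGroup Z] [NormedSpace ℝ Z]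
  {Z' : Type*} [NormedAddCommGroup Z'] [NormedSpace ℝ Z']

/-- Product of a parametrization with a linear isomorphism. -/
theorem IsLocalParam.prodLinear {P : V → X} {e : X → V} {U : Set V} (h : IsLocalParam I P e U)
    (L : Z ≃L[ℝ] Z') :
    IsLocalParam (I.prod 𝓘(ℝ, Z')) (fun q : V × Z => (P q.1, L q.2))
      (fun x : X × Z' => (e x.1, L.symm x.2)) (U ×ˢ univ) where
  isOpen := h.isOpen.prod isOpen_univ
  isOpen_image := by
    have : (fun q : V × Z => (P q.1, L q.2)) '' (U ×ˢ univ) = (P '' U) ×ˢ univ := by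
      ext ⟨x, z⟩
      constructor
      · rintro ⟨⟨v, w⟩, ⟨hv, -⟩, heq⟩
        simp only [Prod.mk.injEq] at heq
        exact ⟨⟨v, hv, heq.1⟩, mem_univ _⟩
      · rintro ⟨⟨v, hv, hx⟩, -⟩
        exact ⟨(v, L.symm z), ⟨hv, mem_univ _⟩, by simp only [hx, L.apply_symm_apply]⟩
    rw [this]
    exact h.isOpen_image.prod isOpen_univ
  smooth := by
    intro q hq
    have h1 : ContMDiffAt 𝓘(ℝ, V) I ∞ P q.1 := h.contMDiffAt hq.1
    have h2 : ContMDiffAt 𝓘(ℝ, V × Z) I ∞ (fun q : V × Z => P q.1) q :=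
      ContMDiffAt.comp (I' := 𝓘(ℝ, V)) q (g := P) (f := fun q : V × Z => q.1) h1
        contDiff_fst.contMDiff.contMDiffAt
    have h3 : ContMDiffAt 𝓘(ℝ, V × Z) 𝓘(ℝ, Z') ∞ (fun q : V × Z => L q.2) q :=
      (L.contDiff.comp contDiff_snd).contMDiff.contMDiffAt
    exact (h2.prodMk h3).contMDiffWithinAt
  smooth_inv := by
    intro x hx
    obtain ⟨q, hq, rfl⟩ := hx
    have h1 : ContMDiffAt I 𝓘(ℝ, V) ∞ e (P q.1) := h.contMDiffAt_inv hq.1
    have h2 : ContMDiffAt (I.prod 𝓘(ℝ, Z')) 𝓘(ℝ, V) ∞ (fun x : X × Z' => e x.1) (P q.1, L q.2) :=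
      ContMDiffAt.comp (I' := I) _ (g := e) (f := fun x : X × Z' => x.1) h1 contMDiffAt_fst
    have h3 : ContMDiffAt (I.prod 𝓘(ℝ, Z')) 𝓘(ℝ, Z) ∞ (fun x : X × Z' => L.symm x.2)
        (P q.1, L q.2) :=
      ContMDiffAt.comp (I' := 𝓘(ℝ, Z')) _ (g := L.symm) (f := fun x : X × Z' => x.2)
        L.symm.contDiff.contMDiff.contMDiffAt contMDiffAt_snd
    exact (h2.prodMk_space h3).contMDiffWithinAt
  left_inv := by
    rintro ⟨v, w⟩ ⟨hv, -⟩
    simp only [h.left_inv v hv, L.symm_apply_apply]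

end Prod

section StableLeMorse

variable (V : Type*) [NormedAddCommGroup V] [NormedSpace ℝ V] [FiniteDimensional ℝ V]
  (W : Type*) [TopologicalSpace W] [ChartedSpace V W] [IsManifold 𝓘(ℝ, V) ∞ W]

end StableLeMorse

end Vale.Agent.P265
end
end

section

section

open Set Filter Manifold
open scoped ContDiff Topology

namespace Vale.Agent.P265

variable {V : Type*} [NormedAddCommGroup V] [NormedSpace ℝ V] {M : Type*} [TopologicalSpace M]
  [ChartedSpace V M]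
  [FiniteDimensional ℝ V] [IsManifold 𝓘(ℝ, V) ∞ M] [T2Space M]

end Vale.Agent.P265
end
end

section

section

open Set Filter Manifold
open scoped ContDiff Topology

set_option maxSynthPendingDepth 3

namespace Vale.Agent.P265

variable {V : Type*} [NormedAddCommGroup V] [NormedSpace ℝ V] [FiniteDimensional ℝ V]
  {M : Type*} [TopologicalSpace M] [ChartedSpace V M] [IsManifold 𝓘(ℝ, V) ∞ M]

/-- A smooth map with injective differential, from an open subset of the model space, is a local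
parametrization. -/
theorem exists_localParam {P : V → M} {U : Set V} (hU : IsOpen U)
    (hP : ContMDiffOn 𝓘(ℝ, V) 𝓘(ℝ, V) ∞ P U)
    (hinj : ∀ z ∈ U, ∀ v, Dm 𝓘(ℝ, V) 𝓘(ℝ, V) P z v = 0 → v = 0) {z₀ : V} (hz₀ : z₀ ∈ U) :
    ∃ (e : M → V) (U' : Set V), z₀ ∈ U' ∧ U' ⊆ U ∧ IsLocalParam 𝓘(ℝ, V) P e U' := by
  set c := extChartAt 𝓘(ℝ, V) (P z₀) with hc
  have hp := isLocalParam_extChartAt (I := 𝓘(ℝ, V)) (P z₀)
  rw [← hc] at hp
  have hPat : ∀ z ∈ U, ContMDiffAt 𝓘(ℝ, V) 𝓘(ℝ, V) ∞ P z := fun z hz =>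
    hP.contMDiffAt (hU.mem_nhds hz)
  have hsrc : IsOpen c.source := isOpen_extChartAt_source (P z₀)
  have hcs : ∀ x ∈ c.source, ContMDiffAt 𝓘(ℝ, V) 𝓘(ℝ, V) ∞ c x := by
    intro x hx
    have := hp.contMDiffAt_inv (c.map_source hx)
    rwa [c.left_inv hx] at this
  set f : V → V := c ∘ P with hf
  set U₁ : Set V := U ∩ P ⁻¹' c.source with hU₁
  have hU₁o : IsOpen U₁ := hP.continuousOn.isOpen_inter_preimage hU hsrc
  have hz₁ : z₀ ∈ U₁ := ⟨hz₀, mem_extChartAt_source (P z₀)⟩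
  have hfs : ∀ z ∈ U₁, ContDiffAt ℝ ∞ f z := fun z hz =>
    ((hcs _ hz.2).comp z (hPat z hz.1)).contDiffAt
  have hfd : ∀ z ∈ U₁, HasFDerivAt f ((Dm 𝓘(ℝ, V) 𝓘(ℝ, V) c (P z)).comp
      (Dm 𝓘(ℝ, V) 𝓘(ℝ, V) P z)) z := fun z hz =>
    ((((hcs _ hz.2).mdifferentiableAt (by simp)).hasMFDerivAt).comp z
      (((hPat z hz.1).mdifferentiableAt (by simp)).hasMFDerivAt)).hasFDerivAt
  have hinj' : ∀ z ∈ U₁, Function.Injective (((Dm 𝓘(ℝ, V) 𝓘(ℝ, V) c (P z)).comp
      (Dm 𝓘(ℝ, V) 𝓘(ℝ, V) P z) : V →L[ℝ] V) : V →ₗ[ℝ] V) := by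
    intro z hz
    rw [← LinearMap.ker_eq_bot, LinearMap.ker_eq_bot']
    intro v hv
    have h1 : Dm 𝓘(ℝ, V) 𝓘(ℝ, V) c (P z) (Dm 𝓘(ℝ, V) 𝓘(ℝ, V) P z v) = 0 := hv
    refine hinj z hz.1 v ?_
    have hy : c (P z) ∈ c.target := c.map_source hz.2
    have h2 := hp.Dm_Dm_inv hy (Dm 𝓘(ℝ, V) 𝓘(ℝ, V) P z v)
    rw [c.left_inv hz.2, h1, map_zero] at h2
    exact h2.symm
  have hequiv : ∀ z ∈ U₁, ∃ A : V ≃L[ℝ] V, HasFDerivAt f (A : V →L[ℝ] V) z := by
    intro z hz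
    refine ⟨(LinearEquiv.ofInjectiveEndo _ (hinj' z hz)).toContinuousLinearEquiv, ?_⟩
    exact hfd z hz
  obtain ⟨A, hA⟩ := hequiv z₀ hz₁
  set Φ := (hfs z₀ hz₁).toOpenPartialHomeomorph f hA (by simp) with hΦ
  have hΦc : (Φ : V → V) = f := rfl
  have hz₂ : z₀ ∈ Φ.source := (hfs z₀ hz₁).mem_toOpenPartialHomeomorph_source hA (by simp)
  have hsymm : ∀ z ∈ Φ.source ∩ U₁, ContDiffAt ℝ ∞ Φ.symm (f z) := by
    intro z hz
    obtain ⟨A', hA'⟩ := hequiv z hz.2
    have h1 : Φ.symm (f z) = z := by rw [← hΦc]; exact Φ.left_inv hz.1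
    refine Φ.contDiffAt_symm (f₀' := A') (Φ.map_source hz.1) ?_ ?_
    · rw [h1]; exact hA'
    · rw [h1]; exact hfs z hz.2
  set U' : Set V := Φ.source ∩ U₁ with hU'
  have hU'o : IsOpen U' := Φ.open_source.inter hU₁o
  have himage : P '' U' = c.source ∩ c ⁻¹' (f '' U') := by
    ext x
    constructor
    · rintro ⟨z, hz, rfl⟩
      exact ⟨hz.2.2, z, hz, rfl⟩
    · rintro ⟨hx, z, hz, hzx⟩
      exact ⟨z, hz, c.injOn hz.2.2 hx hzx⟩
  have hfU' : IsOpen (f '' U') := by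
    rw [← hΦc]
    exact Φ.isOpen_image_of_subset_source hU'o inter_subset_left
  refine ⟨Φ.symm ∘ c, U', ⟨hz₂, hz₁⟩, fun z hz => hz.2.1, hU'o, ?_, ?_, ?_, ?_⟩
  · rw [himage]
    exact (continuousOn_extChartAt (P z₀)).isOpen_inter_preimage hsrc hfU'
  · exact hP.mono fun z hz => hz.2.1
  · rintro x ⟨z, hz, rfl⟩
    have h1 : ContMDiffAt 𝓘(ℝ, V) 𝓘(ℝ, V) ∞ Φ.symm (c (P z)) := (hsymm z hz).contMDiffAt
    exact (h1.comp (P z) (hcs _ hz.2.2)).contMDiffWithinAt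
  · intro z hz
    change Φ.symm (f z) = z
    rw [← hΦc]
    exact Φ.left_inv hz.1

end Vale.Agent.P265
end
end

section

section

open Set Filter Manifold
open scoped ContDiff Topology

set_option maxSynthPendingDepth 3
set_option linter.unusedSectionVars false

namespace Vale.Agent.P265.Flat

variable {V : Type*} [NormedAddCommGroup V] [NormedSpace ℝ V]
  {M : Type*} [TopologicalSpace M] [ChartedSpace V M]

/-- The data of a convex flat domain used in the proofs. -/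
structure Dom (om : FormField V M) (β : V →L[ℝ] V →L[ℝ] ℝ) (Cβ : ℝ) (U : Set V)
    (Λ : AddSubgroup V) (p : V → M) (P : Set V) (N : V → ℝ) (r : ℝ) : Prop where
  symp : Symp β Cβ
  isOpen : IsOpen U
  sc : U.Nonempty → SimplyConnectedSpace U
  translate : ∀ z ∈ U, ∀ l ∈ Λ, z + l ∈ U
  compact : IsCompact P
  cocompact : ∀ z ∈ U, ∃ l ∈ Λ, z + l ∈ P
  smooth : ContMDiffOn 𝓘(ℝ, V) 𝓘(ℝ, V) ∞ p U
  symplectic : ∀ z ∈ U, ∀ u v, pullback om p u v z = β u v
  fiber : ∀ z ∈ U, ∀ z' ∈ U, p z = p z' ↔ z' - z ∈ Λ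
  rpos : 0 < r
  NN_lip : ∀ a b, |N a - N b| ≤ ‖a - b‖
  qc : ∀ a b, N ((1 / 2 : ℝ) • (a + b)) ≤ max (N a) (N b)
  inv : ∀ l ∈ Λ, ∀ q, N (q + l) = N q
  mem : ∀ z : V, N z < r → z ∈ U

/-- The pullback of a function on `ℝ × M` vanishing outside `p '' U`. -/
noncomputable def lift {W : Type*} [Zero W] (U : Set V) (p : V → M)
    (g : ℝ × M → W) (q : ℝ × V) : W :=
  haveI := Classical.propDecidable (q.2 ∈ U)
  if q.2 ∈ U then g (q.1, p q.2) else 0

theorem lift_of_mem {W : Type*} [Zero W] {U : Set V} {p : V → M}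
    {g : ℝ × M → W} {t : ℝ} {z : V} (h : z ∈ U) : lift U p g (t, z) = g (t, p z) :=
  if_pos h

theorem lift_of_notMem {W : Type*} [Zero W] {U : Set V} {p : V → M}
    {g : ℝ × M → W} {t : ℝ} {z : V} (h : z ∉ U) : lift U p g (t, z) = 0 :=
  if_neg h

namespace Dom

variable {om : FormField V M} {β : V →L[ℝ] V →L[ℝ] ℝ} {Cβ : ℝ} {U : Set V} {Λ : AddSubgroup V}
  {p : V → M} {P : Set V} {N : V → ℝ} {r : ℝ}

section

variable (h : Dom om β Cβ U Λ p P N r)
include h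

theorem NN_continuous : Continuous N := by
  refine (LipschitzWith.of_dist_le_mul (K := 1) fun a b => ?_).continuous
  rw [Real.dist_eq, dist_eq_norm, NNReal.coe_one, one_mul]
  exact h.NN_lip a b

theorem NN_inv {l : V} (hl : l ∈ Λ) (z : V) : N (z + l) = N z := h.inv l hl z

theorem mem_of_NN {z : V} (hz : N z < r) : z ∈ U := h.mem z hz

theorem p_add {z l : V} (hz : z ∈ U) (hl : l ∈ Λ) : p (z + l) = p z :=
  ((h.fiber z hz _ (h.translate z hz l hl)).2 (by rwa [add_sub_cancel_left])).symm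

theorem NN_eq_of_p_eq {z z' : V} (hz : z ∈ U) (hz' : z' ∈ U) (he : p z = p z') :
    N z' = N z := by
  have h1 := (h.fiber z hz z' hz').1 he
  have h2 := h.NN_inv h1 z
  rwa [add_sub_cancel] at h2

theorem mem_image_lt {z : V} (hz : z ∈ U) {ρ : ℝ} (hρ : ρ ≤ r) :
    p z ∈ p '' {w | N w < ρ} ↔ N z < ρ := by
  constructor
  · rintro ⟨w, hw, hwz⟩
    have hw' : N w < ρ := hw
    rw [h.NN_eq_of_p_eq (h.mem_of_NN (hw'.trans_le hρ)) hz hwz]
    exact hw'
  · intro hz'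
    exact ⟨z, hz', rfl⟩

theorem mem_image_le {z : V} (hz : z ∈ U) {ρ : ℝ} (hρ : ρ < r) :
    p z ∈ p '' {w | N w ≤ ρ} ↔ N z ≤ ρ := by
  constructor
  · rintro ⟨w, hw, hwz⟩
    have hw' : N w ≤ ρ := hw
    rw [h.NN_eq_of_p_eq (h.mem_of_NN (hw'.trans_lt hρ)) hz hwz]
    exact hw'
  · intro hz'
    exact ⟨z, hz', rfl⟩

theorem contMDiffAt {z : V} (hz : z ∈ U) :
    ContMDiffAt 𝓘(ℝ, V) 𝓘(ℝ, V) ∞ p z :=
  h.smooth.contMDiffAt (h.isOpen.mem_nhds hz)

end

variable [FiniteDimensional ℝ V] [IsManifold 𝓘(ℝ, V) ∞ M]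

theorem inj (h : Dom om β Cβ U Λ p P N r) (hom : IsSymplectic om) {z : V} (hz : z ∈ U)
    (v : V) (hv : Dm 𝓘(ℝ, V) 𝓘(ℝ, V) p z v = 0) : v = 0 := by
  apply h.symp.injective
  rw [map_zero]
  refine ContinuousLinearMap.ext fun w => ?_
  rw [← h.symplectic z hz, ← pullForm_eq_pullback hom, pullForm_apply, hv, map_zero]
  rfl

theorem localParam (h : Dom om β Cβ U Λ p P N r) (hom : IsSymplectic om) {z : V}
    (hz : z ∈ U) : ∃ (e : M → V) (U' : Set V), z ∈ U' ∧ U' ⊆ U ∧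
      IsLocalParam 𝓘(ℝ, V) p e U' :=
  exists_localParam h.isOpen h.smooth (fun _ hz v hv => h.inj hom hz v hv) hz

theorem isOpen_image (h : Dom om β Cβ U Λ p P N r) (hom : IsSymplectic om) {O : Set V}
    (hO : IsOpen O) (hOU : O ⊆ U) : IsOpen (p '' O) := by
  rw [isOpen_iff_mem_nhds]
  rintro x ⟨z, hz, rfl⟩
  obtain ⟨e, U', hzU', hU'U, hp⟩ := h.localParam hom (hOU hz)
  have h1 := hp.mono (hp.isOpen.inter hO) inter_subset_left
  refine mem_of_superset (h1.isOpen_image.mem_nhds (mem_image_of_mem p ⟨hzU', hz⟩)) ?_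
  exact image_mono inter_subset_right

theorem isCompact_image (h : Dom om β Cβ U Λ p P N r) {ρ : ℝ} (hρ : ρ < r) :
    IsCompact (p '' {w | N w ≤ ρ}) := by
  have h1 : p '' {w | N w ≤ ρ} = p '' (P ∩ {w | N w ≤ ρ}) := by
    ext x
    constructor
    · rintro ⟨z, hz, rfl⟩
      have hz' : N z ≤ ρ := hz
      have hzU := h.mem_of_NN (hz'.trans_lt hρ)
      obtain ⟨l, hl, hlP⟩ := h.cocompact z hzU
      refine ⟨z + l, ⟨hlP, ?_⟩, h.p_add hzU hl⟩
      change N (z + l) ≤ ρ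
      rw [h.NN_inv hl]
      exact hz'
    · rintro ⟨z, hz, rfl⟩
      exact ⟨z, hz.2, rfl⟩
  rw [h1]
  refine (h.compact.inter_right (isClosed_le h.NN_continuous continuous_const)).image_of_continuousOn
    (h.smooth.continuousOn.mono ?_)
  rintro z ⟨-, hz⟩
  exact h.mem_of_NN (lt_of_le_of_lt hz hρ)

/-- Lifts of smooth functions with support in the domain are smooth. -/
theorem contDiff_lift (h : Dom om β Cβ U Λ p P N r) {W : Type*} [NormedAddCommGroup W]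
    [NormedSpace ℝ W] {g : ℝ × M → W}
    (hg : ContMDiff (𝓘(ℝ, ℝ).prod 𝓘(ℝ, V)) 𝓘(ℝ, W) ∞ g) {ρ : ℝ} (hρ : ρ < r)
    (hg0 : ∀ t, ∀ x ∉ p '' {w | N w < ρ}, g (t, x) = 0) :
    ContDiff ℝ ∞ (lift U p g) := by
  rw [contDiff_iff_contDiffAt]
  rintro ⟨t, z⟩
  by_cases hz : z ∈ U
  · have h1 : ContMDiffAt 𝓘(ℝ, ℝ × V) (𝓘(ℝ, ℝ).prod 𝓘(ℝ, V)) ∞
        (fun q : ℝ × V => (q.1, p q.2)) (t, z) :=
      (contDiff_fst.contMDiff.contMDiffAt).prodMk
        (ContMDiffAt.comp (I' := 𝓘(ℝ, V)) (t, z) (g := p) (f := fun q : ℝ × V => q.2)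
          (h.contMDiffAt hz) contDiff_snd.contMDiff.contMDiffAt)
    have h2 : ContDiffAt ℝ ∞ (fun q : ℝ × V => g (q.1, p q.2)) (t, z) :=
      (ContMDiffAt.comp (t, z) (hg.contMDiffAt) h1).contDiffAt
    refine h2.congr_of_eventuallyEq ?_
    have h3 : ∀ᶠ q : ℝ × V in 𝓝 (t, z), q.2 ∈ U :=
      (continuous_snd.tendsto (t, z)).eventually (h.isOpen.mem_nhds hz)
    filter_upwards [h3] with q hq
    exact lift_of_mem hq
  · have h1 : ρ < N z := by
      by_contra hcon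
      push Not at hcon
      exact hz (h.mem_of_NN (hcon.trans_lt hρ))
    have h2 : ∀ᶠ q : ℝ × V in 𝓝 (t, z), ρ < N q.2 :=
      ((h.NN_continuous.comp continuous_snd).tendsto (t, z)).eventually (lt_mem_nhds h1)
    have h3 : lift U p g =ᶠ[𝓝 (t, z)] fun _ => 0 := by
      filter_upwards [h2] with q hq
      by_cases hqU : q.2 ∈ U
      · rw [show q = (q.1, q.2) from rfl, lift_of_mem hqU]
        refine hg0 _ _ ?_
        rw [h.mem_image_lt hqU hρ.le]
        exact not_lt.2 hq.le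
      · exact lift_of_notMem hqU
    exact contDiffAt_const.congr_of_eventuallyEq h3

theorem isPer_lift (h : Dom om β Cβ U Λ p P N r) {W : Type*} [NormedAddCommGroup W]
    {g : ℝ × M → W} (hgt : ∀ t x, g (t + 1, x) = g (t, x)) {ρ : ℝ} (hρ : ρ < r)
    (hg0 : ∀ t, ∀ x ∉ p '' {w | N w < ρ}, g (t, x) = 0) :
    IsPer Λ {z | ρ < N z} (lift U p g) where
  time := by
    rintro ⟨t, z⟩
    rw [Prod.mk_add_mk, add_zero]
    by_cases hz : z ∈ U
    · rw [lift_of_mem hz, lift_of_mem hz, hgt]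
    · rw [lift_of_notMem hz, lift_of_notMem hz]
  space := by
    rintro l hl ⟨t, z⟩
    rw [Prod.mk_add_mk, add_zero]
    by_cases hz : z ∈ U
    · rw [lift_of_mem hz, lift_of_mem (h.translate z hz l hl), h.p_add hz hl]
    · have hz' : z + l ∉ U := by
        intro hcon
        have := h.translate _ hcon (-l) (neg_mem hl)
        rw [add_neg_cancel_right] at this
        exact hz this
      rw [lift_of_notMem hz, lift_of_notMem hz']
  zero := by
    rintro ⟨t, z⟩ hz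
    have hz' : ρ < N z := hz
    by_cases hzU : z ∈ U
    · rw [lift_of_mem hzU]
      refine hg0 _ _ ?_
      rw [h.mem_image_lt hzU hρ.le]
      exact not_lt.2 hz'.le
    · exact lift_of_notMem hzU

theorem cocompact' (h : Dom om β Cβ U Λ p P N r) {ρ : ℝ} (hρ : ρ < r) :
    ∀ z ∉ {z | ρ < N z}, ∃ l ∈ Λ, z + l ∈ P := by
  intro z hz
  have hz' : N z ≤ ρ := not_lt.1 hz
  exact h.cocompact z (h.mem_of_NN (hz'.trans_lt hρ))

end Dom

end Vale.Agent.P265.Flat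
end
end

section

section

open Set Filter Manifold
open scoped ContDiff Topology

set_option maxSynthPendingDepth 3
set_option linter.unusedSectionVars false

namespace Vale.Agent.P265.Flat

variable {V : Type*} [NormedAddCommGroup V] [NormedSpace ℝ V]
  {M : Type*} [TopologicalSpace M] [ChartedSpace V M]

/-- A smooth cutoff function on `M` adapted to a flat product domain. -/
structure Cut (p : V → M) (N : V → ℝ) (η : M → ℝ) (ρ ρ' : ℝ) : Prop where
  smooth : ContMDiff 𝓘(ℝ, V) 𝓘(ℝ, ℝ) ∞ η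
  one : ∀ x ∈ p '' {w | N w ≤ ρ}, η x = 1
  zero : ∀ x ∉ p '' {w | N w < ρ'}, η x = 0
  mem : ∀ x, η x ∈ Icc (0 : ℝ) 1

/-- The cut-off Hamiltonian. -/
def gH (η : M → ℝ) (H : ℝ → M → ℝ) (c : ℝ) (q : ℝ × M) : ℝ := η q.2 * (H q.1 q.2 - c)

/-- The Hamiltonian extended to the model space. -/
noncomputable def GH (U : Set V) (p : V → M) (η : M → ℝ) (H : ℝ → M → ℝ) (c : ℝ)
    (q : ℝ × V) : ℝ := c + lift U p (gH η H c) q

variable [FiniteDimensional ℝ V]

/-- The Hamiltonian vector field of the extended Hamiltonian. -/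
noncomputable def XH (β : V →L[ℝ] V →L[ℝ] ℝ) (U : Set V) (p : V → M) (η : M → ℝ) (H : ℝ → M → ℝ) (c : ℝ)
    (q : ℝ × V) : V :=
  sgrad β ((fderiv ℝ (lift U p (gH η H c)) q).comp (ContinuousLinearMap.inr ℝ ℝ V))

variable {om : FormField V M} {β : V →L[ℝ] V →L[ℝ] ℝ} {Cβ : ℝ} {U : Set V} {Λ : AddSubgroup V}
  {p : V → M} {P : Set V} {N : V → ℝ} {r : ℝ}
  {η : M → ℝ} {ρ ρ' : ℝ} {H : ℝ → M → ℝ} {c : ℝ} {φ : ℝ → M → M}

variable [IsManifold 𝓘(ℝ, V) ∞ M]

/-- Existence of cutoff functions. -/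
theorem Dom.exists_cut [T2Space M] [CompactSpace M] (h : Dom om β Cβ U Λ p P N r)
    (hom : IsSymplectic om) (hρ : ρ < ρ') (hρ' : ρ' ≤ r) : ∃ η : M → ℝ, Cut p N η ρ ρ' := by
  have h1 : IsClosed (p '' {w | N w < ρ'})ᶜ :=
    (h.isOpen_image hom (isOpen_lt h.NN_continuous continuous_const)
      fun w hw => h.mem_of_NN (lt_of_lt_of_le hw hρ')).isClosed_compl
  have h2 : IsClosed (p '' {w | N w ≤ ρ}) :=
    (h.isCompact_image (hρ.trans_le hρ')).isClosed
  have hd : Disjoint (p '' {w | N w < ρ'})ᶜ (p '' {w | N w ≤ ρ}) := by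
    rw [disjoint_compl_left_iff_subset]
    exact image_mono fun w hw => lt_of_le_of_lt hw hρ
  obtain ⟨f, hf0, hf1, hf⟩ := exists_contMDiffMap_zero_one_of_isClosed (n := ⊤)
    𝓘(ℝ, V) h1 h2 hd
  exact ⟨f, f.contMDiff, fun x hx => hf1 hx, fun x hx => hf0 hx, hf⟩

section

variable (h : Dom om β Cβ U Λ p P N r) (hη : Cut p N η ρ ρ') (hρ' : ρ' < r)
  (hH : IsPeriodicHamiltonian V H)
include h hη hρ' hH

theorem contDiff_lift_gH : ContDiff ℝ ∞ (lift U p (gH η H c)) := by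
  refine h.contDiff_lift ?_ hρ' ?_
  · have h1 : ContMDiff (𝓘(ℝ, ℝ).prod 𝓘(ℝ, V)) 𝓘(ℝ, ℝ) ∞ (fun q : ℝ × M => η q.2) :=
      hη.smooth.comp contMDiff_snd
    exact h1.mul (hH.smooth.sub contMDiff_const)
  · intro t x hx
    simp only [gH, hη.zero x hx, zero_mul]

theorem isPer_lift_gH : IsPer Λ {z | ρ' < N z} (lift U p (gH η H c)) := by
  refine h.isPer_lift ?_ hρ' ?_
  · intro t x
    simp only [gH, hH.periodic]
  · intro t x hx
    simp only [gH, hη.zero x hx, zero_mul]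

theorem contDiff_XH : ContDiff ℝ ∞ (XH β U p η H c) := by
  have h1 := contDiff_lift_gH (c := c) h hη hρ' hH
  have h2 : ContDiff ℝ ∞ (fderiv ℝ (lift U p (gH η H c))) := h1.fderiv_right (by norm_cast)
  exact (ContinuousLinearMap.contDiff (sgrad β)).comp (h2.clm_comp contDiff_const)

theorem isPer_XH : IsPer Λ {z | ρ' < N z} (XH β U p η H c) := by
  have h1 := (isPer_lift_gH (c := c) h hη hρ' hH).fderiv_per
    (isOpen_lt continuous_const h.NN_continuous)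
  constructor
  · intro q
    simp only [XH, h1.time q]
  · intro l hl q
    simp only [XH, h1.space l hl q]
  · intro q hq
    simp only [XH, h1.zero q hq, ContinuousLinearMap.zero_comp, map_zero]

theorem niceField_XH : ∃ L, NiceField (XH β U p η H c) L :=
  (isPer_XH h hη hρ' hH).niceField (contDiff_XH h hη hρ' hH)
    (isOpen_lt continuous_const h.NN_continuous) h.compact (h.cocompact' hρ')

theorem bounded_GH : ∃ C, ∀ q, |GH U p η H c q| ≤ C := by
  obtain ⟨C, hC⟩ := (isPer_lift_gH (c := c) h hη hρ' hH).bounded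
    (contDiff_lift_gH h hη hρ' hH).continuous h.compact (h.cocompact' hρ')
  refine ⟨|c| + C, fun q => ?_⟩
  exact (abs_add_le _ _).trans (add_le_add le_rfl (hC q))

theorem XH_periodic (t : ℝ) (z : V) (l : V) (hl : l ∈ Λ) :
    XH β U p η H c (t, z + l) = XH β U p η H c (t, z) := by
  have := (isPer_XH (c := c) h hη hρ' hH).space l hl (t, z)
  rwa [Prod.mk_add_mk, add_zero] at this

theorem GH_periodic (t : ℝ) (z : V) (l : V) (hl : l ∈ Λ) :
    GH U p η H c (t, z + l) = GH U p η H c (t, z) := by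
  have := (isPer_lift_gH (c := c) h hη hρ' hH).space l hl (t, z)
  rw [Prod.mk_add_mk, add_zero] at this
  rw [GH, GH, this]

theorem hasFDerivAt_GH (t : ℝ) (w : V) :
    HasFDerivAt (fun w => GH U p η H c (t, w)) (β (XH β U p η H c (t, w))) w := by
  have h1 : HasFDerivAt (lift U p (gH η H c)) (fderiv ℝ (lift U p (gH η H c)) (t, w)) (t, w) :=
    ((contDiff_lift_gH h hη hρ' hH).differentiable (by simp) _).hasFDerivAt
  have h2 : HasFDerivAt (fun y : V => (t, y)) (ContinuousLinearMap.inr ℝ ℝ V) w :=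
    hasFDerivAt_prodMk_right t w
  have h3 := (HasFDerivAt.comp w h1 h2).const_add c
  have h4 : β (XH β U p η H c (t, w)) =
      (fderiv ℝ (lift U p (gH η H c)) (t, w)).comp (ContinuousLinearMap.inr ℝ ℝ V) := by
    rw [XH, h.symp.beta_sgrad]
  rw [h4]
  exact h3

end

section

variable (h : Dom om β Cβ U Λ p P N r) (hη : Cut p N η ρ ρ')
include h hη

theorem GH_eq {t : ℝ} {w : V} (hρr : ρ < r) (hw : N w ≤ ρ) :
    GH U p η H c (t, w) = H t (p w) := by
  have hwU : w ∈ U := h.mem_of_NN (hw.trans_lt hρr)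
  rw [GH, lift_of_mem hwU, gH, hη.one _ ((h.mem_image_le hwU hρr).2 hw)]
  ring

theorem XH_eq (hρ' : ρ' < r) (hρρ' : ρ < ρ') (hH : IsPeriodicHamiltonian V H) {t : ℝ}
    {w : V} (hw : N w < ρ) : XH β U p η H c (t, w) = sgrad β (fderiv ℝ (H t ∘ p) w) := by
  have h1 := hasFDerivAt_GH (c := c) h hη hρ' hH t w
  have h2 : (H t ∘ p) =ᶠ[𝓝 w] fun w => GH U p η H c (t, w) := by
    filter_upwards [(h.NN_continuous.tendsto w).eventually (gt_mem_nhds hw)] with w' hw'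
    exact (GH_eq h hη (hρρ'.trans hρ') hw'.le).symm
  have h3 := (h1.congr_of_eventuallyEq h2).fderiv
  refine (h.symp.sgrad_eq fun v => ?_).symm
  rw [h3]

end

/-- The barrier lemma. -/
theorem Dom.barrier (h : Dom om β Cβ U Λ p P N r) {X : ℝ × V → V} {ε : ℝ}
    (hε : 0 ≤ ε)
    (hX : ∀ t w, 0 < N w → ‖X (t, w)‖ ≤ ε) {y : ℝ → V} (hy : IsSol X y) {ρ₀ : ℝ}
    (hρ₀ : 0 ≤ ρ₀) (h0 : N (y 0) ≤ ρ₀) {t : ℝ} (ht : t ∈ Icc (0 : ℝ) 1) :
    N (y t) ≤ ρ₀ + ε := by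
  have hc : ContinuousOn (fun t => N (y t)) (Icc 0 1) :=
    h.NN_continuous.comp_continuousOn hy.continuousOn
  have key : ∀ σ > 0, Icc (0 : ℝ) 1 ⊆ {t | N (y t) ≤ ρ₀ + σ + ε * t} := by
    intro σ hσ
    refine IsClosed.Icc_subset_of_forall_mem_nhdsWithin ?_ ?_ ?_
    · have h1 : ContinuousOn (fun t => N (y t) - (ρ₀ + σ + ε * t)) (Icc 0 1) :=
        hc.sub (by fun_prop)
      have h2 := h1.preimage_isClosed_of_isClosed isClosed_Icc (isClosed_Iic (a := (0 : ℝ)))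
      convert h2 using 1
      ext t
      simp only [mem_inter_iff, mem_preimage, mem_Iic, sub_nonpos]
      exact and_comm
    · change N (y 0) ≤ ρ₀ + σ + ε * 0
      linarith only [h0, hσ]
    · rintro t₀ ⟨ht₀, ht₀'⟩
      have ht₀1 : N (y t₀) ≤ ρ₀ + σ + ε * t₀ := ht₀
      have hmem : t₀ ∈ Icc (0 : ℝ) 1 := Ico_subset_Icc_self ht₀'
      have hyc : ContinuousAt y t₀ := (hy t₀ hmem).continuousAt
      have hNc : ContinuousAt (fun t => N (y t)) t₀ :=
        ContinuousAt.comp (g := N) h.NN_continuous.continuousAt hyc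
      by_cases hpos : 0 < N (y t₀)
      · have h1 : ∀ᶠ t in 𝓝 t₀, 0 < N (y t) := hNc.tendsto.eventually (lt_mem_nhds hpos)
        obtain ⟨δ, hδ, hball⟩ := Metric.eventually_nhds_iff_ball.1 h1
        have h2 : ∀ t ∈ Ioo t₀ (min (t₀ + δ) 1), N (y t) ≤ ρ₀ + σ + ε * t := by
          intro t ht
          have htδ : t < t₀ + δ := ht.2.trans_le (min_le_left _ _)
          have ht1 : t < 1 := ht.2.trans_le (min_le_right _ _)
          have hsub : Icc t₀ t ⊆ Icc 0 1 := Icc_subset_Icc hmem.1 ht1.le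
          have h3 := Convex.norm_image_sub_le_of_norm_hasDerivWithin_le (f := y)
            (f' := fun t => X (t, y t)) (s := Icc t₀ t) (x := t₀) (y := t) (C := ε)
            (fun x hx => (hy x (hsub hx)).hasDerivWithinAt)
            (fun x hx => hX _ _ (hball x (by
              rw [Metric.mem_ball, Real.dist_eq, abs_of_nonneg (by linarith [hx.1])]
              linarith [hx.2])))
            (convex_Icc _ _) ⟨le_rfl, ht.1.le⟩ ⟨ht.1.le, le_rfl⟩
          have h4 := (abs_le.1 (h.NN_lip (y t) (y t₀))).2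
          rw [Real.norm_of_nonneg (by linarith [ht.1])] at h3
          linarith
        have h3 : min (t₀ + δ) 1 > t₀ := lt_min (by linarith) ht₀'.2
        exact mem_of_superset (Ioo_mem_nhdsGT h3) h2
      · push Not at hpos
        have h1 : ∀ᶠ t in 𝓝 t₀, N (y t) < σ :=
          hNc.tendsto.eventually (gt_mem_nhds (by linarith))
        have h2 : ∀ᶠ t in 𝓝[>] t₀, N (y t) < σ := h1.filter_mono nhdsWithin_le_nhds
        have h3 : ∀ᶠ t in 𝓝[>] t₀, t₀ < t := self_mem_nhdsWithin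
        filter_upwards [h2, h3] with t ht1 ht2
        have h4 : 0 ≤ ε * t := mul_nonneg hε (by linarith [hmem.1])
        change N (y t) ≤ ρ₀ + σ + ε * t
        linarith
  refine le_of_forall_pos_le_add fun σ hσ => ?_
  have h1 : N (y t) ≤ ρ₀ + σ + ε * t := key σ hσ ht
  have h2 : ε * t ≤ ε := by nlinarith only [hε, ht.2]
  linarith

/-- The solutions of the extended system project to orbits of the flow. -/
theorem flow_eq [T2Space M] (h : Dom om β Cβ U Λ p P N r) (hom : IsSymplectic om)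
    (hη : Cut p N η ρ ρ') (hρρ' : ρ < ρ') (hρ' : ρ' < r)
    (hH : IsPeriodicHamiltonian V H) (hφ : IsHamiltonianFlow om H φ) {L : ℝ}
    (hL : NiceField (XH β U p η H c) L) {y : ℝ → V} (hy : IsSol (XH β U p η H c) y)
    (hyρ : ∀ t ∈ Icc (0 : ℝ) 1, N (y t) < ρ) :
    ∀ t ∈ Icc (0 : ℝ) 1, p (y t) = φ t (p (y 0)) := by
  have hρr : ρ < r := hρρ'.trans hρ'
  set x := p (y 0) with hx
  have hyU : ∀ t ∈ Icc (0 : ℝ) 1, y t ∈ U := fun t ht => h.mem_of_NN ((hyρ t ht).trans hρr)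
  have hpc : ContinuousOn (fun t => p (y t)) (Icc 0 1) :=
    h.smooth.continuousOn.comp hy.continuousOn hyU
  have hsub : Icc (0 : ℝ) 1 ⊆ {t | p (y t) = φ t x} := by
    refine IsClosed.Icc_subset_of_forall_mem_nhdsWithin ?_ ?_ ?_
    · have h1 : ContinuousOn (fun t => (p (y t), φ t x)) (Icc 0 1) :=
        hpc.prodMk (hφ.continuous_time x).continuousOn
      have h2 := h1.preimage_isClosed_of_isClosed isClosed_Icc isClosed_diagonal
      convert h2 using 1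
      ext t
      simp only [mem_inter_iff, mem_preimage, mem_diagonal_iff]
      exact and_comm
    · change p (y 0) = φ 0 x
      rw [hφ.zero]
    · rintro t₀ ⟨ht₀, ht₀'⟩
      have ht₀1 : p (y t₀) = φ t₀ x := ht₀
      have hmem : t₀ ∈ Icc (0 : ℝ) 1 := Ico_subset_Icc_self ht₀'
      set z₀ := y t₀ with hz₀
      obtain ⟨e, U', hzU', hU'U, hp⟩ := h.localParam hom (hyU t₀ hmem)
      -- the flow line in the chart
      have hφc : ContinuousAt (fun t => φ t x) t₀ := (hφ.continuous_time x).continuousAt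
      have hmemU' : φ t₀ x ∈ p '' U' := by rw [← ht₀1]; exact mem_image_of_mem p hzU'
      have h1 : ∀ᶠ t in 𝓝 t₀, φ t x ∈ p '' U' :=
        hφc.tendsto.eventually (hp.isOpen_image.mem_nhds hmemU')
      have hec : ContinuousAt (fun t => e (φ t x)) t₀ := by
        have h2 : ContinuousAt e (φ t₀ x) := by
          rw [← ht₀1]
          exact (hp.contMDiffAt_inv hzU').continuousAt
        exact ContinuousAt.comp (f := fun t => φ t x) h2 hφc
      have he0 : e (φ t₀ x) = z₀ := by rw [← ht₀1, hp.left_inv z₀ hzU']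
      have h2 : ∀ᶠ t in 𝓝 t₀, N (e (φ t x)) < ρ := by
        have h3 : ContinuousAt (fun t => N (e (φ t x))) t₀ :=
          ContinuousAt.comp (g := N) h.NN_continuous.continuousAt hec
        refine h3.tendsto.eventually (gt_mem_nhds ?_)
        rw [he0]
        exact hyρ t₀ hmem
      obtain ⟨δ, hδ, hball⟩ := Metric.eventually_nhds_iff_ball.1 (h1.and h2)
      have hder : ∀ t ∈ Metric.ball t₀ δ,
          HasDerivAt (fun t => e (φ t x)) (XH β U p η H c (t, e (φ t x))) t := by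
        intro t ht
        obtain ⟨⟨z, hz, hzt⟩, h3⟩ := hball t ht
        have hez : e (φ t x) = z := by rw [← hzt, hp.left_inv z hz]
        obtain ⟨u, hu1, -, hu2⟩ := hφ.param hom hH hp hz hzt.symm
        have hu3 : u = XH β U p η H c (t, e (φ t x)) := by
          rw [XH_eq h hη hρ' hρρ' hH h3, hez]
          refine (h.symp.sgrad_eq fun v => ?_).symm
          rw [← hu2 v, pullForm_eq_pullback, h.symplectic z (hU'U hz)]
        rw [← hu3]
        exact hu1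
      set b := min (t₀ + δ / 2) 1 with hb
      have hbt : t₀ < b := lt_min (by linarith only [hδ]) ht₀'.2
      have hmemb : ∀ t ∈ Icc t₀ b, t ∈ Metric.ball t₀ δ ∧ t ∈ Icc (0 : ℝ) 1 := by
        intro t ht
        have ht1 : t ≤ t₀ + δ / 2 := ht.2.trans (min_le_left _ _)
        have ht2 : t ≤ 1 := ht.2.trans (min_le_right _ _)
        refine ⟨?_, by linarith only [hmem.1, ht.1], ht2⟩
        rw [Metric.mem_ball, Real.dist_eq, abs_of_nonneg (by linarith only [ht.1])]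
        linarith only [hδ, ht1]
      have hzero : ∀ t ∈ Icc t₀ b, e (φ t x) - y t = 0 := by
        refine eq_zero_of_abs_deriv_le_mul_abs_self_of_eq_zero_right (K := L)
          (f := fun t => e (φ t x) - y t)
          (f' := fun t => XH β U p η H c (t, e (φ t x)) - XH β U p η H c (t, y t)) ?_ ?_ ?_ ?_
        · intro t ht
          obtain ⟨h3, h4⟩ := hmemb t ht
          exact ((hder t h3).sub (hy t h4)).continuousAt.continuousWithinAt
        · intro t ht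
          obtain ⟨h3, h4⟩ := hmemb t (Ico_subset_Icc_self ht)
          exact ((hder t h3).sub (hy t h4)).hasDerivWithinAt
        · rw [he0, sub_self]
        · intro t ht
          exact hL.lip_space _ _ _
      have hres : Ioo t₀ b ⊆ {t | p (y t) = φ t x} := by
        intro t ht
        obtain ⟨h3, -⟩ := hmemb t (Ioo_subset_Icc_self ht)
        obtain ⟨h4, -⟩ := hball t h3
        change p (y t) = φ t x
        rw [← sub_eq_zero.1 (hzero t (Ioo_subset_Icc_self ht)), hp.right_inv h4]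
      exact mem_of_superset (Ioo_mem_nhdsGT hbt) hres
  exact fun t ht => hsub ht

end Vale.Agent.P265.Flat
end
end

section

section

open Set Filter Manifold
open scoped ContDiff Topology

set_option maxSynthPendingDepth 3
set_option linter.unusedSectionVars false

namespace Vale.Agent.P265.Flat

variable {V : Type*} [NormedAddCommGroup V] [NormedSpace ℝ V] [FiniteDimensional ℝ V]
  {M : Type*} [TopologicalSpace M] [ChartedSpace V M] [IsManifold 𝓘(ℝ, V) ∞ M]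
  {om : FormField V M} {β : V →L[ℝ] V →L[ℝ] ℝ} {Cβ : ℝ} {U : Set V} {Λ : AddSubgroup V}
  {p : V → M} {P : Set V} {N : V → ℝ} {r : ℝ}
  {η : M → ℝ} {ρ ρ' : ℝ} {H : ℝ → M → ℝ} {c : ℝ} {φ : ℝ → M → M}

theorem Dom.contDiffAt_comp (h : Dom om β Cβ U Λ p P N r) {f : M → ℝ}
    (hf : ContMDiff 𝓘(ℝ, V) 𝓘(ℝ, ℝ) ∞ f) {z : V} (hz : z ∈ U) :
    ContDiffAt ℝ ∞ (f ∘ p) z :=
  ((hf (p z)).comp z (h.contMDiffAt hz)).contDiffAt

/-- The derivative of a cutoff function in the flat coordinates is bounded. -/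
theorem Dom.exists_bound_cut (h : Dom om β Cβ U Λ p P N r) (hη : Cut p N η ρ ρ')
    (hρ' : ρ' < r) : ∃ C, 0 ≤ C ∧ ∀ z ∈ U, ‖fderiv ℝ (η ∘ p) z‖ ≤ C := by
  have hs : ContDiff ℝ ∞ (lift U p (fun q : ℝ × M => η q.2)) :=
    h.contDiff_lift (hη.smooth.comp contMDiff_snd) hρ' (fun t x hx => hη.zero x hx)
  have hper : IsPer Λ {z | ρ' < N z} (lift U p (fun q : ℝ × M => η q.2)) :=
    h.isPer_lift (fun t x => rfl) hρ' (fun t x hx => hη.zero x hx)
  have hs1 : ContDiff ℝ ∞ (fderiv ℝ (lift U p (fun q : ℝ × M => η q.2))) :=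
    hs.fderiv_right (by norm_cast)
  obtain ⟨C, hC⟩ := (hper.fderiv_per (isOpen_lt continuous_const h.NN_continuous)).bounded
    hs1.continuous h.compact (h.cocompact' hρ')
  refine ⟨max C 0, le_max_right _ _, fun z hz => le_trans ?_ (le_max_left _ _)⟩
  have h1 : HasFDerivAt (lift U p (fun q : ℝ × M => η q.2))
      (fderiv ℝ (lift U p (fun q : ℝ × M => η q.2)) (0, z)) (0, z) :=
    ((hs.differentiable (by simp)) _).hasFDerivAt
  have h2 : HasFDerivAt (fun y : V => ((0 : ℝ), y)) (ContinuousLinearMap.inr ℝ ℝ V) z :=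
    hasFDerivAt_prodMk_right 0 z
  have h3 := HasFDerivAt.comp z h1 h2
  have h4 : (η ∘ p) =ᶠ[𝓝 z] (lift U p (fun q : ℝ × M => η q.2)) ∘ fun y : V => ((0 : ℝ), y) := by
    filter_upwards [h.isOpen.mem_nhds hz] with z' hz'
    simp only [Function.comp_apply]
    exact (lift_of_mem (g := fun q : ℝ × M => η q.2) hz').symm
  rw [(h3.congr_of_eventuallyEq h4).fderiv]
  calc ‖(fderiv ℝ (lift U p (fun q : ℝ × M => η q.2)) (0, z)).comp
        (ContinuousLinearMap.inr ℝ ℝ V)‖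
      ≤ ‖fderiv ℝ (lift U p (fun q : ℝ × M => η q.2)) (0, z)‖ *
        ‖ContinuousLinearMap.inr ℝ ℝ V‖ := ContinuousLinearMap.opNorm_comp_le _ _
    _ ≤ C * 1 := mul_le_mul (hC _) (ContinuousLinearMap.norm_inr_le_one ℝ ℝ V)
        (ContinuousLinearMap.opNorm_nonneg _)
        ((ContinuousLinearMap.opNorm_nonneg _).trans (hC (0, z)))
    _ = C := mul_one C

/-- The extended Hamiltonian vector field is small outside the core. -/
theorem norm_XH_le (h : Dom om β Cβ U Λ p P N r) (hη : Cut p N η ρ ρ')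
    (hρ' : ρ' < r) (hH : IsPeriodicHamiltonian V H) {K : M → ℝ}
    (hK : ContMDiff 𝓘(ℝ, V) 𝓘(ℝ, ℝ) ∞ K) {δ C : ℝ} (hC0 : 0 ≤ C) (hδ : 0 ≤ δ)
    (hC : ∀ z ∈ U, ‖fderiv ℝ (η ∘ p) z‖ ≤ C)
    (hHK : ∀ z ∈ U, 0 < N z → ∀ t, H t (p z) = K (p z))
    (hK0 : ∀ z ∈ U, 0 < N z → |K (p z) - c| ≤ δ)
    (hK1 : ∀ z ∈ U, 0 < N z → ‖fderiv ℝ (K ∘ p) z‖ ≤ δ) (t : ℝ) (w : V)
    (hw : 0 < N w) : ‖XH β U p η H c (t, w)‖ ≤ Cβ * ((1 + C) * δ) := by
  by_cases hwU : w ∈ U
  · have h1 := hasFDerivAt_GH (c := c) h hη hρ' hH t w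
    have h2 : (fun w => GH U p η H c (t, w)) =ᶠ[𝓝 w]
        fun w => c + (η ∘ p) w * ((K ∘ p) w - c) := by
      filter_upwards [h.isOpen.mem_nhds hwU,
        (h.NN_continuous.tendsto w).eventually (lt_mem_nhds hw)] with w' hw' hw''
      rw [GH, lift_of_mem hw', gH, hHK w' hw' hw'']
      rfl
    have hηd : HasFDerivAt (η ∘ p) (fderiv ℝ (η ∘ p) w) w :=
      ((h.contDiffAt_comp hη.smooth hwU).differentiableAt (by simp)).hasFDerivAt
    have hKd : HasFDerivAt (K ∘ p) (fderiv ℝ (K ∘ p) w) w :=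
      ((h.contDiffAt_comp hK hwU).differentiableAt (by simp)).hasFDerivAt
    have h3 := (hηd.mul (hKd.sub_const c)).const_add c
    have h4 := h1.unique (h3.congr_of_eventuallyEq h2)
    have h5 : XH β U p η H c (t, w) = sgrad β ((η ∘ p) w • fderiv ℝ (K ∘ p) w +
        ((K ∘ p) w - c) • fderiv ℝ (η ∘ p) w) := by
      refine (h.symp.sgrad_eq fun v => ?_).symm
      rw [← h4]
    rw [h5]
    refine (h.symp.norm_sgrad_le _).trans (mul_le_mul_of_nonneg_left ?_ h.symp.nonneg)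
    refine (ContinuousLinearMap.opNorm_add_le _ _).trans ?_
    have h6 := hη.mem (p w)
    have h7 : ‖(η ∘ p) w • fderiv ℝ (K ∘ p) w‖ ≤ 1 * δ := by
      refine (ContinuousLinearMap.opNorm_smul_le _ _).trans ?_
      refine mul_le_mul ?_ (hK1 w hwU hw) (ContinuousLinearMap.opNorm_nonneg _) zero_le_one
      rw [Real.norm_eq_abs, Function.comp_apply, abs_of_nonneg h6.1]
      exact h6.2
    have h8 : ‖((K ∘ p) w - c) • fderiv ℝ (η ∘ p) w‖ ≤ δ * C := by
      refine (ContinuousLinearMap.opNorm_smul_le _ _).trans ?_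
      exact mul_le_mul (hK0 w hwU hw) (hC w hwU) (ContinuousLinearMap.opNorm_nonneg _) hδ
    linarith only [h7, h8]
  · have h1 : ρ' < N w := by
      by_contra hcon
      push Not at hcon
      exact hwU (h.mem_of_NN (hcon.trans_lt hρ'))
    rw [(isPer_XH (c := c) h hη hρ' hH).zero (t, w) h1, norm_zero]
    have h2 := h.symp.nonneg
    (clear * - h2 hC0 hδ; positivity)

end Vale.Agent.P265.Flat
end
end

section

section

open Set Filter Manifold
open scoped ContDiff Topology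

set_option maxSynthPendingDepth 3
set_option linter.unusedSectionVars false

namespace Vale.Agent.P265.Flat

variable {V : Type*} [NormedAddCommGroup V] [NormedSpace ℝ V] [FiniteDimensional ℝ V]
  {M : Type*} [TopologicalSpace M] [ChartedSpace V M] [IsManifold 𝓘(ℝ, V) ∞ M]
  {om : FormField V M} {β : V →L[ℝ] V →L[ℝ] ℝ} {Cβ : ℝ} {U : Set V} {Λ : AddSubgroup V}
  {p : V → M} {P : Set V} {N : V → ℝ} {r : ℝ}
  {η : M → ℝ} {ρ ρ' : ℝ} {H : ℝ → M → ℝ} {c : ℝ} {φ : ℝ → M → M}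

/-- Linear algebra: a nondegenerate fixed point of a differentiable map. -/
theorem strict_nondeg {V : Type*} [NormedAddCommGroup V] [NormedSpace ℝ V] [FiniteDimensional ℝ V]
    {ψ : V → V} {A : V →L[ℝ] V} {s : V} (hψ : HasStrictFDerivAt ψ A s)
    (hA : ∀ v, A v = v → v = 0) :
    ∃ c > 0, ∃ δ > 0, ∀ a b, ‖a - s‖ < δ → ‖b - s‖ < δ →
      c * ‖a - b‖ ≤ ‖(a - b) - (ψ a - ψ b)‖ := by
  set B : V →L[ℝ] V := ContinuousLinearMap.id ℝ V - A with hB
  have hker : LinearMap.ker (B : V →ₗ[ℝ] V) = ⊥ := by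
    rw [LinearMap.ker_eq_bot']
    intro v hv
    have hv' : v - A v = 0 := hv
    exact hA v (sub_eq_zero.1 hv').symm
  obtain ⟨K, hK, hanti⟩ := LinearMap.exists_antilipschitzWith (B : V →ₗ[ℝ] V) hker
  have hK' : (0 : ℝ) < K := by exact_mod_cast hK
  have h1 := hψ.isLittleO.def (c := 1 / (2 * K)) (by positivity)
  obtain ⟨δ, hδ, hball⟩ := Metric.eventually_nhds_iff_ball.1 h1
  refine ⟨1 / (2 * K), by positivity, δ, hδ, fun a b ha hb => ?_⟩
  have h2 : ‖ψ a - ψ b - A (a - b)‖ ≤ 1 / (2 * K) * ‖a - b‖ := by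
    refine hball (a, b) ?_
    rw [Metric.mem_ball, Prod.dist_eq]
    exact max_lt (by rwa [dist_eq_norm]) (by rwa [dist_eq_norm])
  have h3 : ‖a - b‖ ≤ K * ‖(a - b) - A (a - b)‖ := by
    have := hanti.le_mul_dist (a - b) 0
    simpa [dist_zero_right, hB] using this
  have h4 : ‖(a - b) - A (a - b)‖ ≤ ‖(a - b) - (ψ a - ψ b)‖ + ‖ψ a - ψ b - A (a - b)‖ := by
    have := norm_add_le ((a - b) - (ψ a - ψ b)) (ψ a - ψ b - A (a - b))
    rwa [sub_add_sub_cancel] at this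
  have h5 : ‖a - b‖ / K ≤ ‖(a - b) - A (a - b)‖ := by
    rw [div_le_iff₀ hK']; linarith only [h3]
  have h6 : ‖a - b‖ / K = 1 / (2 * K) * ‖a - b‖ + 1 / (2 * K) * ‖a - b‖ := by
    field_simp; ring
  linarith only [h2, h4, h5, h6]

/-- Nondegeneracy of the fixed points of the extended system. -/
theorem nondeg_at [T2Space M] (h : Dom om β Cβ U Λ p P N r) (hom : IsSymplectic om)
    (hη : Cut p N η ρ ρ') (hρρ' : ρ < ρ') (hρ' : ρ' < r)
    (hH : IsPeriodicHamiltonian V H) (hφ : IsHamiltonianFlow om H φ)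
    (hnd : NondegFixedPoints V (φ 1)) {L : ℝ}
    (hL : NiceField (XH β U p η H c) L) {y : V → ℝ → V}
    (hy : ∀ z, y z 0 = z ∧ IsSol (XH β U p η H c) (y z)) {ε : ℝ} (hε : 0 ≤ ε)
    (hX : ∀ t w, 0 < N w → ‖XH β U p η H c (t, w)‖ ≤ ε) {ρ₁ : ℝ} (hρ₁ : 0 ≤ ρ₁)
    (hρε : ρ₁ + ε < ρ) {s : V} (hs : N s ≤ ρ₁) (hfix : y s 1 = s) :
    ∃ c > 0, ∃ δ > 0, ∀ a b, ‖a - s‖ < δ → ‖b - s‖ < δ →
      c * ‖a - b‖ ≤ ‖(a - b) - (y a 1 - y b 1)‖ := by
  have h1 : (1 : ℝ) ∈ Icc (0 : ℝ) 1 := ⟨zero_le_one, le_rfl⟩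
  set σ := (ρ - (ρ₁ + ε)) / 2 with hσ
  have hσpos : 0 < σ := by rw [hσ]; linarith only [hρε]
  -- orbits near `s`
  have horb : ∀ z, ‖z - s‖ < σ → ∀ t ∈ Icc (0 : ℝ) 1, N (y z t) < ρ := by
    intro z hz t ht
    have h2 := (abs_le.1 (h.NN_lip z s)).2
    have h3 := h.barrier hε hX (hy z).2 (ρ₀ := ρ₁ + σ) (by linarith only [hρ₁, hσpos])
      (by rw [(hy z).1]; linarith only [hs, hz, h2]) ht
    linarith only [hσ, hσpos, h3]
  have hflow : ∀ z, ‖z - s‖ < σ → p (y z 1) = φ 1 (p z) := by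
    intro z hz
    have h2 := flow_eq h hom hη hρρ' hρ' hH hφ hL (hy z).2 (horb z hz) 1 h1
    rwa [(hy z).1] at h2
  have hss : ‖s - s‖ < σ := by rwa [sub_self, norm_zero]
  have hfixM : φ 1 (p s) = p s := by rw [← hflow s hss, hfix]
  have hsU : s ∈ U := h.mem_of_NN (by linarith only [hρρ', hρ', hε, hρε, hs])
  obtain ⟨e, U', hsU', hU'U, hp⟩ := h.localParam hom hsU
  set ψ : V → V := fun z => e (φ 1 (p z)) with hψ
  have hφs := hφ.contMDiff_space 1
  have hes : ContMDiffAt 𝓘(ℝ, V) 𝓘(ℝ, V) ∞ e (φ 1 (p s)) := by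
    rw [hfixM]; exact hp.contMDiffAt_inv hsU'
  have hψs : ContDiffAt ℝ ∞ ψ s := by
    have h2 : ContMDiffAt 𝓘(ℝ, V) 𝓘(ℝ, V) ∞ (fun z => φ 1 (p z)) s :=
      ContMDiffAt.comp (g := φ 1) s (hφs (p s)) (hp.contMDiffAt hsU')
    exact (ContMDiffAt.comp (g := e) (f := fun z => φ 1 (p z)) s hes h2).contDiffAt
  have hder : HasFDerivAt ψ ((Dm 𝓘(ℝ, V) 𝓘(ℝ, V) e (φ 1 (p s))).comp
      ((Dm 𝓘(ℝ, V) 𝓘(ℝ, V) (φ 1) (p s)).comp
        (Dm 𝓘(ℝ, V) 𝓘(ℝ, V) p s))) s := by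
    have h2 : HasMFDerivAt 𝓘(ℝ, V) 𝓘(ℝ, V) e (φ 1 (p s))
        (mfderiv 𝓘(ℝ, V) 𝓘(ℝ, V) e (φ 1 (p s))) :=
      (hes.mdifferentiableAt (by simp)).hasMFDerivAt
    have h3 : HasMFDerivAt 𝓘(ℝ, V) 𝓘(ℝ, V) (φ 1) (p s)
        (mfderiv 𝓘(ℝ, V) 𝓘(ℝ, V) (φ 1) (p s)) :=
      ((hφs (p s)).mdifferentiableAt (by simp)).hasMFDerivAt
    exact (h2.comp s (h3.comp s (hp.hasMFDerivAt hsU'))).hasFDerivAt
  have hstrict := hψs.hasStrictFDerivAt' hder (by simp)
  obtain ⟨c₀, hc₀, δ, hδ, hest⟩ := strict_nondeg hstrict (by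
    intro v hv
    have h2 : Dm 𝓘(ℝ, V) 𝓘(ℝ, V) e (φ 1 (p s))
      (Dm 𝓘(ℝ, V) 𝓘(ℝ, V) (φ 1) (p s)
        (Dm 𝓘(ℝ, V) 𝓘(ℝ, V) p s v)) = v := hv
    have h3 : Dm 𝓘(ℝ, V) 𝓘(ℝ, V) p s (Dm 𝓘(ℝ, V) 𝓘(ℝ, V) e (φ 1 (p s))
      (Dm 𝓘(ℝ, V) 𝓘(ℝ, V) (φ 1) (p s)
        (Dm 𝓘(ℝ, V) 𝓘(ℝ, V) p s v))) =
        Dm 𝓘(ℝ, V) 𝓘(ℝ, V) (φ 1) (p s)
        (Dm 𝓘(ℝ, V) 𝓘(ℝ, V) p s v) := by
      rw [hfixM]
      exact hp.Dm_Dm_inv hsU' _
    rw [h2] at h3
    have h4 : Dm 𝓘(ℝ, V) 𝓘(ℝ, V) p s v = 0 :=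
      hnd (p s) hfixM _ h3.symm
    exact h.inj hom hsU v h4)
  -- the time-one map coincides with `ψ` near `s`
  have hcont := continuous_time_one hL hy h1
  have hev : ∀ᶠ z in 𝓝 s, y z 1 ∈ U' := by
    have h2 : Tendsto (fun z => y z 1) (𝓝 s) (𝓝 s) := by
      have := hcont.tendsto s
      rwa [hfix] at this
    exact h2.eventually (hp.isOpen.mem_nhds hsU')
  obtain ⟨δ', hδ', hball⟩ := Metric.eventually_nhds_iff_ball.1 hev
  refine ⟨c₀, hc₀, min δ (min δ' σ), lt_min hδ (lt_min hδ' hσpos), ?_⟩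
  have heq : ∀ a, ‖a - s‖ < min δ (min δ' σ) → y a 1 = ψ a := by
    intro a ha
    have h2 : ‖a - s‖ < δ' := ha.trans_le ((min_le_right _ _).trans (min_le_left _ _))
    have h3 : ‖a - s‖ < σ := ha.trans_le ((min_le_right _ _).trans (min_le_right _ _))
    have h4 : y a 1 ∈ U' := hball a (by rwa [Metric.mem_ball, dist_eq_norm])
    simp only [hψ]
    rw [← hflow a h3, hp.left_inv _ h4]
  intro a b ha hb
  rw [heq a ha, heq b hb]
  exact hest a b (ha.trans_le (min_le_left _ _)) (hb.trans_le (min_le_left _ _))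

/-- Fixed points of the extended system give elements of `Fix0`. -/
theorem mem_fix0 [T2Space M] (h : Dom om β Cβ U Λ p P N r) (hom : IsSymplectic om)
    (hη : Cut p N η ρ ρ') (hρρ' : ρ < ρ') (hρ' : ρ' < r)
    (hH : IsPeriodicHamiltonian V H) (hφ : IsHamiltonianFlow om H φ) {L : ℝ}
    (hL : NiceField (XH β U p η H c) L) {y : V → ℝ → V}
    (hy : ∀ z, y z 0 = z ∧ IsSol (XH β U p η H c) (y z)) {ε : ℝ} (hε : 0 ≤ ε)
    (hX : ∀ t w, 0 < N w → ‖XH β U p η H c (t, w)‖ ≤ ε) {ρ₁ : ℝ} (hρ₁ : 0 ≤ ρ₁)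
    (hρε : ρ₁ + ε < ρ) {s : V} (hs : N s ≤ ρ₁) (hfix : y s 1 = s) :
    p s ∈ Fix0 φ := by
  have h1 : (1 : ℝ) ∈ Icc (0 : ℝ) 1 := ⟨zero_le_one, le_rfl⟩
  have horb : ∀ t ∈ Icc (0 : ℝ) 1, N (y s t) < ρ := by
    intro t ht
    have h3 := h.barrier hε hX (hy s).2 hρ₁ (by rwa [(hy s).1]) ht
    linarith
  have hflow := flow_eq h hom hη hρρ' hρ' hH hφ hL (hy s).2 horb
  rw [(hy s).1] at hflow
  have hU : ∀ t ∈ Icc (0 : ℝ) 1, y s t ∈ U := fun t ht =>
    h.mem_of_NN ((horb t ht).trans (hρρ'.trans hρ'))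
  have hsU : s ∈ U := h.mem_of_NN (by linarith only [hρρ', hρ', hε, hρε, hs])
  have := h.sc ⟨s, hsU⟩
  have hc : ContinuousOn (y s) (Icc 0 1) := (hy s).2.continuousOn
  let γ : Path (⟨s, hsU⟩ : U) ⟨s, hsU⟩ :=
    { toFun := fun t => ⟨y s t, hU t t.2⟩
      continuous_toFun := by
        refine Continuous.subtype_mk ?_ _
        exact continuousOn_iff_continuous_domRestrict.1 hc
      source' := by
        ext1
        simp only [Icc.coe_zero, (hy s).1]
      target' := by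
        ext1
        simp only [Icc.coe_one, hfix] }
  let f : C(U, M) := ⟨fun z => p z, h.smooth.continuousOn.domRestrict⟩
  refine ⟨?_, γ.map f.continuous, ?_, ?_⟩
  · rw [← hflow 1 h1, hfix]
  · intro t
    exact hflow t t.2
  · have h2 : γ.Homotopic (Path.refl _) := SimplyConnectedSpace.paths_homotopic _ _
    have h3 := h2.map f
    exact h3

end Vale.Agent.P265.Flat
end
end

section

section

open Set Filter
open scoped Topology ContDiff

set_option linter.unusedSectionVars false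

namespace Vale.Agent.P265.Flat

variable {m : ℕ} {V : Type*} [NormedAddCommGroup V] [NormedSpace ℝ V]
variable {β : V →L[ℝ] V →L[ℝ] ℝ} {Cβ : ℝ} {G : ℝ × V → ℝ} {X : ℝ × V → V} {χ κ : V → ℝ}

/-- The chain defined by a point of the domain of the generating function. -/
theorem isChain_of_res (z : V) (ζ : Fin m → V) :
    IsChain X m (fun j => z + ell ζ j) (res X m 1 z ζ) := by
  intro j _
  rw [mid_ell]
  beta_reduce
  rw [res, hst, one_mul]
  abel

section Inner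

/-- The derivative where the cutoff function is locally one. -/
theorem locF_inner (hβ : Symp β Cβ) (hm : Even m)
    (hGX : ∀ t w, HasFDerivAt (fun w => G (t, w)) (β (X (t, w))) w)
    {z : V} (hχ : χ =ᶠ[𝓝 z] fun _ => 1) (hκ : DifferentiableAt ℝ κ z) (ζ : Fin m → V) :
    ∃ D : V × (Fin m → V) →L[ℝ] ℝ, HasFDerivAt (locF β G χ κ m) D (z, ζ) ∧
      ∀ v δ, D (v, δ) = ∑ j ∈ Finset.range m, β (res X m 1 z ζ j) (ex δ j) -
        ∑ j ∈ Finset.range m, hst m * β (X ((j : ℝ) * hst m, z + ex ζ j)) v := by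
  have h1 : HasFDerivAt χ (0 : V →L[ℝ] ℝ) z :=
    (hasFDerivAt_const (1 : ℝ) z).congr_of_eventuallyEq hχ
  obtain ⟨D, hD, hDv⟩ := hasFDerivAt_locF (m := m) hβ hm hGX h1 hκ.hasFDerivAt ζ
  refine ⟨D, hD, fun v δ => ?_⟩
  rw [hDv, hχ.self_of_nhds]
  simp

theorem inner_bounds (hβ : Symp β Cβ) (hm : Even m)
    (hGX : ∀ t w, HasFDerivAt (fun w => G (t, w)) (β (X (t, w))) w)
    {z : V} (hχ : χ =ᶠ[𝓝 z] fun _ => 1) (hκ : DifferentiableAt ℝ κ z) (ζ : Fin m → V) :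
    (∀ j < m, ‖res X m 1 z ζ j‖ ≤ Cβ * ‖fderiv ℝ (locF β G χ κ m) (z, ζ)‖) ∧
      ‖ell ζ 0‖ ≤ Cβ * ((m + 1) * ‖fderiv ℝ (locF β G χ κ m) (z, ζ)‖) := by
  obtain ⟨D, hD, hDv⟩ := locF_inner (m := m) hβ hm hGX hχ hκ ζ
  rw [hD.fderiv]
  set d := ‖D‖ with hd
  have hd0 : 0 ≤ d := D.opNorm_nonneg
  have hres := residual_fiber (m := m) hβ (ρ := res X m 1 z ζ) hd0 (by
    intro δ
    have h1 := hDv 0 δ
    simp only [map_zero, mul_zero, sub_zero, Finset.sum_const_zero] at h1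
    rw [← h1]
    refine (D.le_opNorm _).trans ?_
    rw [Prod.norm_mk, norm_zero, max_eq_right (norm_nonneg _)])
  refine ⟨fun j hj => (hres j hj).2, ?_⟩
  refine hβ.norm_le (by (clear * -; positivity)) fun v => ?_
  have h1 := hDv v 0
  simp only [ex_zero, map_zero, Finset.sum_const_zero, zero_sub] at h1
  have h2 : ∑ j ∈ Finset.range m, β (res X m 1 z ζ j) v =
      -2 * β (ell ζ 0) v + D (v, 0) := by
    have h3 : ∀ j, β (res X m 1 z ζ j) v = β (ell ζ (j + 1) - ell ζ j) v -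
        hst m * β (X ((j : ℝ) * hst m, z + ex ζ j)) v := by
      intro j
      rw [res, one_mul, map_sub, map_smul, sub_apply, smul_apply, smul_eq_mul]
    rw [Finset.sum_congr rfl fun j _ => h3 j, Finset.sum_sub_distrib, ← beta_sum_left,
      Finset.sum_range_sub (fun j => ell ζ j), ell_last hm, h1]
    have h4 : -ell ζ 0 - ell ζ 0 = (-2 : ℝ) • ell ζ 0 := by module
    rw [h4, map_smul, smul_apply, smul_eq_mul]
    ring
  have h3 : |∑ j ∈ Finset.range m, β (res X m 1 z ζ j) v| ≤ m * (d * ‖v‖) := by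
    refine (Finset.abs_sum_le_sum_abs _ _).trans ?_
    refine (Finset.sum_le_card_nsmul _ _ (d * ‖v‖)
      fun j hj => (hres j (Finset.mem_range.1 hj)).1 v).trans ?_
    rw [Finset.card_range, nsmul_eq_mul]
  have h4 : |D (v, 0)| ≤ d * ‖v‖ := by
    have := D.le_opNorm (v, 0)
    rwa [Prod.norm_mk, norm_zero, max_eq_left (norm_nonneg _)] at this
  have h5 : 2 * β (ell ζ 0) v = D (v, 0) - ∑ j ∈ Finset.range m, β (res X m 1 z ζ j) v := by
    rw [h2]; ring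
  have h6 := abs_sub (D (v, 0)) (∑ j ∈ Finset.range m, β (res X m 1 z ζ j) v)
  rw [← h5, abs_mul, abs_two] at h6
  have h7 : 0 ≤ |β (ell ζ 0) v| := abs_nonneg _
  linarith only [h3, h4, h6, h7]

/-- Nondegeneracy of the critical points in the inner region. -/
theorem gradLB_inner (hβ : Symp β Cβ) (hm : Even m)
    (hGX : ∀ t w, HasFDerivAt (fun w => G (t, w)) (β (X (t, w))) w)
    (hXc : Continuous X) {z : V} (hχ : ∀ᶠ w in 𝓝 z, χ =ᶠ[𝓝 w] fun _ => 1)
    (hκ : ∀ᶠ w in 𝓝 z, DifferentiableAt ℝ κ w) {ζ : Fin m → V}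
    (hres : ∀ j < m, res X m 1 z ζ j = 0) (hz0 : ell ζ 0 = 0) {s : V} {η C κ₀ : ℝ}
    (hκ₀ : 0 < κ₀) (hC : 0 < C) (hzs : ‖z - s‖ < η)
    (hkp : ∀ u ρ u' ρ' : ℕ → V, IsChain X m u ρ → IsChain X m u' ρ' →
        ‖u 0 - s‖ < η → ‖u' 0 - s‖ < η →
        ∑ i ∈ Finset.range m, ‖ρ i‖ ≤ κ₀ → ∑ i ∈ Finset.range m, ‖ρ' i‖ ≤ κ₀ →
        ∀ j ≤ m, ‖u j - u' j‖ ≤ C * (∑ i ∈ Finset.range m, ‖ρ i - ρ' i‖ +
          ‖(u m - u 0) - (u' m - u' 0)‖)) :
    GradLB (locF β G χ κ m) (z, ζ) := by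
  have hCβ := hβ.one_le
  set A : ℝ := 2 * (C * (3 * (m + 1) * Cβ)) with hA
  have hApos : 0 < A := by (clear * - hC hCβ; positivity)
  refine ⟨A⁻¹, inv_pos.2 hApos, ?_⟩
  have hfst : Tendsto (fun q : V × (Fin m → V) => q.1) (𝓝 (z, ζ)) (𝓝 z) :=
    continuous_fst.tendsto (z, ζ)
  have hres0 : ∑ i ∈ Finset.range m, ‖res X m 1 z ζ i‖ = 0 :=
    Finset.sum_eq_zero fun i hi => by
      rw [hres i (Finset.mem_range.1 hi), norm_zero]
  have e1 : ∀ j, Continuous fun q : V × (Fin m → V) => ell q.2 j := by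
    intro j
    have : (fun q : V × (Fin m → V) => ell q.2 j) =
        fun q => ellL m V j q.2 := by
      funext q; simp
    rw [this]
    (clear * -; fun_prop)
  have hcont : Continuous (fun q : V × (Fin m → V) =>
      ∑ i ∈ Finset.range m, ‖res X m 1 q.1 q.2 i‖) := by
    refine continuous_finsetSum _ fun i _ => Continuous.norm ?_
    have e2 : Continuous fun q : V × (Fin m → V) => q.1 + ex q.2 i := by
      have : (fun q : V × (Fin m → V) => q.1 + ex q.2 i) = aL m V i := by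
        funext q; simp
      rw [this]
      exact (aL m V i).continuous
    unfold res
    have e3 : Continuous fun q : V × (Fin m → V) =>
        X ((i : ℝ) * hst m, q.1 + ex q.2 i) := hXc.comp (continuous_const.prodMk e2)
    have e4 : Continuous fun q : V × (Fin m → V) =>
        ((1 : ℝ) * hst m) • X ((i : ℝ) * hst m, q.1 + ex q.2 i) :=
      e3.const_smul ((1 : ℝ) * hst m)
    exact ((e1 (i + 1)).sub (e1 i)).sub e4
  have hsmall : ∀ᶠ q : V × (Fin m → V) in 𝓝 (z, ζ),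
      ∑ i ∈ Finset.range m, ‖res X m 1 q.1 q.2 i‖ < κ₀ := by
    refine (hcont.tendsto (z, ζ)).eventually (gt_mem_nhds ?_)
    rw [hres0]
    exact hκ₀
  have hnear : ∀ᶠ q : V × (Fin m → V) in 𝓝 (z, ζ), ‖q.1 + ell q.2 0 - s‖ < η := by
    have hc : Continuous fun q : V × (Fin m → V) => ‖q.1 + ell q.2 0 - s‖ :=
      ((continuous_fst.add (e1 0)).sub continuous_const).norm
    refine (hc.tendsto (z, ζ)).eventually (gt_mem_nhds ?_)
    simp only [hz0, add_zero]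
    exact hzs
  filter_upwards [hfst.eventually hχ, hfst.eventually hκ, hsmall, hnear] with
    q hq1 hq2 hq3 hq4
  obtain ⟨w, δ⟩ := q
  set d := ‖fderiv ℝ (locF β G χ κ m) (w, δ)‖ with hd
  have hd0 : 0 ≤ d := ContinuousLinearMap.opNorm_nonneg _
  obtain ⟨h1, h1'⟩ := inner_bounds (m := m) hβ hm hGX hq1 hq2 δ
  have h2 := hkp (fun j => w + ell δ j) (res X m 1 w δ) (fun j => z + ell ζ j) (res X m 1 z ζ)
    (isChain_of_res w δ) (isChain_of_res z ζ) hq4
    (by simpa [hz0] using hzs) hq3.le (by rw [hres0]; exact hκ₀.le)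
  have h3 : ∑ i ∈ Finset.range m, ‖res X m 1 w δ i - res X m 1 z ζ i‖ ≤
      m * (Cβ * d) := by
    refine (Finset.sum_le_card_nsmul _ _ (Cβ * d) fun i hi => ?_).trans ?_
    · have hi' : i < m := Finset.mem_range.1 hi
      rw [hres i hi', sub_zero]
      exact h1 i hi'
    · rw [Finset.card_range, nsmul_eq_mul]
  have h3' : ‖((w + ell δ m) - (w + ell δ 0)) - ((z + ell ζ m) - (z + ell ζ 0))‖ ≤
      2 * (Cβ * ((m + 1) * d)) := by
    have h4 : ((w + ell δ m) - (w + ell δ 0)) - ((z + ell ζ m) - (z + ell ζ 0)) =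
        (-2 : ℝ) • ell δ 0 := by
      rw [ell_last hm, ell_last hm, hz0]
      module
    rw [h4, norm_smul]
    have h5 : ‖(-2 : ℝ)‖ = 2 := by norm_num
    rw [h5]
    linarith only [h1']
  set B : ℝ := C * (3 * (m + 1) * Cβ) * d with hB
  have hm' : (0 : ℝ) ≤ m := Nat.cast_nonneg m
  have h4 : ∀ j ≤ m, ‖(w + ell δ j) - (z + ell ζ j)‖ ≤ B := by
    intro j hj
    refine (h2 j hj).trans ?_
    rw [hB, mul_assoc C]
    refine mul_le_mul_of_nonneg_left ?_ hC.le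
    have h5 : 0 ≤ Cβ * d := by (clear * - hCβ; positivity)
    linarith only [h3, h3', h5]
  have hB0 : 0 ≤ B := by (clear * - hC hCβ; positivity)
  have h5 : ‖w - z‖ ≤ B := by
    have h6 : w - z = (1 / 2 : ℝ) • (((w + ell δ 0) - (z + ell ζ 0)) +
        ((w + ell δ m) - (z + ell ζ m))) := by
      rw [ell_last hm, ell_last hm]
      module
    rw [h6, norm_smul, Real.norm_of_nonneg (by norm_num)]
    have h7 := norm_add_le ((w + ell δ 0) - (z + ell ζ 0)) ((w + ell δ m) - (z + ell ζ m))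
    have h8 := h4 0 (Nat.zero_le m)
    have h9 := h4 m le_rfl
    linarith only [h7, h8, h9]
  have h6 : ‖δ - ζ‖ ≤ 2 * B := by
    refine norm_le_of_ex (by (clear * - hC hCβ; positivity)) fun j hj => ?_
    rw [ex_sub]
    have h7 : ex δ j - ex ζ j = (1 / 2 : ℝ) • (((w + ell δ j) - (z + ell ζ j)) +
        ((w + ell δ (j + 1)) - (z + ell ζ (j + 1)))) - (w - z) := by
      rw [ex_eq_mid, ex_eq_mid]
      module
    rw [h7]
    refine (norm_sub_le _ _).trans ?_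
    rw [norm_smul, Real.norm_of_nonneg (by norm_num)]
    have h8 := norm_add_le ((w + ell δ j) - (z + ell ζ j))
      ((w + ell δ (j + 1)) - (z + ell ζ (j + 1)))
    have h9 := h4 j hj.le
    have h10 := h4 (j + 1) hj
    linarith only [h5, h8, h9, h10]
  have h7 : ‖((w, δ) : V × (Fin m → V)) - (z, ζ)‖ ≤ A * d := by
    have h8 : A * d = 2 * B := by rw [hA, hB]; ring
    rw [Prod.mk_sub_mk, Prod.norm_mk, h8]
    refine max_le ?_ h6
    linarith only [hB0, h5]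
  rw [inv_mul_le_iff₀ hApos]
  exact h7

end Inner

section Shell

/-- Critical points in the shell. -/
theorem shell_crit [FiniteDimensional ℝ V] (hβ : Symp β Cβ) (hm : Even m) (hm0 : 0 < m)
    {N : V → ℝ} (hN : ∀ a b, |N a - N b| ≤ ‖a - b‖)
    (hqc : ∀ a b, N ((1 / 2 : ℝ) • (a + b)) ≤ max (N a) (N b))
    (hGX : ∀ t w, HasFDerivAt (fun w => G (t, w)) (β (X (t, w))) w)
    {z : V} {r ε Cχ a L : ℝ} (hr : 0 < r) (hε : 0 ≤ ε) (hεr : 2 * ε < r)
    {κ' : V → (V →L[ℝ] ℝ)} {χ' : V →L[ℝ] ℝ}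
    (hX : ∀ t w, 0 < N w → ‖X (t, w)‖ ≤ ε) (hL : ∀ q, ‖X q‖ ≤ L)
    (hεL : ε + hst m * L ≤ a) (hz : a < N z)
    (hκ : ∀ w, ‖w - z‖ < r → HasFDerivAt κ (κ' w) w)
    (hκ1 : ∀ w, ‖w - z‖ < r → ‖κ' w‖ ≤ ε)
    (hκ2 : ∀ w, ‖w - z‖ < r → ‖κ' w - κ' z‖ ≤ ε * ‖w - z‖)
    (hG : ∀ t w, ‖w - z‖ < r → G (t, w) = κ w)
    (hχ : HasFDerivAt χ χ' z) (hχ' : ‖χ'‖ ≤ Cχ) (hχ0 : 0 ≤ χ z) (hχ1 : χ z ≤ 1)
    (hsmall : 4 * Cβ * ((2 + Cχ) * ε) ≤ 1) {ζ : Fin m → V}
    (hcrit : fderiv ℝ (locF β G χ κ m) (z, ζ) = 0) : ζ = 0 ∧ κ' z = 0 := by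
  obtain ⟨D, hD, hDv⟩ := hasFDerivAt_locF (m := m) hβ hm hGX hχ
    (hκ z (by rwa [sub_self, norm_zero])) ζ
  rw [hD.fderiv] at hcrit
  have hres := residual_fiber (m := m) hβ (ρ := res X m (χ z) z ζ) le_rfl (by
    intro δ
    have h1 := hDv 0 δ
    simp only [map_zero, mul_zero, zero_mul, add_zero, sub_zero, Finset.sum_const_zero] at h1
    rw [← h1, hcrit]
    simp)
  have hst := stay (m := m) hN hqc hm hm0 hε hX hL hεL hχ0 hχ1 hz
    (ζ := ζ) (fun j hj => norm_le_zero_iff.1 (by simpa using (hres j hj).2))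
  obtain ⟨-, h2, h3⟩ := shell_estimate (m := m) hβ hm hm0 hGX hr hε hκ hκ1 hκ2 hG hχ hχ' hχ0 hχ1
    hsmall (hst.trans_lt hεr)
  have h4 : ‖fderiv ℝ (locF β G χ κ m) (z, ζ)‖ = 0 := by
    rw [hD.fderiv, hcrit]
    exact ContinuousLinearMap.opNorm_zero
  rw [h4, mul_zero] at h2 h3
  refine ⟨norm_le_zero_iff.1 h2, ?_⟩
  refine ContinuousLinearMap.ext fun v => ?_
  have h5 := (κ' z).le_opNorm v
  have h6 : ‖κ' z‖ * ‖v‖ ≤ 0 * ‖v‖ := mul_le_mul_of_nonneg_right h3 (norm_nonneg _)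
  rw [zero_mul] at h6
  exact norm_le_zero_iff.1 (h5.trans h6)

/-- From estimates near the point to the lower bound of the gradient. -/
theorem gradLB_of_estimate {f : V × (Fin m → V) → ℝ} {z : V} {A : ℝ} (hA : 0 ≤ A)
    (hκ : GradLB κ z)
    (hest : ∀ᶠ q : V × (Fin m → V) in 𝓝 (z, 0),
      ‖q.2‖ ≤ A * ‖fderiv ℝ f q‖ ∧ ‖fderiv ℝ κ q.1‖ ≤ A * ‖fderiv ℝ f q‖) :
    GradLB f (z, 0) := by
  obtain ⟨c, hc, hlb⟩ := hκ
  have hfst : Tendsto (fun q : V × (Fin m → V) => q.1) (𝓝 (z, 0)) (𝓝 z) :=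
    continuous_fst.tendsto (z, 0)
  set B : ℝ := 1 + A + A / c with hB
  have hBpos : 0 < B := by positivity
  refine ⟨B⁻¹, inv_pos.2 hBpos, ?_⟩
  filter_upwards [hest, hfst.eventually hlb] with q hq1 hq2
  obtain ⟨w, δ⟩ := q
  set d := ‖fderiv ℝ f (w, δ)‖ with hd
  have hd0 : 0 ≤ d := ContinuousLinearMap.opNorm_nonneg _
  rw [inv_mul_le_iff₀ hBpos, Prod.mk_sub_mk, Prod.norm_mk, sub_zero]
  have h1 : ‖w - z‖ ≤ A / c * d := by
    rw [div_mul_eq_mul_div, le_div_iff₀ hc]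
    have := hq2.trans hq1.2
    linarith only [hq2, hq1]
  have h2 : B * d = d + A * d + A / c * d := by rw [hB]; ring
  have h3 : 0 ≤ A * d := by (clear * - hA; positivity)
  have h4 : 0 ≤ A / c * d := by positivity
  refine max_le ?_ ?_
  · linarith only [hd0, h1, h3]
  · have := hq1.1
    simp only at this
    linarith only [hq1, hd0, h4]

end Shell

section Free

/-- The estimate in the region without cutoff. -/
theorem free_estimate (hβ : Symp β Cβ) (hm : Even m) (hm0 : 0 < m) {z : V}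
    (hκ : DifferentiableAt ℝ κ z) (ζ : Fin m → V) :
    ‖ζ‖ ≤ 2 * (m + 1) * Cβ * ‖fderiv ℝ (locF β (fun _ => 0) (fun _ => 0) κ m) (z, ζ)‖ ∧
      ‖fderiv ℝ κ z‖ ≤ ‖fderiv ℝ (locF β (fun _ => 0) (fun _ => 0) κ m) (z, ζ)‖ := by
  have hCβ := hβ.one_le
  have hGX : ∀ (t : ℝ) (w : V), HasFDerivAt (fun _ : V => (0 : ℝ))
      (β ((fun _ : ℝ × V => (0 : V)) (t, w))) w := by
    intro t w
    simp only [map_zero]
    exact hasFDerivAt_const _ _
  obtain ⟨D, hD, hDv⟩ := hasFDerivAt_locF (m := m) (G := fun _ => 0) (X := fun _ => 0)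
    (χ := fun _ => 0) hβ hm hGX (hasFDerivAt_const (0 : ℝ) z) hκ.hasFDerivAt ζ
  rw [hD.fderiv]
  set d := ‖D‖ with hd
  have hd0 : 0 ≤ d := D.opNorm_nonneg
  have hres := residual_fiber (m := m) hβ (ρ := res (fun _ => 0) m 0 z ζ) hd0 (by
    intro δ
    have h1 := hDv 0 δ
    simp only [map_zero, mul_zero, zero_mul, add_zero, sub_zero] at h1
    rw [← h1]
    refine (D.le_opNorm _).trans ?_
    rw [Prod.norm_mk, norm_zero, max_eq_right (norm_nonneg _)])
  have hm' : (0 : ℝ) ≤ m := Nat.cast_nonneg m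
  constructor
  · have h1 := zeta_le_of_res (X := fun _ : ℝ × V => (0 : V)) (m := m) (τ := 0) (z := z)
      (ζ := ζ) hm hm0 le_rfl zero_le_one (mul_nonneg hβ.nonneg hd0) le_rfl
      (fun j hj => (hres j hj).2) (fun j _ => by simp)
    have h2 : 0 ≤ Cβ * d := by (clear * - hCβ; positivity)
    linarith only [h1, h2]
  · refine ContinuousLinearMap.opNorm_le_bound _ hd0 fun v => ?_
    have h1 := hDv v 0
    simp only [ex_zero, map_zero, Finset.sum_const_zero, sub_zero, one_mul, zero_apply, zero_mul,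
      add_zero, zero_sub] at h1
    have h2 : |D (v, 0)| ≤ d * ‖v‖ := by
      have := D.le_opNorm (v, 0)
      rwa [Prod.norm_mk, norm_zero, max_eq_left (norm_nonneg _)] at this
    rw [h1, abs_neg] at h2
    rw [Real.norm_eq_abs]
    exact h2

/-- The area form is nondegenerate. -/
theorem bForm_nondeg (hβ : Symp β Cβ) (hm : Even m) {ζ : Fin m → V}
    (h : ∀ δ, bForm m β ζ δ + bForm m β δ ζ = 0) : ζ = 0 := by
  have hres := residual_fiber (m := m) hβ (ρ := fun j => ell ζ (j + 1) - ell ζ j) le_rfl (by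
    intro δ
    rw [← bForm_symm hβ hm, h δ]
    simp)
  have h1 := zeta_bound hm (ζ := ζ) le_rfl (fun j hj => by simpa only [norm_le_zero_iff, mul_zero] using (hres j hj).2)
  rw [mul_zero, mul_zero] at h1
  exact norm_le_zero_iff.1 h1

end Free

end Vale.Agent.P265.Flat
end
end

section

section

open Set Filter Manifold
open scoped ContDiff Topology

set_option maxSynthPendingDepth 3
set_option linter.unusedSectionVars false

namespace Vale.Agent.P265.Flat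

variable {V : Type*} [NormedAddCommGroup V] [NormedSpace ℝ V] [FiniteDimensional ℝ V]
  {M : Type*} [TopologicalSpace M] [ChartedSpace V M] [IsManifold 𝓘(ℝ, V) ∞ M]

/-- The data attached to one convex flat domain. -/
structure Piece (om : FormField V M) (β : V →L[ℝ] V →L[ℝ] ℝ) (Cβ : ℝ) (K : M → ℝ) (H : ℝ → M → ℝ) (U : Set V)
    (Λ : AddSubgroup V) (p : V → M) (P : Set V) (N : V → ℝ) (a : ℝ)
    (χ η : M → ℝ) (c ε Cχ : ℝ) : Prop where
  dom : Dom om β Cβ U Λ p P N (6 * a)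
  cutχ : Cut p N χ (2 * a) (3 * a)
  cutη : Cut p N η (4 * a) (5 * a)
  apos : 0 < a
  εnn : 0 ≤ ε
  εa : 2 * ε < a
  bχ : ∀ z ∈ U, ‖fderiv ℝ (χ ∘ p) z‖ ≤ Cχ
  small : 4 * Cβ * ((2 + Cχ) * ε) ≤ 1
  HK : ∀ z ∈ U, 0 < N z → ∀ t, H t (p z) = K (p z)
  K1 : ∀ z ∈ U, 0 < N z → ‖fderiv ℝ (K ∘ p) z‖ ≤ ε
  K2 : ∀ z ∈ U, 0 < N z → ‖fderiv ℝ (fderiv ℝ (K ∘ p)) z‖ ≤ ε
  X1 : ∀ t w, 0 < N w → ‖XH β U p η H c (t, w)‖ ≤ ε
  Ks : ContMDiff 𝓘(ℝ, V) 𝓘(ℝ, ℝ) ∞ K
  Hs : IsPeriodicHamiltonian V H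

namespace Piece

variable {om : FormField V M} {β : V →L[ℝ] V →L[ℝ] ℝ} {Cβ : ℝ} {K : M → ℝ} {H : ℝ → M → ℝ} {U : Set V}
  {Λ : AddSubgroup V} {p : V → M} {P : Set V} {N : V → ℝ} {a : ℝ}
  {χ η : M → ℝ} {c ε Cχ : ℝ} {m : ℕ}
  (h : Piece om β Cβ K H U Λ p P N a χ η c ε Cχ)
include h

theorem hGX (t : ℝ) (w : V) :
    HasFDerivAt (fun w => GH U p η H c (t, w)) (β (XH β U p η H c (t, w))) w :=
  hasFDerivAt_GH h.dom h.cutη (by linarith only [h.apos]) h.Hs t w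

theorem diffK {z : V} (hz : z ∈ U) : DifferentiableAt ℝ (K ∘ p) z :=
  (h.dom.contDiffAt_comp h.Ks hz).differentiableAt (by simp)

theorem chi_one {z : V} (hz : N z < 2 * a) : (χ ∘ p) =ᶠ[𝓝 z] fun _ => 1 := by
  filter_upwards [(h.dom.NN_continuous.tendsto z).eventually (gt_mem_nhds hz)] with w hw
  exact h.cutχ.one _ ⟨w, le_of_lt hw, rfl⟩

theorem inner_res (hm : Even m) {z : V} (hz : N z ≤ a) {ζ : Fin m → V}
    (hcrit : fderiv ℝ (locF β (GH U p η H c) (χ ∘ p) (K ∘ p) m) (z, ζ) = 0) :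
    (∀ j < m, res (XH β U p η H c) m 1 z ζ j = 0) ∧ ell ζ 0 = 0 := by
  have ha := h.apos
  have hzU : z ∈ U := h.dom.mem_of_NN (by linarith only [hz, ha])
  obtain ⟨h1, h1'⟩ := inner_bounds (m := m) h.dom.symp hm h.hGX (h.chi_one (by linarith only [hz, ha]))
    (h.diffK hzU) ζ
  have h2 : ‖fderiv ℝ (locF β (GH U p η H c) (χ ∘ p) (K ∘ p) m) (z, ζ)‖ = 0 := by
    rw [hcrit]
    exact ContinuousLinearMap.opNorm_zero
  simp only [h2, mul_zero] at h1 h1'
  exact ⟨fun j hj => norm_le_zero_iff.1 (h1 j hj), norm_le_zero_iff.1 h1'⟩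

theorem ball_shell {z : V} (hz : a < N z) (hz' : N z ≤ 3 * a) {w : V}
    (hw : ‖w - z‖ < a) : 0 < N w ∧ N w < 4 * a ∧ w ∈ U := by
  have h1 := abs_le.1 (h.dom.NN_lip w z)
  have h2 : 0 < N w := by linarith [h1.1]
  have h3 : N w < 4 * a := by linarith only [hz', hw, h1]
  exact ⟨h2, h3, h.dom.mem_of_NN (by linarith only [hz', hw, h1])⟩

theorem kappa2 {z : V} (hz : a < N z) (hz' : N z ≤ 3 * a) {w : V}
    (hw : ‖w - z‖ < a) :
    ‖fderiv ℝ (K ∘ p) w - fderiv ℝ (K ∘ p) z‖ ≤ ε * ‖w - z‖ := by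
  have hb : ∀ x ∈ Metric.ball z a, 0 < N x ∧ N x < 4 * a ∧ x ∈ U := fun x hx =>
    h.ball_shell hz hz' (by rwa [Metric.mem_ball, dist_eq_norm] at hx)
  refine Convex.norm_image_sub_le_of_norm_fderiv_le (𝕜 := ℝ) (s := Metric.ball z a) ?_ ?_
    (convex_ball z a) (Metric.mem_ball_self h.apos) (by rwa [Metric.mem_ball, dist_eq_norm])
  · intro x hx
    have h1 : ContDiffAt ℝ 1 (fderiv ℝ (K ∘ p)) x :=
      (h.dom.contDiffAt_comp h.Ks (hb x hx).2.2).fderiv_right (by norm_cast)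
    exact h1.differentiableAt (by simp)
  · intro x hx
    exact h.K2 x (hb x hx).2.2 (hb x hx).1

theorem chi_deriv {z : V} (hz : z ∈ U) : HasFDerivAt (χ ∘ p) (fderiv ℝ (χ ∘ p) z) z :=
  ((h.dom.contDiffAt_comp h.cutχ.smooth hz).differentiableAt (by simp)).hasFDerivAt

theorem shell_crit' (hm : Even m) (hm0 : 0 < m) {L : ℝ}
    (hL : ∀ q, ‖XH β U p η H c q‖ ≤ L) (hmL : ε + hst m * L ≤ a)
    {z : V} (hz : a < N z) (hz' : N z ≤ 3 * a) {ζ : Fin m → V}
    (hcrit : fderiv ℝ (locF β (GH U p η H c) (χ ∘ p) (K ∘ p) m) (z, ζ) = 0) :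
    ζ = 0 ∧ fderiv ℝ (K ∘ p) z = 0 := by
  have ha := h.apos
  have hb : ∀ w, ‖w - z‖ < a → 0 < N w ∧ N w < 4 * a ∧ w ∈ U := fun w hw =>
    h.ball_shell hz hz' hw
  have hzU : z ∈ U := h.dom.mem_of_NN (by linarith only [hz', ha])
  refine shell_crit (m := m) h.dom.symp hm hm0 h.dom.NN_lip h.dom.qc h.hGX (r := a) (ε := ε)
    (Cχ := Cχ) ha h.εnn h.εa h.X1 hL hmL hz (fun w hw => (h.diffK (hb w hw).2.2).hasFDerivAt)
    (fun w hw => h.K1 w (hb w hw).2.2 (hb w hw).1) (fun w hw => h.kappa2 hz hz' hw) ?_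
    (h.chi_deriv hzU) (h.bχ z hzU) (h.cutχ.mem (p z)).1 (h.cutχ.mem (p z)).2 h.small hcrit
  · intro t w hw
    rw [GH_eq h.dom h.cutη (by linarith only [ha]) (hb w hw).2.1.le, h.HK w (hb w hw).2.2 (hb w hw).1]
    rfl

theorem shell_gradLB (hm : Even m) (hm0 : 0 < m) {z : V} (hz : a < N z) (hz' : N z ≤ 3 * a)
    (hκ : GradLB (K ∘ p) z) :
    GradLB (locF β (GH U p η H c) (χ ∘ p) (K ∘ p) m) (z, 0) := by
  have ha := h.apos
  have hCβ := h.dom.symp.one_le
  refine gradLB_of_estimate (A := 4 * (m + 1) * Cβ) (by positivity) hκ ?_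
  -- we apply the estimate with centre `q.1`
  have hfst : Tendsto (fun q : V × (Fin m → V) => q.1) (𝓝 (z, 0)) (𝓝 z) :=
    continuous_fst.tendsto (z, 0)
  have hsnd : ∀ᶠ q : V × (Fin m → V) in 𝓝 (z, 0), ‖q.2‖ < a / 2 := by
    have hc : Continuous fun q : V × (Fin m → V) => ‖q.2‖ := by fun_prop
    refine (hc.tendsto (z, 0)).eventually (gt_mem_nhds ?_)
    simp only [norm_zero]
    linarith only [ha]
  have hnear : ∀ᶠ w in 𝓝 z, ‖w - z‖ < a / 2 := by
    have hc : Continuous fun w : V => ‖w - z‖ := by fun_prop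
    refine (hc.tendsto z).eventually (gt_mem_nhds ?_)
    simp only [sub_self, norm_zero]
    linarith only [ha]
  filter_upwards [hsnd, hfst.eventually hnear] with q hq1 hq2
  obtain ⟨w, δ⟩ := q
  have hb : ∀ x, ‖x - w‖ < a / 2 → 0 < N x ∧ N x < 4 * a ∧ x ∈ U := by
    intro x hx
    refine h.ball_shell hz hz' ?_
    have h1 := norm_add_le (x - w) (w - z)
    rw [sub_add_sub_cancel] at h1
    have h2 : ‖w - z‖ < a / 2 := hq2
    linarith only [hq2, hx, h1]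
  have hwU : w ∈ U := (hb w (by rw [sub_self, norm_zero]; linarith only [ha])).2.2
  have hk2 : ∀ x, ‖x - w‖ < a / 2 →
      ‖fderiv ℝ (K ∘ p) x - fderiv ℝ (K ∘ p) w‖ ≤ ε * ‖x - w‖ := by
    intro x hx
    refine Convex.norm_image_sub_le_of_norm_fderiv_le (𝕜 := ℝ) (s := Metric.ball w (a / 2)) ?_ ?_
      (convex_ball w (a / 2)) (Metric.mem_ball_self (by linarith only [ha]))
      (by rwa [Metric.mem_ball, dist_eq_norm])
    · intro x hx
      rw [Metric.mem_ball, dist_eq_norm] at hx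
      have h1 : ContDiffAt ℝ 1 (fderiv ℝ (K ∘ p)) x :=
        (h.dom.contDiffAt_comp h.Ks (hb x hx).2.2).fderiv_right (by norm_cast)
      exact h1.differentiableAt (by simp)
    · intro x hx
      rw [Metric.mem_ball, dist_eq_norm] at hx
      exact h.K2 x (hb x hx).2.2 (hb x hx).1
  have hGK : ∀ t x, ‖x - w‖ < a / 2 → GH U p η H c (t, x) = (K ∘ p) x := by
    intro t x hx
    rw [GH_eq h.dom h.cutη (by linarith only [ha]) (hb x hx).2.1.le, h.HK x (hb x hx).2.2 (hb x hx).1]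
    rfl
  obtain ⟨-, h1, h2⟩ := shell_estimate (m := m) h.dom.symp hm hm0 (X := XH β U p η H c) (G := GH U p η H c)
    (χ := χ ∘ p) (κ := K ∘ p) (κ' := fderiv ℝ (K ∘ p)) (χ' := fderiv ℝ (χ ∘ p) w) (ζ := δ)
    h.hGX (r := a / 2) (ε := ε) (Cχ := Cχ) (by linarith only [ha]) h.εnn
    (fun x hx => (h.diffK (hb x hx).2.2).hasFDerivAt)
    (fun x hx => h.K1 x (hb x hx).2.2 (hb x hx).1) hk2 hGK
    (h.chi_deriv hwU) (h.bχ w hwU) (h.cutχ.mem (p w)).1 (h.cutχ.mem (p w)).2 h.small hq1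
  refine ⟨h1, h2.trans ?_⟩
  have hd : 0 ≤ ‖fderiv ℝ (locF β (GH U p η H c) (χ ∘ p) (K ∘ p) m) (w, δ)‖ :=
    ContinuousLinearMap.opNorm_nonneg _
  refine mul_le_mul_of_nonneg_right ?_ hd
  have h3 : (0 : ℝ) ≤ m := Nat.cast_nonneg m
  nlinarith only [hCβ]

end Piece

end Vale.Agent.P265.Flat
end
end

section

section

open Set Filter Manifold
open scoped ContDiff Topology

set_option maxSynthPendingDepth 3

namespace Vale.Agent.P265

section Congr

variable {V₁ : Type*} [NormedAddCommGroup V₁] [NormedSpace ℝ V₁] {B : Type*} [TopologicalSpace B]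
  {I : ModelWithCorners ℝ V₁ B} {X : Type*} [TopologicalSpace X] [ChartedSpace B X]

theorem mem_crit_congr {f g : X → ℝ} {x : X} (h : f =ᶠ[𝓝 x] g) :
    x ∈ Crit I f ↔ x ∈ Crit I g := by
  have h1 : Dm I 𝓘(ℝ, ℝ) f x = Dm I 𝓘(ℝ, ℝ) g x := h.mfderiv_eq
  rw [mem_crit_iff_Dm, mem_crit_iff_Dm, h1]

theorem hessNondeg_congr [I.Boundaryless] {f g : X → ℝ} {x : X} (h : f =ᶠ[𝓝 x] g) :
    HessNondeg I f x ↔ HessNondeg I g x := by
  have h1 : f ∘ (extChartAt I x).symm =ᶠ[𝓝 (extChartAt I x x)] g ∘ (extChartAt I x).symm := by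
    have hc : Tendsto (extChartAt I x).symm (𝓝 (extChartAt I x x)) (𝓝 x) := by
      have := (continuousAt_extChartAt_symm (I := I) x).tendsto
      rwa [extChartAt_to_inv x] at this
    exact hc.eventually h
  unfold HessNondeg
  rw [(h1.fderiv (𝕜 := ℝ)).fderiv_eq]

end Congr

section SM

variable (V : Type*) [NormedAddCommGroup V] [NormedSpace ℝ V]
  (W : Type*) [TopologicalSpace W] [ChartedSpace V W] [IsManifold 𝓘(ℝ, V) ∞ W]

variable {V W} in
/-- The fibre derivative vanishes at critical points. -/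
theorem fderiv_slice_eq_zero {Z : Type*} [NormedAddCommGroup Z] [NormedSpace ℝ Z] {F : W × Z → ℝ}
    (hF : ContMDiff (𝓘(ℝ, V).prod 𝓘(ℝ, Z)) 𝓘(ℝ, ℝ) ∞ F) {x : W} {z : Z}
    (h : (x, z) ∈ Crit (𝓘(ℝ, V).prod 𝓘(ℝ, Z)) F) : fderiv ℝ (fun z => F (x, z)) z = 0 := by
  rw [mem_crit_iff_Dm] at h
  have h1 : HasMFDerivAt (𝓘(ℝ, V).prod 𝓘(ℝ, Z)) 𝓘(ℝ, ℝ) F (x, z)
      (mfderiv (𝓘(ℝ, V).prod 𝓘(ℝ, Z)) 𝓘(ℝ, ℝ) F (x, z)) :=
    ((hF _).mdifferentiableAt (by simp)).hasMFDerivAt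
  have h2 : ContMDiff 𝓘(ℝ, Z) (𝓘(ℝ, V).prod 𝓘(ℝ, Z)) ∞ (fun z : Z => (x, z)) :=
    contMDiff_const.prodMk contMDiff_id
  have h3 : HasMFDerivAt 𝓘(ℝ, Z) (𝓘(ℝ, V).prod 𝓘(ℝ, Z)) (fun z : Z => (x, z)) z
      (mfderiv 𝓘(ℝ, Z) (𝓘(ℝ, V).prod 𝓘(ℝ, Z)) (fun z : Z => (x, z)) z) :=
    ((h2 _).mdifferentiableAt (by simp)).hasMFDerivAt
  have h4 := h1.comp z h3
  have h5 : HasFDerivAt (fun z => F (x, z)) ((Dm (𝓘(ℝ, V).prod 𝓘(ℝ, Z)) 𝓘(ℝ, ℝ) F (x, z)).comp
      (Dm 𝓘(ℝ, Z) (𝓘(ℝ, V).prod 𝓘(ℝ, Z)) (fun z : Z => (x, z)) z)) z := h4.hasFDerivAt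
  rw [h5.fderiv, h, ContinuousLinearMap.zero_comp]

/-- A bound for the stable Morse number by the number of critical points of a function that is a
bounded perturbation of a nondegenerate quadratic form. -/
theorem stableMorseNumber_le_crit {N : ℕ} (b : Eu N →L[ℝ] Eu N →L[ℝ] ℝ)
    (hb : ∀ v, (∀ w, b v w + b w v = 0) → v = 0) {P : W × Eu N → ℝ}
    (hP : ContMDiff (𝓘(ℝ, V).prod 𝓘(ℝ, Eu N)) 𝓘(ℝ, ℝ) ∞ P) {C C' : ℝ} (hC : ∀ x, |P x| ≤ C)
    (hC' : ∀ x z, ‖fderiv ℝ (fun z => P (x, z)) z‖ ≤ C')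
    (hnd : ∀ x ∈ Crit (𝓘(ℝ, V).prod 𝓘(ℝ, Eu N)) (fun x : W × Eu N => b x.2 x.2 - P x),
      HessNondeg (𝓘(ℝ, V).prod 𝓘(ℝ, Eu N)) (fun x : W × Eu N => b x.2 x.2 - P x) x) :
    StableMorseNumber V W ≤
      (Crit (𝓘(ℝ, V).prod 𝓘(ℝ, Eu N)) (fun x : W × Eu N => b x.2 x.2 - P x)).encard := by
  rcases isEmpty_or_nonempty W with hW | hW
  · -- the empty manifold
    have hM : IsMorse (𝓘(ℝ, V).prod 𝓘(ℝ, Eu N)) (fun x : W × Eu N => (0 : ℝ)) :=
      ⟨contMDiff_const, fun x => (hW.false x.1).elim⟩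
    have hQ : QuadAtInfty (fun x : W × Eu N => (0 : ℝ)) := by
      intro _
      refine ⟨LinearMap.BilinMap.toQuadraticMap
        ((ContinuousLinearMap.coeLM ℝ).comp b.toLinearMap), 1, ?_, one_pos,
        fun x => (hW.false x).elim⟩
      intro v hv
      refine hb v fun w => ?_
      have := hv w
      rw [LinearMap.BilinMap.polar_toQuadraticMap] at this
      exact this
    have hle : StableMorseNumber V W ≤
        (Crit (𝓘(ℝ, V).prod 𝓘(ℝ, Eu N)) (fun x : W × Eu N => (0 : ℝ))).encard := by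
      unfold StableMorseNumber
      refine iInf_le_of_le N ?_
      unfold MorseNumberAt
      exact iInf_le_of_le _ (iInf_le_of_le hM (iInf_le_of_le hQ le_rfl))
    refine hle.trans (encard_le_encard ?_)
    intro x
    exact (hW.false x.1).elim
  obtain ⟨x₀⟩ := hW
  have hC0 : 0 ≤ C := (abs_nonneg _).trans (hC (x₀, 0))
  have hC'0 : 0 ≤ C' := (fderiv ℝ (fun z => P (x₀, z)) 0).opNorm_nonneg.trans (hC' x₀ 0)
  -- the quadratic form
  set b' : Eu N →L[ℝ] Eu N →L[ℝ] ℝ := b + b.flip with hb'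
  have hbd : ∀ z : Eu N, HasFDerivAt (fun z => b z z) (b' z) z := by
    intro z
    have h1 : HasFDerivAt (fun z : Eu N => b z) b z := b.hasFDerivAt
    have h2 := h1.clm_apply (hasFDerivAt_id z)
    refine h2.congr_fderiv ?_
    ext w
    simp [hb']
  obtain ⟨c, hc, hcb⟩ : ∃ c > 0, ∀ z, c * ‖z‖ ≤ ‖b' z‖ := by
    have hinj : LinearMap.ker (b' : Eu N →ₗ[ℝ] (Eu N →L[ℝ] ℝ)) = ⊥ := by
      rw [LinearMap.ker_eq_bot']
      intro v hv
      have hv' : b' v = 0 := hv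
      refine hb v fun w => ?_
      have h1 : b' v w = 0 := by rw [hv']; rfl
      simpa only [hb', add_apply, ContinuousLinearMap.flip_apply] using h1
    obtain ⟨K, hK, hanti⟩ := LinearMap.exists_antilipschitzWith
      (b' : Eu N →ₗ[ℝ] (Eu N →L[ℝ] ℝ)) hinj
    have hK' : (0 : ℝ) < K := by exact_mod_cast hK
    refine ⟨1 / K, by positivity, fun z => ?_⟩
    have h1 := hanti.le_mul_dist z 0
    simp only [dist_zero_right, map_zero] at h1
    rw [div_mul_eq_mul_div, one_mul, div_le_iff₀ hK']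
    have h2 : ‖(b' : Eu N →ₗ[ℝ] (Eu N →L[ℝ] ℝ)) z‖ = ‖b' z‖ := rfl
    rw [h2] at h1
    linarith only [h1]
  -- the cutoff function
  let θ : ContDiffBump (0 : Eu N) := ⟨1, 2, one_pos, one_lt_two⟩
  have hθs : ContDiff ℝ ∞ (θ : Eu N → ℝ) := θ.contDiff
  obtain ⟨Cθ, hCθ⟩ : ∃ Cθ, ∀ z, ‖fderiv ℝ (θ : Eu N → ℝ) z‖ ≤ Cθ :=
    (hθs.continuous_fderiv (by simp)).bounded_above_of_compact_support
      (θ.hasCompactSupport.fderiv (𝕜 := ℝ))
  have hCθ0 : 0 ≤ Cθ := (fderiv ℝ (θ : Eu N → ℝ) 0).opNorm_nonneg.trans (hCθ 0)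
  set ρ := 1 + (Cθ * C + C') / c with hρ
  have hρ1 : 1 ≤ ρ := by
    rw [hρ]
    have : 0 ≤ (Cθ * C + C') / c := by (clear * - hCθ0 hC0 hC'0 hc; positivity)
    linarith only [this]
  have hρpos : 0 < ρ := by linarith only [hρ1]
  have hρc : Cθ * C + C' < c * ρ := by
    have h1 : c * ρ = c + (Cθ * C + C') := by
      rw [hρ, mul_add, mul_div_cancel₀ _ hc.ne']
      ring
    rw [h1]
    linarith only [hc]
  set θ' : Eu N → ℝ := fun z => θ (ρ⁻¹ • z) with hθ'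
  have hθ's : ContDiff ℝ ∞ θ' := hθs.comp (contDiff_const_smul ρ⁻¹)
  have hθ'd : ∀ z, HasFDerivAt θ' (ρ⁻¹ • fderiv ℝ (θ : Eu N → ℝ) (ρ⁻¹ • z)) z := by
    intro z
    have h1 : HasFDerivAt (fun z : Eu N => ρ⁻¹ • z) (ρ⁻¹ • ContinuousLinearMap.id ℝ (Eu N)) z :=
      (hasFDerivAt_id z).const_smul ρ⁻¹
    have h2 : HasFDerivAt (θ : Eu N → ℝ) (fderiv ℝ (θ : Eu N → ℝ) (ρ⁻¹ • z)) (ρ⁻¹ • z) :=
      ((hθs.differentiable (by simp)) _).hasFDerivAt
    refine (HasFDerivAt.comp z h2 h1).congr_fderiv ?_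
    ext w
    simp
  have hθ'1 : ∀ z, ‖z‖ ≤ ρ → θ' z = 1 := by
    intro z hz
    apply θ.one_of_mem_closedBall
    rw [Metric.mem_closedBall, dist_zero_right, norm_smul, Real.norm_of_nonneg (by (clear * - hCθ0 hC0 hC'0 hc; positivity))]
    change ρ⁻¹ * ‖z‖ ≤ 1
    rw [inv_mul_le_iff₀ hρpos, mul_one]
    exact hz
  have hθ'0 : ∀ z, 2 * ρ ≤ ‖z‖ → θ' z = 0 := by
    intro z hz
    apply θ.zero_of_le_dist
    rw [dist_zero_right, norm_smul, Real.norm_of_nonneg (by (clear * - hCθ0 hC0 hC'0 hc; positivity))]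
    change 2 ≤ ρ⁻¹ * ‖z‖
    rw [le_inv_mul_iff₀ hρpos]
    linarith only [hz]
  have hθ'le : ∀ z, |θ' z| ≤ 1 := by
    intro z
    rw [abs_of_nonneg θ.nonneg]
    exact θ.le_one
  set F : W × Eu N → ℝ := fun x => b x.2 x.2 - P x with hF
  set F' : W × Eu N → ℝ := fun x => b x.2 x.2 - θ' x.2 * P x with hF'
  have hbs : ContMDiff (𝓘(ℝ, V).prod 𝓘(ℝ, Eu N)) 𝓘(ℝ, ℝ) ∞
      (fun x : W × Eu N => b x.2 x.2) := by
    have h1 : ContDiff ℝ ∞ (fun z : Eu N => b z z) := by fun_prop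
    exact h1.contMDiff.comp contMDiff_snd
  have hθm : ContMDiff (𝓘(ℝ, V).prod 𝓘(ℝ, Eu N)) 𝓘(ℝ, ℝ) ∞
      (fun x : W × Eu N => θ' x.2) := hθ's.contMDiff.comp contMDiff_snd
  have hFs : ContMDiff (𝓘(ℝ, V).prod 𝓘(ℝ, Eu N)) 𝓘(ℝ, ℝ) ∞ F := hbs.sub hP
  have hF's : ContMDiff (𝓘(ℝ, V).prod 𝓘(ℝ, Eu N)) 𝓘(ℝ, ℝ) ∞ F' := hbs.sub (hθm.mul hP)
  -- there are no critical points far away
  have hPd : ∀ x z, DifferentiableAt ℝ (fun z => P (x, z)) z := by
    intro x z
    have h2 : ContMDiff 𝓘(ℝ, Eu N) (𝓘(ℝ, V).prod 𝓘(ℝ, Eu N)) ∞ (fun z : Eu N => (x, z)) :=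
      contMDiff_const.prodMk contMDiff_id
    exact (hP.comp h2).contDiff.differentiable (by simp) z
  have hfar : ∀ x z, (x, z) ∈ Crit (𝓘(ℝ, V).prod 𝓘(ℝ, Eu N)) F' → ‖z‖ < ρ := by
    intro x z hxz
    have h1 := fderiv_slice_eq_zero hF's hxz
    have h2 : HasFDerivAt (fun z => F' (x, z)) (b' z - (θ' z • fderiv ℝ (fun z => P (x, z)) z +
        P (x, z) • (ρ⁻¹ • fderiv ℝ (θ : Eu N → ℝ) (ρ⁻¹ • z)))) z :=
      (hbd z).sub ((hθ'd z).mul (hPd x z).hasFDerivAt)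
    rw [h2.fderiv, sub_eq_zero] at h1
    by_contra hz
    push Not at hz
    have h3 := hcb z
    rw [h1] at h3
    have h4 := norm_add_le (θ' z • fderiv ℝ (fun z => P (x, z)) z)
      (P (x, z) • (ρ⁻¹ • fderiv ℝ (θ : Eu N → ℝ) (ρ⁻¹ • z)))
    rw [norm_smul, norm_smul, norm_smul, Real.norm_eq_abs, Real.norm_eq_abs,
      Real.norm_of_nonneg (by (clear * - hCθ0 hC0 hC'0 hc; positivity) : (0 : ℝ) ≤ ρ⁻¹)] at h4
    have h5 : |θ' z| * ‖fderiv ℝ (fun z => P (x, z)) z‖ ≤ 1 * C' :=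
      mul_le_mul (hθ'le z) (hC' x z) (fderiv ℝ (fun z => P (x, z)) z).opNorm_nonneg zero_le_one
    have h6 : ρ⁻¹ * ‖fderiv ℝ (θ : Eu N → ℝ) (ρ⁻¹ • z)‖ ≤ 1 * Cθ :=
      mul_le_mul (inv_le_one_of_one_le₀ hρ1) (hCθ _)
        (fderiv ℝ (θ : Eu N → ℝ) (ρ⁻¹ • z)).opNorm_nonneg zero_le_one
    have h7 : |P (x, z)| * (ρ⁻¹ * ‖fderiv ℝ (θ : Eu N → ℝ) (ρ⁻¹ • z)‖) ≤ C * (1 * Cθ) :=
      mul_le_mul (hC _) h6 (mul_nonneg (by (clear * - hCθ0 hC0 hC'0 hc; positivity))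
        (fderiv ℝ (θ : Eu N → ℝ) (ρ⁻¹ • z)).opNorm_nonneg) hC0
    have h8 : c * ρ ≤ c * ‖z‖ := mul_le_mul_of_nonneg_left hz hc.le
    linarith only [hρc, h3, h4, h5, h7, h8]
  have hnear : ∀ x z, ‖z‖ < ρ → F' =ᶠ[𝓝 (x, z)] F := by
    intro x z hz
    have h1 : ∀ᶠ q : W × Eu N in 𝓝 (x, z), ‖q.2‖ < ρ := by
      have : Continuous fun q : W × Eu N => ‖q.2‖ := by fun_prop
      exact (this.tendsto (x, z)).eventually (gt_mem_nhds hz)
    filter_upwards [h1] with q hq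
    simp only [hF, hF', hθ'1 q.2 hq.le, one_mul]
  have hM : IsMorse (𝓘(ℝ, V).prod 𝓘(ℝ, Eu N)) F' := by
    refine ⟨hF's, ?_⟩
    rintro ⟨x, z⟩ hxz
    have h1 := hnear x z (hfar x z hxz)
    rw [hessNondeg_congr h1]
    exact hnd _ ((mem_crit_congr h1).1 hxz)
  have hQ : QuadAtInfty F' := by
    intro _
    refine ⟨LinearMap.BilinMap.toQuadraticMap
      ((ContinuousLinearMap.coeLM ℝ).comp b.toLinearMap), 2 * ρ, ?_, by (clear * - hCθ0 hC0 hC'0 hc; positivity), ?_⟩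
    · intro v hv
      refine hb v fun w => ?_
      have := hv w
      rw [LinearMap.BilinMap.polar_toQuadraticMap] at this
      exact this
    · intro x z hz
      simp only [hF', hθ'0 z hz, zero_mul, sub_zero]
      rfl
  have hle : StableMorseNumber V W ≤ (Crit (𝓘(ℝ, V).prod 𝓘(ℝ, Eu N)) F').encard := by
    unfold StableMorseNumber
    refine iInf_le_of_le N ?_
    unfold MorseNumberAt
    exact iInf_le_of_le _ (iInf_le_of_le hM (iInf_le_of_le hQ le_rfl))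
  refine hle.trans (encard_le_encard ?_)
  rintro ⟨x, z⟩ hxz
  exact (mem_crit_congr (hnear x z (hfar x z hxz))).1 hxz

end SM

end Vale.Agent.P265
end
end

section

section

open Set Filter Manifold
open scoped ContDiff Topology

set_option maxSynthPendingDepth 3
set_option linter.unusedSectionVars false

namespace Vale.Agent.P265.Flat

variable {V : Type*} [NormedAddCommGroup V] [NormedSpace ℝ V]
  {M : Type*} [TopologicalSpace M] [ChartedSpace V M]

/-- A section of `p` over `p '' U`. -/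
noncomputable def sec (U : Set V) (p : V → M) (x : M) : V :=
  haveI := Classical.propDecidable (∃ z ∈ U, p z = x)
  if h : ∃ z ∈ U, p z = x then h.choose else 0

theorem sec_spec {U : Set V} {p : V → M} {z : V} (hz : z ∈ U) :
    sec U p (p z) ∈ U ∧ p (sec U p (p z)) = p z := by
  have h : ∃ w ∈ U, p w = p z := ⟨z, hz, rfl⟩
  have h1 : sec U p (p z) = h.choose := dif_pos h
  rw [h1]
  exact h.choose_spec

/-- The contribution of one domain to the generating function. -/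
noncomputable def term (U : Set V) (p : V → M) (χ : M → ℝ) (G : ℝ × V → ℝ)
    (K : M → ℝ) (m : ℕ) (x : M × (Fin m → V)) : ℝ :=
  χ x.1 * (act G m (sec U p x.1, x.2) - K x.1)

theorem act_periodic {G : ℝ × V → ℝ} {Λ : AddSubgroup V}
    (hG : ∀ t z, ∀ l ∈ Λ, G (t, z + l) = G (t, z)) {m : ℕ} (z : V) {l : V} (hl : l ∈ Λ)
    (ζ : Fin m → V) : act G m (z + l, ζ) = act G m (z, ζ) := by
  unfold act
  refine Finset.sum_congr rfl fun j _ => ?_
  have h1 : z + l + ex ζ j = z + ex ζ j + l := by abel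
  simp only [h1, hG _ _ l hl]

variable [FiniteDimensional ℝ V]

theorem contDiff_act {G : ℝ × V → ℝ} (hG : ContDiff ℝ ∞ G) (m : ℕ) :
    ContDiff ℝ ∞ (act G m) := by
  have h1 : act G m = fun q => ∑ j ∈ Finset.range m,
      hst m * G ((j : ℝ) * hst m, aL m V j q) := by
    funext q
    simp only [act, aL_apply]
  rw [h1]
  refine ContDiff.sum fun j _ => contDiff_const.mul ?_
  exact hG.comp (contDiff_const.prodMk (aL m V j).contDiff)

theorem act_lip {m : ℕ} (hm0 : 0 < m) {β : V →L[ℝ] V →L[ℝ] ℝ} {G : ℝ × V → ℝ} {X : ℝ × V → V}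
    {L : ℝ} (hGX : ∀ t w, HasFDerivAt (fun w => G (t, w)) (β (X (t, w))) w)
    (hX : ∀ q, ‖X q‖ ≤ L) (z : V) (ζ ζ' : Fin m → V) :
    |act G m (z, ζ) - act G m (z, ζ')| ≤ ‖β‖ * L * ‖ζ - ζ'‖ := by
  have hL : 0 ≤ L := (norm_nonneg _).trans (hX 0)
  have hβ : 0 ≤ ‖β‖ := β.opNorm_nonneg
  have hh := hst_pos hm0
  have hG : ∀ t w w', |G (t, w) - G (t, w')| ≤ ‖β‖ * L * ‖w - w'‖ := by
    intro t w w'
    refine Convex.norm_image_sub_le_of_norm_hasFDerivWithin_le (𝕜 := ℝ)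
      (f := fun w => G (t, w)) (s := univ)
      (fun x _ => (hGX t x).hasFDerivWithinAt) (fun x _ => ?_) convex_univ (mem_univ _)
      (mem_univ _)
    exact (β.le_opNorm _).trans (mul_le_mul_of_nonneg_left (hX _) hβ)
  unfold act
  rw [← Finset.sum_sub_distrib]
  refine (Finset.abs_sum_le_sum_abs _ _).trans ?_
  have h1 : ∀ j ∈ Finset.range m,
      |hst m * G ((j : ℝ) * hst m, (z, ζ).1 + ex (z, ζ).2 j) -
        hst m * G ((j : ℝ) * hst m, (z, ζ').1 + ex (z, ζ').2 j)| ≤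
        hst m * (‖β‖ * L * ‖ζ - ζ'‖) := by
    intro j _
    rw [← mul_sub, abs_mul, abs_of_pos hh]
    refine mul_le_mul_of_nonneg_left ((hG _ _ _).trans ?_) hh.le
    refine mul_le_mul_of_nonneg_left ?_ (by positivity)
    have h2 : (z, ζ).1 + ex (z, ζ).2 j - ((z, ζ').1 + ex (z, ζ').2 j) = ex (ζ - ζ') j := by
      rw [ex_sub]
      simp only [add_sub_add_left_eq_sub]
    rw [h2]
    exact norm_ex_le _ j
  refine (Finset.sum_le_sum h1).trans ?_
  rw [Finset.sum_const, Finset.card_range, nsmul_eq_mul, ← mul_assoc, hst_mul hm0, one_mul]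

theorem abs_act_le {m : ℕ} (hm0 : 0 < m) {G : ℝ × V → ℝ} {C : ℝ} (hG : ∀ q, |G q| ≤ C)
    (q : V × (Fin m → V)) : |act G m q| ≤ C := by
  have hh := hst_pos hm0
  unfold act
  refine (Finset.abs_sum_le_sum_abs _ _).trans ?_
  have h1 : ∀ j ∈ Finset.range m,
      |hst m * G ((j : ℝ) * hst m, q.1 + ex q.2 j)| ≤ hst m * C := by
    intro j _
    rw [abs_mul, abs_of_pos hh]
    exact mul_le_mul_of_nonneg_left (hG _) hh.le
  refine (Finset.sum_le_sum h1).trans ?_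
  rw [Finset.sum_const, Finset.card_range, nsmul_eq_mul, ← mul_assoc, hst_mul hm0, one_mul]

variable [IsManifold 𝓘(ℝ, V) ∞ M]

namespace Piece

variable {om : FormField V M} {β : V →L[ℝ] V →L[ℝ] ℝ} {Cβ : ℝ} {K : M → ℝ} {H : ℝ → M → ℝ}
  {U : Set V}
  {Λ : AddSubgroup V} {p : V → M} {P : Set V} {N : V → ℝ} {a : ℝ}
  {χ η : M → ℝ} {c ε Cχ : ℝ} {m : ℕ}
  (h : Piece om β Cβ K H U Λ p P N a χ η c ε Cχ)
include h

theorem GH_per (t : ℝ) (z : V) (l : V) (hl : l ∈ Λ) :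
    GH U p η H c (t, z + l) = GH U p η H c (t, z) :=
  GH_periodic h.dom h.cutη (by linarith [h.apos]) h.Hs t z l hl

theorem XH_per (t : ℝ) (z : V) (l : V) (hl : l ∈ Λ) :
    XH β U p η H c (t, z + l) = XH β U p η H c (t, z) :=
  XH_periodic h.dom h.cutη (by linarith [h.apos]) h.Hs t z l hl

theorem contDiff_GH : ContDiff ℝ ∞ (GH U p η H c) :=
  contDiff_const.add (contDiff_lift_gH h.dom h.cutη (by linarith [h.apos]) h.Hs)

theorem term_eq {z : V} (hz : z ∈ U) (ζ : Fin m → V) :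
    term U p χ (GH U p η H c) K m (p z, ζ) =
      χ (p z) * (act (GH U p η H c) m (z, ζ) - K (p z)) := by
  obtain ⟨h1, h2⟩ := sec_spec (p := p) hz
  have h3 : sec U p (p z) - z ∈ Λ := (h.dom.fiber z hz _ h1).1 h2.symm
  have h4 := act_periodic h.GH_per (m := m) z h3 ζ
  rw [add_sub_cancel] at h4
  simp only [term, h4]

theorem term_zero {x : M} (hx : x ∉ p '' {w | N w < 3 * a}) (ζ : Fin m → V) :
    term U p χ (GH U p η H c) K m (x, ζ) = 0 := by
  simp only [term, h.cutχ.zero x hx, zero_mul]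

/-- Smoothness of the contribution of one domain. -/
theorem contMDiff_term [T2Space M] (hom : IsSymplectic om) {Z : Type*} [NormedAddCommGroup Z]
    [NormedSpace ℝ Z] (A : Z →L[ℝ] (Fin m → V)) :
    ContMDiff (𝓘(ℝ, V).prod 𝓘(ℝ, Z)) 𝓘(ℝ, ℝ) ∞
      (fun x : M × Z => term U p χ (GH U p η H c) K m (x.1, A x.2)) := by
  rintro ⟨x, ξ⟩
  by_cases hx : x ∈ p '' U
  · obtain ⟨z, hz, rfl⟩ := hx
    obtain ⟨e, U', hzU', hU'U, hp⟩ := h.dom.localParam hom hz
    have h1 : ContMDiffAt 𝓘(ℝ, V) 𝓘(ℝ, V) ∞ e (p z) := hp.contMDiffAt_inv hzU'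
    have h2 : ContMDiffAt (𝓘(ℝ, V).prod 𝓘(ℝ, Z)) 𝓘(ℝ, V) ∞
        (fun x : M × Z => e x.1) (p z, ξ) :=
      ContMDiffAt.comp (I' := 𝓘(ℝ, V)) _ (g := e) (f := fun x : M × Z => x.1) h1
        contMDiffAt_fst
    have h3 : ContMDiffAt (𝓘(ℝ, V).prod 𝓘(ℝ, Z)) 𝓘(ℝ, Fin m → V) ∞
        (fun x : M × Z => A x.2) (p z, ξ) :=
      ContMDiffAt.comp (I' := 𝓘(ℝ, Z)) _ (g := A) (f := fun x : M × Z => x.2)
        A.contDiff.contMDiff.contMDiffAt contMDiffAt_snd
    have h4 : ContMDiffAt (𝓘(ℝ, V).prod 𝓘(ℝ, Z)) 𝓘(ℝ, ℝ) ∞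
        (fun x : M × Z => act (GH U p η H c) m (e x.1, A x.2)) (p z, ξ) := by
      have h5 := (contDiff_act h.contDiff_GH m).contMDiff.contMDiffAt
        (x := (e (p z), A ξ))
      exact ContMDiffAt.comp (p z, ξ) (g := act (GH U p η H c) m)
        (f := fun x : M × Z => (e x.1, A x.2)) h5 (h2.prodMk_space h3)
    have h5 : ContMDiffAt (𝓘(ℝ, V).prod 𝓘(ℝ, Z)) 𝓘(ℝ, ℝ) ∞
        (fun x : M × Z => χ x.1) (p z, ξ) := (h.cutχ.smooth.comp contMDiff_fst).contMDiffAt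
    have h6 : ContMDiffAt (𝓘(ℝ, V).prod 𝓘(ℝ, Z)) 𝓘(ℝ, ℝ) ∞
        (fun x : M × Z => K x.1) (p z, ξ) := (h.Ks.comp contMDiff_fst).contMDiffAt
    refine (h5.mul (h4.sub h6)).congr_of_eventuallyEq ?_
    have h7 : ∀ᶠ x : M × Z in 𝓝 (p z, ξ), x.1 ∈ p '' U' :=
      (continuous_fst.tendsto (p z, ξ)).eventually
        (hp.isOpen_image.mem_nhds (mem_image_of_mem p hzU'))
    filter_upwards [h7] with x hx
    obtain ⟨w, hw, hwx⟩ := hx
    have h8 : e x.1 = w := by rw [← hwx, hp.left_inv w hw]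
    simp only [Pi.mul_apply, h8]
    rw [← hwx]
    exact h.term_eq (hU'U hw) (A x.2)
  · have ha := h.apos
    have h1 : IsClosed (p '' {w | N w ≤ 3 * a}) :=
      (h.dom.isCompact_image (by linarith)).isClosed
    have h2 : x ∉ p '' {w | N w ≤ 3 * a} := by
      rintro ⟨w, hw, rfl⟩
      have hw' : N w ≤ 3 * a := hw
      exact hx ⟨w, h.dom.mem_of_NN (by linarith only [ha, hw']), rfl⟩
    have h3 : ∀ᶠ y : M × Z in 𝓝 (x, ξ), y.1 ∉ p '' {w | N w ≤ 3 * a} :=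
      (continuous_fst.tendsto (x, ξ)).eventually (h1.isOpen_compl.mem_nhds h2)
    have h4 : (fun x : M × Z => term U p χ (GH U p η H c) K m (x.1, A x.2)) =ᶠ[𝓝 (x, ξ)]
        fun _ => 0 := by
      filter_upwards [h3] with y hy
      refine h.term_zero (fun hcon => hy ?_) _
      obtain ⟨w, hw, hwy⟩ := hcon
      have hw' : N w < 3 * a := hw
      exact ⟨w, hw'.le, hwy⟩
    exact contMDiffAt_const.congr_of_eventuallyEq h4

theorem term_bounds (hm0 : 0 < m) {L C CK : ℝ} (hL : ∀ q, ‖XH β U p η H c q‖ ≤ L)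
    (hC : ∀ q, |GH U p η H c q| ≤ C) (hCK : ∀ x, |K x| ≤ CK) (x : M)
    (ζ ζ' : Fin m → V) : |term U p χ (GH U p η H c) K m (x, ζ)| ≤ C + CK ∧
      |term U p χ (GH U p η H c) K m (x, ζ) - term U p χ (GH U p η H c) K m (x, ζ')| ≤
        ‖β‖ * L * ‖ζ - ζ'‖ := by
  have h1 := h.cutχ.mem x
  constructor
  · simp only [term]
    rw [abs_mul, abs_of_nonneg h1.1]
    have h2 : |act (GH U p η H c) m (sec U p x, ζ) - K x| ≤ C + CK :=
      (abs_sub _ _).trans (add_le_add (abs_act_le hm0 hC _) (hCK x))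
    have h3 := abs_nonneg (act (GH U p η H c) m (sec U p x, ζ) - K x)
    nlinarith only [h2, h3, h1.2]
  · simp only [term]
    have h2 := act_lip hm0 h.hGX hL (sec U p x) ζ ζ'
    have h3 : χ x * (act (GH U p η H c) m (sec U p x, ζ) - K x) -
        χ x * (act (GH U p η H c) m (sec U p x, ζ') - K x) =
        χ x * (act (GH U p η H c) m (sec U p x, ζ) -
          act (GH U p η H c) m (sec U p x, ζ')) := by ring
    rw [h3, abs_mul, abs_of_nonneg h1.1]
    have h4 := abs_nonneg (act (GH U p η H c) m (sec U p x, ζ) -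
          act (GH U p η H c) m (sec U p x, ζ'))
    nlinarith only [h2, h4, h1.2]

end Piece

end Vale.Agent.P265.Flat
end
end

section

section

open Set Filter Manifold
open scoped ContDiff Topology

set_option maxSynthPendingDepth 3
set_option linter.unusedSectionVars false

namespace Vale.Agent.P265.Flat

variable {V : Type*} [NormedAddCommGroup V] [NormedSpace ℝ V] [FiniteDimensional ℝ V]
  {M : Type*} [TopologicalSpace M] [ChartedSpace V M] [IsManifold 𝓘(ℝ, V) ∞ M]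

/-- Fixed point data of a piece. -/
theorem Piece.fix_data [T2Space M] {om : FormField V M} {β : V →L[ℝ] V →L[ℝ] ℝ} {Cβ : ℝ}
    {K : M → ℝ} {H : ℝ → M → ℝ}
    {U : Set V} {Λ : AddSubgroup V} {p : V → M} {P : Set V} {N : V → ℝ}
    {a : ℝ} {χ η : M → ℝ} {c ε Cχ : ℝ} (h : Piece om β Cβ K H U Λ p P N a χ η c ε Cχ)
    (hom : IsSymplectic om) {φ : ℝ → M → M} (hφ : IsHamiltonianFlow om H φ)
    (hnd : NondegFixedPoints V (φ 1)) :
    ∃ (S : Set V) (η' C κ₀ : ℝ) (m₀ : ℕ), 0 < C ∧ 0 < κ₀ ∧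
      (∀ s ∈ S, N s ≤ a ∧ p s ∈ Fix0 φ) ∧ ∀ m, m₀ ≤ m → 0 < m →
      (∀ (z : V) (ζ : Fin m → V), Even m → N z ≤ a →
        (∀ j < m, res (XH β U p η H c) m 1 z ζ j = 0) → ell ζ 0 = 0 →
          ∃ s ∈ S, ‖z - s‖ < η') ∧
      (∀ s ∈ S, ∀ u ρ u' ρ' : ℕ → V, IsChain (XH β U p η H c) m u ρ →
        IsChain (XH β U p η H c) m u' ρ' → ‖u 0 - s‖ < η' → ‖u' 0 - s‖ < η' →
        ∑ i ∈ Finset.range m, ‖ρ i‖ ≤ κ₀ → ∑ i ∈ Finset.range m, ‖ρ' i‖ ≤ κ₀ →
        ∀ j ≤ m, ‖u j - u' j‖ ≤ C * (∑ i ∈ Finset.range m, ‖ρ i - ρ' i‖ +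
          ‖(u m - u 0) - (u' m - u' 0)‖)) := by
  have ha := h.apos
  obtain ⟨L, hL⟩ := niceField_XH (c := c) h.dom h.cutη (by linarith) h.Hs
  obtain ⟨y, hy⟩ := hL.exists_sol
  have hT : IsClosed {z | N z ≤ a} := isClosed_le h.dom.NN_continuous continuous_const
  have hTΛ : ∀ z ∈ {z | N z ≤ a}, ∀ l ∈ Λ, z + l ∈ {z | N z ≤ a} := by
    intro z hz l hl
    change N (z + l) ≤ a
    rw [h.dom.NN_inv hl]
    exact hz
  have hTP : ∀ z ∈ {z | N z ≤ a}, ∃ l ∈ Λ, z + l ∈ P := by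
    intro z hz
    have hz' : N z ≤ a := hz
    exact h.dom.cocompact z (h.dom.mem_of_NN (by linarith only [ha, hz']))
  obtain ⟨η', hη', C, hC, κ₀, hκ₀, m₀, hk⟩ := kp hL h.XH_per hy hT hTΛ h.dom.compact hTP
    (fun s hs hfix => nondeg_at h.dom hom h.cutη (by linarith) (by linarith) h.Hs hφ hnd hL hy
      h.εnn h.X1 ha.le (by linarith [h.εa, h.εnn]) hs hfix)
  refine ⟨{s | N s ≤ a ∧ y s 1 = s}, η', C, κ₀, m₀, hC, hκ₀, ?_, ?_⟩
  · rintro s ⟨hs, hfix⟩
    exact ⟨hs, mem_fix0 h.dom hom h.cutη (by linarith) (by linarith) h.Hs hφ hL hy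
      h.εnn h.X1 ha.le (by linarith only [ha, h.εa]) hs hfix⟩
  · intro m hmk hm0
    obtain ⟨hk1, hk2⟩ := hk m hmk hm0
    refine ⟨?_, fun s hs => hk2 s hs.1 hs.2⟩
    intro z ζ hm hz hres hz0
    obtain ⟨s, hs1, hs2, hs3⟩ := hk1 (fun j => z + ell ζ j) _ (isChain_of_res z ζ)
      hres (by simp [ell_last hm, hz0]) (by simpa only [hz0, add_zero, mem_ofPred_eq] using hz)
    refine ⟨s, ⟨hs1, hs2⟩, ?_⟩
    simpa [hz0] using hs3

/-- A bound for the vector field of a piece. -/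
theorem Piece.exists_bound {om : FormField V M} {β : V →L[ℝ] V →L[ℝ] ℝ} {Cβ : ℝ}
    {K : M → ℝ} {H : ℝ → M → ℝ}
    {U : Set V} {Λ : AddSubgroup V} {p : V → M} {P : Set V} {N : V → ℝ}
    {a : ℝ} {χ η : M → ℝ} {c ε Cχ : ℝ} (h : Piece om β Cβ K H U Λ p P N a χ η c ε Cχ) :
    ∃ L, 0 ≤ L ∧ ∀ q, ‖XH β U p η H c q‖ ≤ L := by
  have ha := h.apos
  obtain ⟨L, hL⟩ := niceField_XH (c := c) h.dom h.cutη (by linarith only [ha]) h.Hs
  exact ⟨L, zero_le_one.trans hL.one_le, hL.bound⟩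

section LocalExpr

variable {Z Z' : Type*} [NormedAddCommGroup Z] [NormedSpace ℝ Z] [FiniteDimensional ℝ Z]
  [NormedAddCommGroup Z'] [NormedSpace ℝ Z']

/-- Critical points in terms of a local expression. -/
theorem crit_of_local {F : M × Z → ℝ}
    (hF : ContMDiff (𝓘(ℝ, V).prod 𝓘(ℝ, Z)) 𝓘(ℝ, ℝ) ∞ F) (A : Z' ≃L[ℝ] Z)
    {Q : V → M} {e : M → V} {U' : Set V}
    (hp : IsLocalParam 𝓘(ℝ, V) Q e U') {z : V} (hz : z ∈ U') {ζ : Z'}
    {f : V × Z' → ℝ} (hf : ∀ᶠ q in 𝓝 (z, ζ), F (Q q.1, A q.2) = f q) :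
    ((Q z, A ζ) ∈ Crit (𝓘(ℝ, V).prod 𝓘(ℝ, Z)) F ↔ fderiv ℝ f (z, ζ) = 0) ∧
    ((Q z, A ζ) ∈ Crit (𝓘(ℝ, V).prod 𝓘(ℝ, Z)) F → GradLB f (z, ζ) →
      HessNondeg (𝓘(ℝ, V).prod 𝓘(ℝ, Z)) F (Q z, A ζ)) := by
  have hpp := hp.prodLinear A
  generalize hPc : (fun q : V × Z' => (Q q.1, A q.2)) = Pc at hpp
  have hmem : (z, ζ) ∈ U' ×ˢ (univ : Set Z') := ⟨hz, mem_univ _⟩
  have hPP : Pc (z, ζ) = (Q z, A ζ) := by rw [← hPc]
  have hfe : F ∘ Pc =ᶠ[𝓝 (z, ζ)] f := by
    filter_upwards [hf] with q hq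
    rw [← hq, ← hPc]
    rfl
  have h1 := hpp.mem_crit_iff hmem (f := F) ((hF _).mdifferentiableAt (by simp))
  rw [hPP, hfe.fderiv_eq] at h1
  refine ⟨h1, fun hcrit hlb => ?_⟩
  have h2 := hessNondeg_of_param hpp hmem hF (by rw [hPP]; exact hcrit) (hlb.congr hfe.symm)
  rwa [hPP] at h2

end LocalExpr

section Family

variable {ι : Type*} [Fintype ι] {om : FormField V M} {β : V →L[ℝ] V →L[ℝ] ℝ} {Cβ : ℝ} {K : M → ℝ} {H : ℝ → M → ℝ}
  {U : ι → Set V} {Λ : ι → AddSubgroup V} {p : ι → V → M}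
  {P : ι → Set V} {N : ι → V → ℝ} {a : ι → ℝ} {χ η : ι → M → ℝ} {c ε Cχ : ι → ℝ}
  {m : ℕ}

/-- The bounded part of the generating function. -/
noncomputable def EG (U : ι → Set V) (p : ι → V → M) (χ η : ι → M → ℝ) (c : ι → ℝ)
    (K : M → ℝ) (H : ℝ → M → ℝ) (m : ℕ) (x : M × (Fin m → V)) : ℝ :=
  K x.1 + ∑ i, term (U i) (p i) (χ i) (GH (U i) (p i) (η i) H (c i)) K m x

variable (h : ∀ i, Piece om β Cβ K H (U i) (Λ i) (p i) (P i) (N i) (a i) (χ i) (η i) (c i)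
  (ε i) (Cχ i)) (hdisj : ∀ i j, i ≠ j → Disjoint (p i '' U i) (p j '' U j))

include h in
theorem EG_outer {x : M} (hx : ∀ i, x ∉ p i '' {w | N i w < 3 * a i})
    (ζ : Fin m → V) : EG U p χ η c K H m (x, ζ) = K x := by
  rw [EG, Finset.sum_eq_zero fun i _ => (h i).term_zero (hx i) ζ, add_zero]

include h hdisj in
theorem EG_inner {i : ι} {z : V} (hz : z ∈ U i) (ζ : Fin m → V) :
    bForm m β ζ ζ - EG U p χ η c K H m (p i z, ζ) =
      locF β (GH (U i) (p i) (η i) H (c i)) (χ i ∘ p i) (K ∘ p i) m (z, ζ) := by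
  have h1 : ∑ j, term (U j) (p j) (χ j) (GH (U j) (p j) (η j) H (c j)) K m (p i z, ζ) =
      χ i (p i z) * (act (GH (U i) (p i) (η i) H (c i)) m (z, ζ) - K (p i z)) := by
    rw [Finset.sum_eq_single i]
    · exact (h i).term_eq hz ζ
    · intro j _ hj
      refine (h j).term_zero ?_ ζ
      rintro ⟨w, hw, hwz⟩
      have hw' : N j w < 3 * a j := hw
      have hwU : w ∈ U j := (h j).dom.mem_of_NN (by linarith only [hw', (h j).apos])
      exact disjoint_left.1 (hdisj j i hj) ⟨w, hwU, rfl⟩ (by rw [hwz]; exact ⟨z, hz, rfl⟩)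
    · intro hi
      exact absurd (Finset.mem_univ i) hi
  rw [EG, h1, locF]
  simp only [Function.comp_apply]
  ring

include h in
theorem contMDiff_EG [T2Space M] (hom : IsSymplectic om)
    (hK : ContMDiff 𝓘(ℝ, V) 𝓘(ℝ, ℝ) ∞ K) {Z : Type*}
    [NormedAddCommGroup Z] [NormedSpace ℝ Z] (A : Z →L[ℝ] (Fin m → V)) :
    ContMDiff (𝓘(ℝ, V).prod 𝓘(ℝ, Z)) 𝓘(ℝ, ℝ) ∞
      (fun x : M × Z => EG U p χ η c K H m (x.1, A x.2)) := by
  have h1 : ContMDiff (𝓘(ℝ, V).prod 𝓘(ℝ, Z)) 𝓘(ℝ, ℝ) ∞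
      (fun x : M × Z => K x.1) := hK.comp contMDiff_fst
  have h2 : ContMDiff (𝓘(ℝ, V).prod 𝓘(ℝ, Z)) 𝓘(ℝ, ℝ) ∞
      (fun x : M × Z => ∑ i, term (U i) (p i) (χ i) (GH (U i) (p i) (η i) H (c i)) K m
        (x.1, A x.2)) :=
    contMDiff_finsetSum fun i _ => (h i).contMDiff_term hom A
  exact h1.add h2

end Family

end Vale.Agent.P265.Flat
end
end

section

section

open Set Filter Manifold
open scoped ContDiff Topology

set_option maxSynthPendingDepth 3
set_option linter.unusedSectionVars false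

namespace Vale.Agent.P265.Flat

variable {V : Type*} [NormedAddCommGroup V] [NormedSpace ℝ V] [FiniteDimensional ℝ V]
  {M : Type*} [TopologicalSpace M] [ChartedSpace V M] [IsManifold 𝓘(ℝ, V) ∞ M]

section Family

variable {ι : Type*} [Fintype ι] {om : FormField V M} {β : V →L[ℝ] V →L[ℝ] ℝ} {Cβ : ℝ}
  {K : M → ℝ} {H : ℝ → M → ℝ}
  {U : ι → Set V} {Λ : ι → AddSubgroup V} {p : ι → V → M}
  {P : ι → Set V} {N : ι → V → ℝ} {a : ι → ℝ} {χ η : ι → M → ℝ} {c ε Cχ : ι → ℝ}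
  {m : ℕ}

variable (h : ∀ i, Piece om β Cβ K H (U i) (Λ i) (p i) (P i) (N i) (a i) (χ i) (η i) (c i)
  (ε i) (Cχ i)) (hdisj : ∀ i j, i ≠ j → Disjoint (p i '' U i) (p j '' U j))

include h in
/-- The bounds for the bounded part of the generating function. -/
theorem EG_bounds [CompactSpace M] (hK : ContMDiff 𝓘(ℝ, V) 𝓘(ℝ, ℝ) ∞ K) (hm0 : 0 < m) :
    ∃ C C' : ℝ, 0 ≤ C' ∧ (∀ x, |EG U p χ η c K H m x| ≤ C) ∧
      ∀ (x : M) (ζ ζ' : Fin m → V),
        |EG U p χ η c K H m (x, ζ) - EG U p χ η c K H m (x, ζ')| ≤ C' * ‖ζ - ζ'‖ := by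
  obtain ⟨CK, hCK⟩ : ∃ CK, ∀ x, |K x| ≤ CK := by
    obtain ⟨C, hC⟩ := isCompact_univ.exists_bound_of_continuousOn hK.continuous.continuousOn
    exact ⟨C, fun x => hC x (mem_univ x)⟩
  have hL : ∀ i, ∃ L, NiceField (XH β (U i) (p i) (η i) H (c i)) L := fun i =>
    niceField_XH (h i).dom (h i).cutη (by linarith only [(h i).apos]) (h i).Hs
  have hC : ∀ i, ∃ C, ∀ q, |GH (U i) (p i) (η i) H (c i) q| ≤ C := fun i =>
    bounded_GH (h i).dom (h i).cutη (by linarith only [(h i).apos]) (h i).Hs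
  choose L hL using hL
  choose C hC using hC
  have hb := fun i (x : M) (ζ ζ' : Fin m → V) =>
    (h i).term_bounds (m := m) hm0 (hL i).bound (hC i) hCK x ζ ζ'
  refine ⟨CK + ∑ i, (C i + CK), ∑ i, ‖β‖ * L i, ?_, ?_, ?_⟩
  · exact Finset.sum_nonneg fun i _ => mul_nonneg β.opNorm_nonneg
      (by linarith only [(hL i).one_le])
  · rintro ⟨x, ζ⟩
    refine (abs_add_le _ _).trans (add_le_add (hCK x) ?_)
    exact (Finset.abs_sum_le_sum_abs _ _).trans
      (Finset.sum_le_sum fun i _ => (hb i x ζ ζ).1)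
  · intro x ζ ζ'
    simp only [EG, add_sub_add_left_eq_sub]
    rw [← Finset.sum_sub_distrib, Finset.sum_mul]
    exact (Finset.abs_sum_le_sum_abs _ _).trans
      (Finset.sum_le_sum fun i _ => (hb i x ζ ζ').2)

variable {φ : ℝ → M → M}

include h hdisj in
/-- The stable Morse inequality for Hamiltonians localized in convex flat domains. -/
theorem main_ineq [T2Space M] [CompactSpace M] (hβ : Symp β Cβ) (hom : IsSymplectic om)
    (hK : ContMDiff 𝓘(ℝ, V) 𝓘(ℝ, ℝ) ∞ K) (hH : IsPeriodicHamiltonian V H)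
    (hφ : IsHamiltonianFlow om H φ) (hnd : NondegFixedPoints V (φ 1))
    (hout : ∀ x, (∀ i, x ∉ p i '' {w | N i w ≤ 0}) →
      (x ∈ Crit 𝓘(ℝ, V) K → HessNondeg 𝓘(ℝ, V) K x) ∧ ∀ t, PoissonZero om K (H t) x) :
    StableMorseNumber V M ≤ (Fix0 φ).encard := by
  -- fixed point data
  have hdata := fun i => (h i).fix_data hom hφ hnd
  choose S η' C κ₀ m₀ hC hκ₀ hS hkp using hdata
  have hL := fun i => (h i).exists_bound
  choose L hL0 hL using hL
  have haε : ∀ i, 0 < a i - ε i := fun i => by linarith [(h i).εa, (h i).εnn]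
  obtain ⟨m, hm, hm0, hk, hmL⟩ : ∃ m : ℕ, Even m ∧ 0 < m ∧ (∀ i, m₀ i ≤ m) ∧
      ∀ i, ε i + hst m * L i ≤ a i := by
    choose n hn using fun i => exists_nat_ge (L i / (a i - ε i))
    set q := Finset.univ.sup (fun i => m₀ i + n i) with hq
    have hqi : ∀ i, m₀ i + n i ≤ q := fun i =>
      Finset.le_sup (f := fun i => m₀ i + n i) (Finset.mem_univ i)
    have hpos : 0 < 2 * (q + 1) := by omega
    refine ⟨2 * (q + 1), even_two_mul _, hpos, fun i => ?_, fun i => ?_⟩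
    · have := hqi i
      omega
    · have h1 : ((2 * (q + 1) : ℕ) : ℝ) * hst (2 * (q + 1)) = 1 := hst_mul hpos
      have h2 : (n i : ℝ) ≤ ((2 * (q + 1) : ℕ) : ℝ) := by
        have := hqi i
        exact_mod_cast (by omega : n i ≤ 2 * (q + 1))
      have h3 : L i ≤ ((2 * (q + 1) : ℕ) : ℝ) * (a i - ε i) := by
        have h4 := (hn i).trans h2
        rwa [div_le_iff₀ (haε i)] at h4
      have h4 := mul_le_mul_of_nonneg_left h3 (hst_pos hpos).le
      have h5 : hst (2 * (q + 1)) * (((2 * (q + 1) : ℕ) : ℝ) * (a i - ε i)) = a i - ε i := by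
        rw [← mul_assoc, mul_comm (hst _), h1, one_mul]
      linarith only [h4, h5]
  have hkp1 := fun i (z : V) (ζ : Fin m → V) => (hkp i m (hk i) hm0).1 z ζ hm
  have hkp2 := fun i => (hkp i m (hk i) hm0).2
  -- the generating function
  set dN := Module.finrank ℝ (Fin m → V) with hdN
  have hdim : Module.finrank ℝ (Fin m → V) = Module.finrank ℝ (Eu dN) := by
    rw [finrank_euclideanSpace_fin]
  obtain ⟨A⟩ : Nonempty ((Fin m → V) ≃L[ℝ] Eu dN) :=
    ⟨ContinuousLinearEquiv.ofFinrankEq hdim⟩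
  set b : Eu dN →L[ℝ] Eu dN →L[ℝ] ℝ := (bForm m β).bilinearComp
    (A.symm : Eu dN →L[ℝ] (Fin m → V)) (A.symm : Eu dN →L[ℝ] (Fin m → V)) with hb
  have hbv : ∀ v w, b v w = bForm m β (A.symm v) (A.symm w) := fun v w => rfl
  have hbnd : ∀ v, (∀ w, b v w + b w v = 0) → v = 0 := by
    intro v hv
    have h1 : A.symm v = 0 := by
      refine bForm_nondeg hβ hm fun δ => ?_
      have h2 := hv (A δ)
      rwa [hbv, hbv, A.symm_apply_apply] at h2
    have h2 := congrArg A h1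
    rwa [A.apply_symm_apply, map_zero] at h2
  set R : M × Eu dN → ℝ := fun x => EG U p χ η c K H m (x.1, A.symm x.2) with hR
  have hRs : ContMDiff (𝓘(ℝ, V).prod 𝓘(ℝ, Eu dN)) 𝓘(ℝ, ℝ) ∞ R :=
    contMDiff_EG h hom hK (A.symm : Eu dN →L[ℝ] (Fin m → V))
  obtain ⟨B, B', hB'0, hB, hB'⟩ := EG_bounds h hK hm0
  have hRB : ∀ x, |R x| ≤ B := fun x => hB _
  have hRB' : ∀ x z, ‖fderiv ℝ (fun z => R (x, z)) z‖ ≤
      B' * ‖(A.symm : Eu dN →L[ℝ] (Fin m → V))‖ := by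
    intro x z
    have hA0 : 0 ≤ ‖(A.symm : Eu dN →L[ℝ] (Fin m → V))‖ := ContinuousLinearMap.opNorm_nonneg _
    have h1 : LipschitzWith (B' * ‖(A.symm : Eu dN →L[ℝ] (Fin m → V))‖).toNNReal
        (fun z => R (x, z)) := by
      refine LipschitzWith.of_dist_le_mul fun v w => ?_
      rw [Real.dist_eq, dist_eq_norm, Real.coe_toNNReal _ (mul_nonneg hB'0 hA0)]
      refine (hB' x _ _).trans ?_
      rw [mul_assoc]
      refine mul_le_mul_of_nonneg_left ?_ hB'0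
      have h2 := (A.symm : Eu dN →L[ℝ] (Fin m → V)).le_opNorm (v - w)
      rw [map_sub] at h2
      exact h2
    have h2 := norm_fderiv_le_of_lipschitz ℝ h1 (x₀ := z)
    rwa [Real.coe_toNNReal _ (mul_nonneg hB'0 hA0)] at h2
  set F : M × Eu dN → ℝ := fun x => b x.2 x.2 - R x with hF
  have hFs : ContMDiff (𝓘(ℝ, V).prod 𝓘(ℝ, Eu dN)) 𝓘(ℝ, ℝ) ∞ F := by
    have h1 : ContDiff ℝ ∞ (fun z : Eu dN => b z z) := by fun_prop
    exact (h1.contMDiff.comp contMDiff_snd).sub hRs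
  -- local expressions
  have hFA : ∀ (x : M) (ζ : Fin m → V),
      F (x, A ζ) = bForm m β ζ ζ - EG U p χ η c K H m (x, ζ) := by
    intro x ζ
    simp only [hF, hR, hbv, A.symm_apply_apply]
  have hloc : ∀ i, ∀ z ∈ U i, ∀ ζ : Fin m → V,
      ((p i z, A ζ) ∈ Crit (𝓘(ℝ, V).prod 𝓘(ℝ, Eu dN)) F ↔
        fderiv ℝ (locF β (GH (U i) (p i) (η i) H (c i)) (χ i ∘ p i) (K ∘ p i) m) (z, ζ) = 0) ∧
      ((p i z, A ζ) ∈ Crit (𝓘(ℝ, V).prod 𝓘(ℝ, Eu dN)) F →
        GradLB (locF β (GH (U i) (p i) (η i) H (c i)) (χ i ∘ p i) (K ∘ p i) m) (z, ζ) →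
        HessNondeg (𝓘(ℝ, V).prod 𝓘(ℝ, Eu dN)) F (p i z, A ζ)) := by
    intro i z hz ζ
    obtain ⟨e, U', hzU', hU'U, hp⟩ := (h i).dom.localParam hom hz
    refine crit_of_local hFs A hp hzU' ?_
    have h1 : ∀ᶠ q : V × (Fin m → V) in 𝓝 (z, ζ), q.1 ∈ U i :=
      (continuous_fst.tendsto (z, ζ)).eventually ((h i).dom.isOpen.mem_nhds hz)
    filter_upwards [h1] with q hq
    rw [hFA, EG_inner h hdisj hq]
  have hlocout : ∀ x : M, (∀ i, x ∉ p i '' {w | N i w ≤ 3 * a i}) →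
      ∀ ζ : Fin m → V,
      ((x, A ζ) ∈ Crit (𝓘(ℝ, V).prod 𝓘(ℝ, Eu dN)) F → ζ = 0 ∧ x ∈ Crit 𝓘(ℝ, V) K) ∧
      ((x, A 0) ∈ Crit (𝓘(ℝ, V).prod 𝓘(ℝ, Eu dN)) F → x ∈ Crit 𝓘(ℝ, V) K →
        HessNondeg 𝓘(ℝ, V) K x →
        HessNondeg (𝓘(ℝ, V).prod 𝓘(ℝ, Eu dN)) F (x, A 0)) := by
    intro x hx ζ
    set Q := (extChartAt 𝓘(ℝ, V) x).symm with hQ
    set e := extChartAt 𝓘(ℝ, V) x with he
    have hp := isLocalParam_extChartAt (I := 𝓘(ℝ, V)) x
    rw [← he, ← hQ] at hp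
    have hy : e x ∈ e.target := mem_extChartAt_target x
    have hQy : Q (e x) = x := extChartAt_to_inv x
    have hQc : Tendsto Q (𝓝 (e x)) (𝓝 x) := by
      have := (hp.contMDiffAt hy).continuousAt.tendsto
      rwa [hQy] at this
    have hopen : ∀ᶠ y in 𝓝 x, ∀ i, y ∉ p i '' {w | N i w ≤ 3 * a i} := by
      rw [eventually_all]
      intro i
      have h1 : IsClosed (p i '' {w | N i w ≤ 3 * a i}) :=
        ((h i).dom.isCompact_image (by linarith only [(h i).apos])).isClosed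
      exact h1.isOpen_compl.mem_nhds (hx i)
    have hout' : ∀ᶠ w in 𝓝 (e x), ∀ ζ : Fin m → V,
        EG U p χ η c K H m (Q w, ζ) = K (Q w) := by
      filter_upwards [hQc.eventually hopen] with w hw ζ
      refine EG_outer h (fun i hcon => hw i ?_) ζ
      obtain ⟨v, hv, hvx⟩ := hcon
      have hv' : N i v < 3 * a i := hv
      exact ⟨v, hv'.le, hvx⟩
    have hloc' : ∀ ζ : Fin m → V, ∀ᶠ q in 𝓝 (e x, ζ),
        F (Q q.1, A q.2) = locF β (fun _ => 0) (fun _ => 0) (K ∘ Q) m q := by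
      intro ζ
      have h1 : ∀ᶠ q : V × (Fin m → V) in 𝓝 (e x, ζ), ∀ ζ : Fin m → V,
          EG U p χ η c K H m (Q q.1, ζ) = K (Q q.1) :=
        (continuous_fst.tendsto (e x, ζ)).eventually hout'
      filter_upwards [h1] with q hq
      rw [hFA, hq, locF]
      simp
    have hKd : ∀ w ∈ e.target, DifferentiableAt ℝ (K ∘ Q) w := fun w hw =>
      (hp.hasFDerivAt_comp hw ((hK _).mdifferentiableAt (by simp))).differentiableAt
    have hKcrit := hp.mem_crit_iff hy (f := K) ((hK _).mdifferentiableAt (by simp))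
    rw [hQy] at hKcrit
    constructor
    · intro hcrit
      have h1 := (crit_of_local hFs A hp hy (hloc' ζ)).1
      rw [hQy] at h1
      have h2 := h1.1 hcrit
      have h3 := free_estimate (m := m) hβ hm hm0 (hKd _ hy) ζ
      have h4 : ‖fderiv ℝ (locF β (fun _ => 0) (fun _ => 0) (K ∘ Q) m) (e x, ζ)‖ = 0 := by
        rw [h2]
        exact ContinuousLinearMap.opNorm_zero
      rw [h4, mul_zero] at h3
      refine ⟨norm_le_zero_iff.1 h3.1, hKcrit.2 ?_⟩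
      refine ContinuousLinearMap.ext fun v => ?_
      have h5 := (fderiv ℝ (K ∘ Q) (e x)).le_opNorm v
      have h6 : ‖fderiv ℝ (K ∘ Q) (e x)‖ * ‖v‖ ≤ 0 * ‖v‖ :=
        mul_le_mul_of_nonneg_right h3.2 (norm_nonneg _)
      rw [zero_mul] at h6
      exact norm_le_zero_iff.1 (h5.trans h6)
    · intro hcrit hxK hnd'
      have h1 := (crit_of_local hFs A hp hy (hloc' 0)).2
      rw [hQy] at h1
      refine h1 hcrit ?_
      have hκ : GradLB (K ∘ Q) (e x) :=
        gradLB_of_hessNondeg hp hy hK (by rw [hQy]; exact hxK) (by rw [hQy]; exact hnd')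
      have hCβ := hβ.one_le
      refine gradLB_of_estimate (A := 2 * (m + 1) * Cβ) (by (clear * - hm0 hCβ; positivity)) hκ ?_
      have h2 : ∀ᶠ q : V × (Fin m → V) in 𝓝 (e x, 0), q.1 ∈ e.target :=
        (continuous_fst.tendsto (e x, 0)).eventually (hp.isOpen.mem_nhds hy)
      filter_upwards [h2] with q hq
      have h3 := free_estimate (m := m) hβ hm hm0 (hKd _ hq) q.2
      refine ⟨h3.1, h3.2.trans (le_mul_of_one_le_left (ContinuousLinearMap.opNorm_nonneg _) ?_)⟩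
      have h4 : (0 : ℝ) ≤ m := Nat.cast_nonneg m
      nlinarith only [hCβ]
  -- classification of the critical points
  have hclass : ∀ (x : M) (ζ : Fin m → V),
      (x, A ζ) ∈ Crit (𝓘(ℝ, V).prod 𝓘(ℝ, Eu dN)) F →
      (∀ i, x ∉ p i '' {w | N i w ≤ a i}) →
      ζ = 0 ∧ x ∈ Crit 𝓘(ℝ, V) K ∧
        HessNondeg (𝓘(ℝ, V).prod 𝓘(ℝ, Eu dN)) F (x, A 0) := by
    intro x ζ hcrit hx
    have hx0 : ∀ i, x ∉ p i '' {w | N i w ≤ 0} := by
      rintro i ⟨w, hw, hwx⟩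
      have hw' : N i w ≤ 0 := hw
      exact hx i ⟨w, hw'.trans (h i).apos.le, hwx⟩
    by_cases hshell : ∃ i, x ∈ p i '' {w | N i w ≤ 3 * a i}
    · obtain ⟨i, z, hz, rfl⟩ := hshell
      have ha := (h i).apos
      have hz3 : N i z ≤ 3 * a i := hz
      have hzU : z ∈ U i := (h i).dom.mem_of_NN (by linarith only [ha, hz3])
      have hz1 : a i < N i z := by
        by_contra hcon
        push Not at hcon
        exact hx i ⟨z, hcon, rfl⟩
      have h1 := (hloc i z hzU ζ).1.1 hcrit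
      obtain ⟨h2, h3⟩ := (h i).shell_crit' hm hm0 (hL i) (hmL i) hz1 hz3 h1
      obtain ⟨e, U', hzU', hU'U, hp⟩ := (h i).dom.localParam hom hzU
      have hKcrit := hp.mem_crit_iff hzU' (f := K) ((hK _).mdifferentiableAt (by simp))
      have hxK := hKcrit.2 h3
      refine ⟨h2, hxK, ?_⟩
      subst h2
      refine (hloc i z hzU 0).2 hcrit ?_
      exact (h i).shell_gradLB hm hm0 hz1 hz3
        (gradLB_of_hessNondeg hp hzU' hK hxK ((hout _ hx0).1 hxK))
    · push Not at hshell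
      obtain ⟨h1, h2⟩ := (hlocout x hshell ζ).1 hcrit
      subst h1
      exact ⟨rfl, h2, (hlocout x hshell 0).2 hcrit h2 ((hout x hx0).1 h2)⟩
  have hinner : ∀ (i : ι) (z : V), N i z ≤ a i → ∀ ζ : Fin m → V,
      (p i z, A ζ) ∈ Crit (𝓘(ℝ, V).prod 𝓘(ℝ, Eu dN)) F →
      (∀ j < m, res (XH β (U i) (p i) (η i) H (c i)) m 1 z ζ j = 0) ∧ ell ζ 0 = 0 := by
    intro i z hz ζ hcrit
    have hzU : z ∈ U i := (h i).dom.mem_of_NN (by linarith only [hz, (h i).apos])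
    exact (h i).inner_res hm hz ((hloc i z hzU ζ).1.1 hcrit)
  -- nondegeneracy
  have hmorse : ∀ x ∈ Crit (𝓘(ℝ, V).prod 𝓘(ℝ, Eu dN)) F,
      HessNondeg (𝓘(ℝ, V).prod 𝓘(ℝ, Eu dN)) F x := by
    rintro ⟨x, ξ⟩ hcrit
    obtain ⟨ζ, rfl⟩ := A.surjective ξ
    by_cases hx : ∃ i, x ∈ p i '' {w | N i w ≤ a i}
    · obtain ⟨i, z, hz, rfl⟩ := hx
      have ha := (h i).apos
      have hz1 : N i z ≤ a i := hz
      have hzU : z ∈ U i := (h i).dom.mem_of_NN (by linarith only [ha, hz1])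
      obtain ⟨hres, hz0⟩ := hinner i z hz1 ζ hcrit
      obtain ⟨s, hs, hzs⟩ := hkp1 i z ζ hz1 hres hz0
      refine (hloc i z hzU ζ).2 hcrit ?_
      refine gradLB_inner (m := m) (X := XH β (U i) (p i) (η i) H (c i)) hβ hm (h i).hGX ?_ ?_ ?_
        hres hz0 (hκ₀ i) (hC i) hzs (hkp2 i s hs)
      · exact (contDiff_XH (h i).dom (h i).cutη (by linarith only [ha]) (h i).Hs).continuous
      · filter_upwards [((h i).dom.NN_continuous.tendsto z).eventually
          (gt_mem_nhds (by linarith only [ha, hz1] : N i z < 2 * a i))] with w hw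
        exact (h i).chi_one hw
      · filter_upwards [(h i).dom.isOpen.mem_nhds hzU] with w hw
        exact (h i).diffK hw
    · push Not at hx
      obtain ⟨h1, h2, h3⟩ := hclass x ζ hcrit hx
      subst h1
      exact h3
  refine (stableMorseNumber_le_crit V M b hbnd hRs hRB hRB' hmorse).trans ?_
  -- the injection into the fixed point set
  have hrel : ∀ q : M × Eu dN, ∃ y : M, q ∈ Crit (𝓘(ℝ, V).prod 𝓘(ℝ, Eu dN)) F →
      y ∈ Fix0 φ ∧ ((∃ i z s, N i z ≤ a i ∧ q.1 = p i z ∧ s ∈ S i ∧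
        ‖z - s‖ < η' i ∧ y = p i s) ∨
        ((∀ i, q.1 ∉ p i '' {w | N i w ≤ a i}) ∧ q.2 = 0 ∧ y = q.1)) := by
    rintro ⟨x, ξ⟩
    by_cases hcrit : (x, ξ) ∈ Crit (𝓘(ℝ, V).prod 𝓘(ℝ, Eu dN)) F
    · obtain ⟨ζ, rfl⟩ := A.surjective ξ
      by_cases hx : ∃ i, x ∈ p i '' {w | N i w ≤ a i}
      · obtain ⟨i, z, hz, rfl⟩ := hx
        have hz1 : N i z ≤ a i := hz
        obtain ⟨hres, hz0⟩ := hinner i z hz1 ζ hcrit
        obtain ⟨s, hs, hzs⟩ := hkp1 i z ζ hz1 hres hz0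
        exact ⟨p i s, fun _ => ⟨(hS i s hs).2, Or.inl ⟨i, z, s, hz1, rfl, hs, hzs, rfl⟩⟩⟩
      · push Not at hx
        obtain ⟨h1, h2, -⟩ := hclass x ζ hcrit hx
        refine ⟨x, fun _ => ⟨?_, Or.inr ⟨hx, by rw [h1, map_zero], rfl⟩⟩⟩
        -- `x` is a common critical point
        have hopen : ∀ᶠ y in 𝓝 x, ∀ i, y ∉ p i '' {w | N i w ≤ a i} := by
          rw [eventually_all]
          intro i
          have h3 : IsClosed (p i '' {w | N i w ≤ a i}) :=
            ((h i).dom.isCompact_image (by linarith only [(h i).apos])).isClosed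
          exact h3.isOpen_compl.mem_nhds (hx i)
        have hopen' : ∀ᶠ y in 𝓝 x, ∀ i, y ∉ p i '' {w | N i w ≤ 0} := by
          filter_upwards [hopen] with y hy i hcon
          obtain ⟨w, hw, hwy⟩ := hcon
          have hw' : N i w ≤ 0 := hw
          exact hy i ⟨w, hw'.trans (h i).apos.le, hwy⟩
        refine hφ.rest_mem_Fix0 hom hH fun t => ?_
        refine mem_crit_of_poisson hom hK (hH.contMDiff t) h2
          ((hout x hopen'.self_of_nhds).1 h2) ?_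
        filter_upwards [hopen'] with y hy
        exact (hout y hy).2 t
    · exact ⟨x, fun hc => absurd hc hcrit⟩
  choose Ψ hΨ using hrel
  refine encard_le_encard_of_injOn (f := Ψ) (fun q hq => (hΨ q hq).1) ?_
  rintro ⟨x, ξ⟩ hq ⟨x', ξ'⟩ hq' heq
  obtain ⟨-, h1⟩ := hΨ _ hq
  obtain ⟨-, h2⟩ := hΨ _ hq'
  rw [← heq] at h2
  rcases h1 with ⟨i, z, s, hz, hxz, hs, hzs, hys⟩ | ⟨hx, hξ, hyx⟩
  · rcases h2 with ⟨j, z', s', hz', hxz', hs', hzs', hys'⟩ | ⟨hx', hξ', hyx'⟩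
    · -- both in a core
      simp only at hxz hxz'
      have hsU : s ∈ U i := (h i).dom.mem_of_NN (by linarith only [(h i).apos, (hS i s hs).1])
      have hsU' : s' ∈ U j := (h j).dom.mem_of_NN (by linarith only [(h j).apos, (hS j s' hs').1])
      have hij : i = j := by
        by_contra hne
        refine disjoint_left.1 (hdisj i j hne) ⟨s, hsU, rfl⟩ ?_
        rw [← hys, hys']
        exact ⟨s', hsU', rfl⟩
      subst hij
      have hl : s' - s ∈ Λ i := ((h i).dom.fiber s hsU s' hsU').1 (by rw [← hys, hys'])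
      obtain ⟨ζ, rfl⟩ := A.surjective ξ
      obtain ⟨ζ', rfl⟩ := A.surjective ξ'
      subst hxz
      have hl' : -(s' - s) ∈ Λ i := neg_mem hl
      have hzU' : z' ∈ U i := (h i).dom.mem_of_NN (by linarith only [hz', (h i).apos])
      have hpz : p i (z' + -(s' - s)) = p i z' := (h i).dom.p_add hzU' hl'
      obtain ⟨hres, hz0⟩ := hinner i z hz ζ hq
      obtain ⟨hres', hz0'⟩ := hinner i (z' + -(s' - s))
        (by rw [(h i).dom.NN_inv hl']; exact hz') ζ' (by rw [hpz, ← hxz']; exact hq')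
      have h0 : ∀ (w : V) (δ : Fin m → V),
          (∀ j < m, res (XH β (U i) (p i) (η i) H (c i)) m 1 w δ j = 0) →
          ∑ j ∈ Finset.range m, ‖res (XH β (U i) (p i) (η i) H (c i)) m 1 w δ j‖ = 0 := by
        intro w δ hw
        exact Finset.sum_eq_zero fun j hj => by
          rw [hw j (Finset.mem_range.1 hj), norm_zero]
      have h3 := hkp2 i s hs (fun j => z + ell ζ j) _ (fun j => z' + -(s' - s) + ell ζ' j) _
        (isChain_of_res z ζ) (isChain_of_res (z' + -(s' - s)) ζ')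
        (by simpa [hz0] using hzs) (by
          have h4 : z' + -(s' - s) + ell ζ' 0 - s = z' - s' := by
            rw [hz0']; abel
          rw [h4]
          exact hzs') (by rw [h0 _ _ hres]; exact (hκ₀ i).le)
        (by rw [h0 _ _ hres']; exact (hκ₀ i).le)
      have h4 : ∑ j ∈ Finset.range m, ‖res (XH β (U i) (p i) (η i) H (c i)) m 1 z ζ j -
          res (XH β (U i) (p i) (η i) H (c i)) m 1 (z' + -(s' - s)) ζ' j‖ = 0 := by
        refine Finset.sum_eq_zero fun j hj => ?_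
        have hj' := Finset.mem_range.1 hj
        rw [hres j hj', hres' j hj', sub_zero, norm_zero]
      have h4' : ‖((z + ell ζ m) - (z + ell ζ 0)) -
          ((z' + -(s' - s) + ell ζ' m) - (z' + -(s' - s) + ell ζ' 0))‖ = 0 := by
        rw [ell_last hm, ell_last hm, hz0, hz0']
        simp
      rw [h4, h4', add_zero, mul_zero] at h3
      have h5 : ∀ j ≤ m, z + ell ζ j = z' + -(s' - s) + ell ζ' j := fun j hj =>
        sub_eq_zero.1 (norm_le_zero_iff.1 (h3 j hj))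
      have h6 : z = z' + -(s' - s) := by
        have := h5 0 (Nat.zero_le m)
        simpa only [neg_sub, hz0, add_zero, hz0'] using this
      have h7 : ζ = ζ' := by
        funext j
        have h8 := h5 j j.2.le
        have h9 := h5 (j + 1) j.2
        rw [← h6, add_right_inj] at h8 h9
        have h10 : ex ζ j = ex ζ' j := by
          rw [ex_eq_mid, ex_eq_mid, h8, h9]
        rwa [ex_of_lt _ j.2, ex_of_lt _ j.2] at h10
      rw [h7, hxz', ← hpz, ← h6]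
    · -- a core point and an outer point
      exfalso
      have hsa := (hS i s hs).1
      refine hx' i ⟨s, hsa, ?_⟩
      rw [← hys, hyx']
  · rcases h2 with ⟨j, z', s', hz', hxz', hs', hzs', hys'⟩ | ⟨hx', hξ', hyx'⟩
    · exfalso
      have hsa := (hS j s' hs').1
      refine hx j ⟨s', hsa, ?_⟩
      rw [← hys', hyx]
    · simp only at hξ hξ' hyx hyx'
      rw [hξ, hξ', ← hyx, ← hyx']

end Family

end Vale.Agent.P265.Flat
end
end

section

section

open Set Manifold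
open scoped ContDiff

namespace Vale.Agent.P265

/-- `D ⊆ V` is open, convex and invariant under the group `Λ` of translations, with relatively
compact quotient, and `p` embeds `D / Λ` into `M` so that `p^* om` is the constant nondegenerate
form `b`. -/
structure IsFlatChart {V : Type*} [NormedAddCommGroup V] [NormedSpace ℝ V] {M : Type*}
    [TopologicalSpace M] [ChartedSpace V M] (om : FormField V M) (b : V → V → ℝ) (D : Set V)
    (Λ : AddSubgroup V) (p : V → M) : Prop where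
  isOpen : IsOpen D
  convex : Convex ℝ D
  translate : ∀ z ∈ D, ∀ l ∈ Λ, z + l ∈ D
  cocompact : ∃ P, IsCompact P ∧ ∀ z ∈ D, ∃ l ∈ Λ, z + l ∈ P
  smooth : ContMDiffOn 𝓘(ℝ, V) 𝓘(ℝ, V) ∞ p D
  fiber : ∀ z ∈ D, ∀ w ∈ D, p z = p w ↔ w - z ∈ Λ
  flat : ∀ z ∈ D, ∀ u v, pullback om p u v z = b u v
  nondeg : ∀ u, (∀ v, b u v = 0) → u = 0

end Vale.Agent.P265
end
end

section

section

open Set Filter Manifold
open scoped ContDiff Topology

set_option maxSynthPendingDepth 3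
set_option linter.unusedSectionVars false

namespace Vale.Agent.P265.Flat

/-- The distance function used to exhaust a convex domain. -/
theorem exists_exhaustion {E : Type*} [NormedAddCommGroup E] [NormedSpace ℝ E] {D : Set E}
    (hD : IsOpen D) (hDc : Convex ℝ D) {r : ℝ}
    (hr : 0 < r) : ∃ N : E → ℝ, (∀ a b, |N a - N b| ≤ ‖a - b‖) ∧ (∀ q, N q < r → q ∈ D) ∧
      (∀ q, 0 < N q → ¬ Metric.ball q r ⊆ D) ∧
      (∀ a b, N ((1 / 2 : ℝ) • (a + b)) ≤ max (N a) (N b)) ∧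
      ∀ l : E, (∀ q ∈ D, q + l ∈ D) → (∀ q ∈ D, q + -l ∈ D) → ∀ q, N (q + l) = N q := by
  by_cases hu : D = univ
  · refine ⟨fun _ => 0, fun a b => by simp, fun q _ => by rw [hu]; trivial, fun q hq => ?_,
      fun a b => by simp, fun l _ _ q => rfl⟩
    exact absurd hq (lt_irrefl 0)
  · have hne : (Dᶜ).Nonempty := nonempty_compl.2 hu
    refine ⟨fun q => r - min r (Metric.infDist q Dᶜ), ?_, ?_, ?_, ?_, ?_⟩
    · intro a b
      have h1 : |min r (Metric.infDist a Dᶜ) - min r (Metric.infDist b Dᶜ)| ≤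
          |Metric.infDist a Dᶜ - Metric.infDist b Dᶜ| := by
        have := abs_min_sub_min_le_max r (Metric.infDist a Dᶜ) r (Metric.infDist b Dᶜ)
        rwa [sub_self, abs_zero, max_eq_right (abs_nonneg _)] at this
      have h2 : |Metric.infDist a Dᶜ - Metric.infDist b Dᶜ| ≤ ‖a - b‖ := by
        rw [← Real.dist_eq, ← dist_eq_norm]
        have := (Metric.lipschitz_infDist_pt Dᶜ).dist_le_mul a b
        simpa using this
      have h3 : r - min r (Metric.infDist a Dᶜ) - (r - min r (Metric.infDist b Dᶜ)) =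
          -(min r (Metric.infDist a Dᶜ) - min r (Metric.infDist b Dᶜ)) := by ring
      rw [h3, abs_neg]
      exact h1.trans h2
    · intro q hq
      have h1 : 0 < min r (Metric.infDist q Dᶜ) := by linarith
      have h2 : 0 < Metric.infDist q Dᶜ := h1.trans_le (min_le_right _ _)
      have h3 := (hD.isClosed_compl.notMem_iff_infDist_pos hne).2 h2
      exact not_not.1 h3
    · intro q hq hball
      have h1 : min r (Metric.infDist q Dᶜ) < r := by linarith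
      have h2 : Metric.infDist q Dᶜ < r := by
        by_contra hcon
        push Not at hcon
        rw [min_eq_left hcon] at h1
        exact lt_irrefl _ h1
      obtain ⟨y, hy, hqy⟩ := (Metric.infDist_lt_iff hne).1 h2
      exact hy (hball (by rwa [Metric.mem_ball, dist_comm]))
    · intro a b
      have key : min (Metric.infDist a Dᶜ) (Metric.infDist b Dᶜ) ≤
          Metric.infDist ((1 / 2 : ℝ) • (a + b)) Dᶜ := by
        refine (Metric.le_infDist hne).2 fun y hy => ?_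
        by_contra hcon
        push Not at hcon
        set w := y - (1 / 2 : ℝ) • (a + b) with hw
        have hwn : ‖w‖ < min (Metric.infDist a Dᶜ) (Metric.infDist b Dᶜ) := by
          rwa [hw, ← dist_eq_norm, dist_comm]
        have gen : ∀ c, ‖w‖ < Metric.infDist c Dᶜ → c + w ∈ D := by
          intro c hc
          by_contra hcD
          have h1 := Metric.infDist_le_dist_of_mem (x := c) (show c + w ∈ Dᶜ from hcD)
          rw [dist_self_add_right] at h1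
          linarith only [hc, h1]
        have h1 := gen a (hwn.trans_le (min_le_left _ _))
        have h2 := gen b (hwn.trans_le (min_le_right _ _))
        have h3 := hDc h1 h2 (by norm_num : (0 : ℝ) ≤ 1 / 2) (by norm_num : (0 : ℝ) ≤ 1 / 2)
          (by norm_num)
        have h4 : (1 / 2 : ℝ) • (a + w) + (1 / 2 : ℝ) • (b + w) = y := by
          rw [hw]; module
        rw [h4] at h3
        exact hy h3
      rcases min_le_iff.1 key with h1 | h1
      · refine le_max_of_le_left (sub_le_sub_left (min_le_min_left r h1) r)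
      · refine le_max_of_le_right (sub_le_sub_left (min_le_min_left r h1) r)
    · intro l hl hl' q
      have gen : ∀ (m : E), (∀ q ∈ D, q + -m ∈ D) → ∀ q,
          Metric.infDist (q + m) Dᶜ ≤ Metric.infDist q Dᶜ := by
        intro m hm q
        refine (Metric.le_infDist hne).2 fun y hy => ?_
        have h1 : y + m ∈ Dᶜ := by
          intro hcon
          have := hm _ hcon
          rw [add_neg_cancel_right] at this
          exact hy this
        have h2 := Metric.infDist_le_dist_of_mem h1 (x := q + m)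
        rwa [dist_add_right] at h2
      have h1 : Metric.infDist (q + l) Dᶜ = Metric.infDist q Dᶜ := by
        refine le_antisymm (gen l hl' q) ?_
        have h2 := gen (-l) (by simpa only [neg_neg] using hl) (q + l)
        rwa [add_neg_cancel_right] at h2
      simp only [h1]

variable {V : Type*} [NormedAddCommGroup V] [NormedSpace ℝ V] [FiniteDimensional ℝ V]
  {M : Type*} [TopologicalSpace M] [ChartedSpace V M] [IsManifold 𝓘(ℝ, V) ∞ M]

/-- The internal data of a flat chart. -/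
theorem exists_dom {om : FormField V M} {b : V → V → ℝ} {β : V →L[ℝ] V →L[ℝ] ℝ} {Cβ : ℝ}
    (hβ : Symp β Cβ) {D : Set V} (hβb : D.Nonempty → ∀ u v, β u v = b u v)
    {Λ : AddSubgroup V} {p : V → M} (h : IsFlatChart om b D Λ p) {r : ℝ}
    (hr : 0 < r) : ∃ (P : Set V) (N : V → ℝ), Dom om β Cβ D Λ p P N r ∧
      ∀ z, 0 < N z → ¬ Metric.ball z r ⊆ D := by
  obtain ⟨P, hP, hPc⟩ := h.cocompact
  obtain ⟨N, hNa, hNb, hNc, hNd, hNe⟩ := exists_exhaustion h.isOpen h.convex hr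
  refine ⟨P, N, ⟨hβ, h.isOpen, fun hne => ?_, h.translate, hP, hPc, h.smooth,
    fun z hz u v => ?_, h.fiber, hr, hNa, hNd, fun l hl q => ?_, hNb⟩, hNc⟩
  · have := h.convex.contractibleSpace hne
    infer_instance
  · rw [h.flat z hz, hβb ⟨z, hz⟩]
  · exact hNe l (fun q hq => h.translate q hq l hl)
      (fun q hq => h.translate q hq (-l) (neg_mem hl)) q

/-- The constant form of a family of flat charts. -/
theorem exists_form [Nonempty M] {om : FormField V M} (hom : IsSymplectic om) {ι : Type*}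
    {b : V → V → ℝ} {D : ι → Set V} {Λ : ι → AddSubgroup V} {p : ι → V → M}
    (hp : ∀ i, IsFlatChart om b (D i) (Λ i) (p i)) :
    ∃ (β : V →L[ℝ] V →L[ℝ] ℝ) (Cβ : ℝ), Symp β Cβ ∧
      ∀ i, (D i).Nonempty → ∀ u v, β u v = b u v := by
  by_cases hne : ∃ i, (D i).Nonempty
  · obtain ⟨i, z, hz⟩ := hne
    have hb : ∀ u v, pullForm hom (p i) z u v = b u v := fun u v => by
      rw [pullForm_eq_pullback, (hp i).flat z hz]
    obtain ⟨Cβ, hβ⟩ := exists_symp (β := pullForm hom (p i) z)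
      (fun u => by rw [pullForm_apply]; exact hom.alt _ _)
      (fun u hu => (hp i).nondeg u fun v => by rw [← hb, hu])
    exact ⟨_, Cβ, hβ, fun _ _ => hb⟩
  · push Not at hne
    obtain ⟨x⟩ : Nonempty M := inferInstance
    obtain ⟨Cβ, hβ⟩ := exists_symp (β := omV hom x) (fun u => hom.alt x u)
      (fun u hu => hom.nondeg x u hu)
    exact ⟨_, Cβ, hβ, fun i hi => absurd hi (by rw [hne i]; exact not_nonempty_empty)⟩

/-- The stable Morse inequality for localized Hamiltonians. -/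
theorem localized_ineq [T2Space M] [CompactSpace M] [Nonempty M] {om : FormField V M}
    (hom : IsSymplectic om) {ι : Type*} [Finite ι] (b : V → V → ℝ) (D : ι → Set V)
    (Λ : ι → AddSubgroup V) (p : ι → V → M)
    (hp : ∀ i, IsFlatChart om b (D i) (Λ i) (p i))
    (hdisj : ∀ i j, i ≠ j → Disjoint (p i '' D i) (p j '' D j)) {r : ℝ} (hr : 0 < r) :
    ∃ δ > 0, ∀ (K : M → ℝ) (H : ℝ → M → ℝ) (φ : ℝ → M → M),
      ContMDiff 𝓘(ℝ, V) 𝓘(ℝ, ℝ) ∞ K → IsPeriodicHamiltonian V H →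
      IsHamiltonianFlow om H φ → NondegFixedPoints V (φ 1) →
      (∀ x, (∀ i, ∀ z ∈ D i, Metric.ball z r ⊆ D i → p i z ≠ x) →
        (x ∈ Crit 𝓘(ℝ, V) K → HessNondeg 𝓘(ℝ, V) K x) ∧ ∀ t, PoissonZero om K (H t) x) →
      (∀ i, ∃ c : ℝ, ∀ z ∈ D i, ¬ Metric.ball z r ⊆ D i →
        (∀ t, H t (p i z) = K (p i z)) ∧
          ∀ k ≤ 2, ‖iteratedFDeriv ℝ k (fun w => K (p i w) - c) z‖ ≤ δ) →
      StableMorseNumber V M ≤ (Fix0 φ).encard := by
  cases nonempty_fintype ι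
  obtain ⟨β, Cβ, hβ, hβb⟩ := exists_form hom hp
  choose P N hdom hball using fun i => exists_dom hβ (hβb i) (hp i) hr
  have hCβ := hβ.one_le
  set a : ℝ := r / 6 with ha
  have hapos : 0 < a := by rw [ha]; linarith only [hr]
  have h6 : 6 * a = r := by rw [ha]; ring
  have hχ := fun i => (hdom i).exists_cut hom (ρ := 2 * a) (ρ' := 3 * a) (by linarith only [hapos])
    (by linarith only [ha, hapos])
  choose χ hχ using hχ
  have hη := fun i => (hdom i).exists_cut hom (ρ := 4 * a) (ρ' := 5 * a) (by linarith only [hapos])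
    (by linarith only [ha, hapos])
  choose η hη using hη
  have hCχ := fun i => (hdom i).exists_bound_cut (hχ i) (by linarith only [ha, hapos])
  choose Cχ hCχ0 hCχ using hCχ
  have hCη := fun i => (hdom i).exists_bound_cut (hη i) (by linarith)
  choose Cη hCη0 hCη using hCη
  set ε : ι → ℝ := fun i => min (a / 4) (1 / (4 * Cβ * (2 + Cχ i))) with hε
  have hεpos : ∀ i, 0 < ε i := fun i => by
    have := hCχ0 i
    exact lt_min (by linarith only [hapos]) (by (clear * - hCβ this; positivity))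
  have hε1 : ∀ i, 4 * Cβ * ((2 + Cχ i) * ε i) ≤ 1 := fun i => by
    have h1 := hCχ0 i
    have h2 : ε i ≤ 1 / (4 * Cβ * (2 + Cχ i)) := min_le_right _ _
    have h3 : (4 * Cβ * (2 + Cχ i)) * ε i ≤
        (4 * Cβ * (2 + Cχ i)) * (1 / (4 * Cβ * (2 + Cχ i))) :=
      mul_le_mul_of_nonneg_left h2 (by (clear * - hCβ h1; positivity))
    have h4 : (4 * Cβ * (2 + Cχ i)) * (1 / (4 * Cβ * (2 + Cχ i))) = 1 := by
      (clear * - hCβ h1; field_simp)
    linarith only [h3, h4]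
  obtain ⟨δ, hδ, hδi⟩ : ∃ δ > 0, ∀ i, Cβ * ((1 + Cη i) * δ) ≤ ε i := by
    rcases isEmpty_or_nonempty ι with hι | hι
    · exact ⟨1, one_pos, fun i => (hι.false i).elim⟩
    · obtain ⟨i₀, hi₀⟩ := Finite.exists_min fun i => ε i / (Cβ * (1 + Cη i))
      have hpos : ∀ i, 0 < Cβ * (1 + Cη i) := fun i => by
        have := hCη0 i
        (clear * - hCβ this; positivity)
      refine ⟨ε i₀ / (Cβ * (1 + Cη i₀)), div_pos (hεpos i₀) (hpos i₀), fun i => ?_⟩
      have h1 := hi₀ i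
      rw [le_div_iff₀ (hpos i)] at h1
      linarith only [h1]
  refine ⟨δ, hδ, fun K H φ hK hH hφ hnd hout hshell => ?_⟩
  choose c hc using hshell
  have hδε : ∀ i, δ ≤ ε i := fun i => by
    have h1 := hδi i
    have h2 := mul_nonneg (hCη0 i) hδ.le
    nlinarith only [h1, h2, hCβ, hδ]
  refine main_ineq (U := D) (Λ := Λ) (p := p) (P := P) (N := N)
    (a := fun _ => a) (χ := χ) (η := η) (c := c) (ε := ε) (Cχ := Cχ) (fun i => ?_) hdisj hβ hom hK
    hH hφ hnd ?_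
  · have hcz : ∀ z ∈ D i, 0 < N i z → (∀ t, H t (p i z) = K (p i z)) ∧ |K (p i z) - c i| ≤ δ ∧
        ‖fderiv ℝ (K ∘ p i) z‖ ≤ δ ∧ ‖fderiv ℝ (fderiv ℝ (K ∘ p i)) z‖ ≤ δ := by
      intro z hz hz'
      obtain ⟨h1, h2⟩ := hc i z hz (hball i z hz')
      have e1 : fderiv ℝ (fun w => K (p i w) - c i) = fderiv ℝ (K ∘ p i) := by
        funext w
        exact fderiv_sub_const (f := K ∘ p i) (c i)
      refine ⟨h1, ?_, ?_, ?_⟩
      · have := h2 0 (by norm_num)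
        rwa [norm_iteratedFDeriv_zero, Real.norm_eq_abs] at this
      · have := h2 1 (by norm_num)
        rwa [norm_iteratedFDeriv_one, e1] at this
      · have := h2 2 le_rfl
        rw [← norm_iteratedFDeriv_fderiv, norm_iteratedFDeriv_one, e1] at this
        exact this
    exact {
      dom := by rw [h6]; exact hdom i
      cutχ := hχ i
      cutη := hη i
      apos := hapos
      εnn := (hεpos i).le
      εa := by
        have : ε i ≤ a / 4 := min_le_left _ _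
        linarith only [hapos, this]
      bχ := hCχ i
      small := hε1 i
      HK := fun z hz hz' => (hcz z hz hz').1
      K1 := fun z hz hz' => (hcz z hz hz').2.2.1.trans (hδε i)
      K2 := fun z hz hz' => (hcz z hz hz').2.2.2.trans (hδε i)
      X1 := fun t w hw => (norm_XH_le (hdom i) (hη i) (by linarith only [ha, hapos]) hH hK (hCη0 i) hδ.le (hCη i)
        (fun z hz hz' => (hcz z hz hz').1) (fun z hz hz' => (hcz z hz hz').2.1)
        (fun z hz hz' => (hcz z hz hz').2.2.1) t w hw).trans (hδi i)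
      Ks := hK
      Hs := hH }
  · intro x hx
    refine hout x fun i z _ hzb hzx => hx i ⟨z, ?_, hzx⟩
    by_contra hcon
    exact hball i z (not_le.1 hcon) hzb

end Vale.Agent.P265.Flat
end
end

section

section

open Set Manifold
open scoped ContDiff Topology

set_option maxSynthPendingDepth 3

namespace Vale.Agent.P265.Loc

section Calculus

variable {E : Type*} [NormedAddCommGroup E] [NormedSpace ℝ E] {B : Type*} [TopologicalSpace B]
  {I : ModelWithCorners ℝ E B} {X : Type*} [TopologicalSpace X] [ChartedSpace B X]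

theorem crit_eq (f : X → ℝ) : Crit I f = P265.Crit I f := by
  ext x
  rw [mem_crit_iff_Dm]
  rfl

theorem hessNondeg_iff [I.Boundaryless] [IsManifold I ∞ X] {f : X → ℝ}
    (hf : ContMDiff I 𝓘(ℝ, ℝ) ∞ f) (x : X) : HessNondeg I f x ↔ P265.HessNondeg I f x := by
  set g : E → ℝ := f ∘ (extChartAt I x).symm with hg
  set c := extChartAt I x x with hc
  have hp := isLocalParam_extChartAt (I := I) x
  have hmem : c ∈ (extChartAt I x).target := mem_extChartAt_target x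
  have h1 : ContDiffAt ℝ ∞ g c :=
    (ContMDiffAt.comp (I' := I) c (g := f) (hf _) (hp.contMDiffAt hmem)).contDiffAt
  have h2 : ContDiffAt ℝ 1 (fderiv ℝ g) c := h1.fderiv_right (by norm_cast)
  have h3 : HasFDerivAt (fderiv ℝ g) (fderiv ℝ (fderiv ℝ g) c) c :=
    (h2.differentiableAt (by simp)).hasFDerivAt
  have h4 : ∀ v w, fderiv ℝ (fun y => fderiv ℝ g y w) c v = fderiv ℝ (fderiv ℝ g) c v w := by
    intro v w
    have h5 := h3.clm_apply (hasFDerivAt_const w c)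
    rw [h5.fderiv]
    simp
  unfold HessNondeg P265.HessNondeg
  simp only [← hg, ← hc, h4]

theorem isMorse_iff [I.Boundaryless] [IsManifold I ∞ X] {f : X → ℝ} :
    IsMorse I f ↔ P265.IsMorse I f := by
  constructor
  · rintro ⟨h1, h2⟩
    exact ⟨h1, fun x hx => (hessNondeg_iff h1 x).1 (h2 x (by rwa [crit_eq]))⟩
  · rintro ⟨h1, h2⟩
    exact ⟨h1, fun x hx => (hessNondeg_iff h1 x).2 (h2 x (by rwa [← crit_eq]))⟩

end Calculus

theorem stableMorseNumber_le (V : Type*) [NormedAddCommGroup V] [NormedSpace ℝ V]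
    (W : Type*) [TopologicalSpace W] [ChartedSpace V W] [IsManifold 𝓘(ℝ, V) ∞ W] :
    StableMorseNumber V W ≤ P265.StableMorseNumber V W := by
  unfold StableMorseNumber P265.StableMorseNumber
  refine iInf_mono fun k => ?_
  unfold MorseNumberAt P265.MorseNumberAt
  refine le_iInf fun F => le_iInf fun hM => le_iInf fun hQ => ?_
  refine iInf_le_of_le F (iInf_le_of_le (isMorse_iff.2 hM) (iInf_le_of_le hQ ?_))
  rw [crit_eq]

section Symplectic

variable {V : Type*} [NormedAddCommGroup V] [NormedSpace ℝ V] {M : Type*} [TopologicalSpace M]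
  [ChartedSpace V M] {om : FormField V M}

theorem IsSymplectic.old (h : IsSymplectic om) : P265.IsSymplectic om :=
  ⟨h.bilin, h.alt, h.nondeg, h.smooth, h.closed⟩

theorem IsHamiltonianFlow.old {H : ℝ → M → ℝ} {φ : ℝ → M → M} (h : IsHamiltonianFlow om H φ) :
    IsPeriodicHamiltonian V H ∧ P265.IsHamiltonianFlow om H φ :=
  ⟨⟨h.smooth', h.periodic⟩, ⟨h.smooth, h.zero, h.hamilton⟩⟩

theorem IsFlatChart.old {b : V → V → ℝ} {D : Set V} {Λ : AddSubgroup V} {p : V → M}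
    (h : IsFlatChart om b D Λ p) : P265.IsFlatChart om b D Λ p :=
  ⟨h.isOpen, h.convex, h.translate, h.cocompact, h.smooth, h.fiber, h.flat, h.nondeg⟩

end Symplectic

/-- The stable Morse inequality for localized Hamiltonians and their nondegenerate deformations. -/
theorem main {V : Type*} [NormedAddCommGroup V] [NormedSpace ℝ V] [FiniteDimensional ℝ V]
    {M : Type*} [TopologicalSpace M] [T2Space M] [CompactSpace M] [ConnectedSpace M]
    [ChartedSpace V M] [IsManifold 𝓘(ℝ, V) ∞ M]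
    (om : ℝ → FormField V M) (hom : ∀ s ∈ Icc (0 : ℝ) 1, IsSymplectic (om s))
    {ι : Type*} [Finite ι] (b : V → V → ℝ) (D : ι → Set V) (Λ : ι → AddSubgroup V)
    (p : ι → V → M) (hp : ∀ i, IsFlatChart (om 0) b (D i) (Λ i) (p i))
    (hdisj : ∀ i j, i ≠ j → Disjoint (p i '' D i) (p j '' D j)) {r : ℝ} (hr : 0 < r) :
    ∃ δ > 0, ∀ (K : M → ℝ) (H : ℝ → ℝ → M → ℝ) (φ : ℝ → ℝ → M → M),
      ContMDiff 𝓘(ℝ, V) 𝓘(ℝ, ℝ) ∞ K →
      (∀ s ∈ Icc (0 : ℝ) 1, IsHamiltonianFlow (om s) (H s) (φ s) ∧ NondegFixedPoints V (φ s 1)) →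
      ContMDiff (𝓘(ℝ, ℝ).prod (𝓘(ℝ, ℝ).prod 𝓘(ℝ, V))) 𝓘(ℝ, V) ∞
        (fun q : ℝ × ℝ × M => φ q.1 q.2.1 q.2.2) →
      (∀ x, (∀ i, ∀ z ∈ D i, Metric.ball z r ⊆ D i → p i z ≠ x) →
        (x ∈ Crit 𝓘(ℝ, V) K → HessNondeg 𝓘(ℝ, V) K x) ∧
          ∀ t, PoissonZero (om 0) K (H 0 t) x) →
      (∀ i, ∃ c : ℝ, ∀ z ∈ D i, ¬ Metric.ball z r ⊆ D i →
        (∀ t, H 0 t (p i z) = K (p i z)) ∧
          ∀ k ≤ 2, ‖iteratedFDeriv ℝ k (fun w => K (p i w) - c) z‖ ≤ δ) →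
      StableMorseNumber V M ≤ (Fix0 (φ 1)).encard := by
  have h0 : (0 : ℝ) ∈ Icc (0 : ℝ) 1 := ⟨le_rfl, zero_le_one⟩
  obtain ⟨δ, hδ, h⟩ := Flat.localized_ineq (hom 0 h0).old b D Λ p (fun i => (hp i).old) hdisj hr
  refine ⟨δ, hδ, fun K H φ hK hH hs hout hshell => ?_⟩
  have h1 := encard_Fix0_eq φ hs (fun s hs x => (hH s hs).1.zero x) (fun s hs => (hH s hs).2)
  refine (stableMorseNumber_le V M).trans (le_trans ?_ (le_of_eq h1))
  refine h K (H 0) (φ 0) hK (hH 0 h0).1.old.1 (hH 0 h0).1.old.2 (hH 0 h0).2 ?_ hshell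
  intro x hx
  obtain ⟨h2, h3⟩ := hout x hx
  exact ⟨fun hxK => (hessNondeg_iff hK x).1 (h2 (by rwa [crit_eq])), h3⟩

end Vale.Agent.P265.Loc
end
end
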